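import Vale.Agent.P298.H863.C10

/-!
# P298, S1-GEO, R0: the form `η = Y ^ (d - 4) w_S` as a section of the pulled back canonical bundle
-/

open scoped ContDiff ComplexConjugate Topology Matrix
open Vale.Agent.P298.H39 Vale.Agent.P272.K Filter Set

noncomputable section

namespace Vale.Agent.P298.H863

section gen
variable {K : ℕ} {Ω : Set ℂ} {G : ℂ × VN (K + 3) → (Fin K → ℂ)} {dg : Fin K → ℕ}

/-- chain rule for the fibre derivatives of a lift -/
lemma dl_comp {L' : Cm 2 × ℂ → ℂ × VN (K + 3)} {T : Cm 2 × ℂ → Cm 2 × ℂ} {q : Cm 2 × ℂ}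
    (hL' : AnalyticAt ℂ L' (T q)) (hT : AnalyticAt ℂ T q)
    (hT2 : ∀ᶠ q' in 𝓝 q, (T q').2 = q'.2) (j : Fin 2) :
    dl (fun q => L' (T q)) q j =
      (fderiv ℂ T q (Pi.single j 1, 0)).1 0 • dl L' (T q) 0 +
        (fderiv ℂ T q (Pi.single j 1, 0)).1 1 • dl L' (T q) 1 := by
  have h1 : HasFDerivAt (fun q => L' (T q)) ((fderiv ℂ L' (T q)).comp (fderiv ℂ T q)) q :=
    HasFDerivAt.comp (g := L') (f := T) q hL'.differentiableAt.hasFDerivAt
      hT.differentiableAt.hasFDerivAt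
  have h2 : (fderiv ℂ T q (Pi.single j 1, 0)).2 = 0 := by
    have h3 : HasFDerivAt (fun q => (T q).2) ((ContinuousLinearMap.snd ℂ (Cm 2) ℂ).comp
        (fderiv ℂ T q)) q := hT.differentiableAt.hasFDerivAt.snd
    have h4 : HasFDerivAt (fun q : Cm 2 × ℂ => q.2) (ContinuousLinearMap.snd ℂ (Cm 2) ℂ) q :=
      hasFDerivAt_snd
    have h5 := (h4.congr_of_eventuallyEq hT2).unique h3
    have h6 := congrArg (fun l : Cm 2 × ℂ →L[ℂ] ℂ => l (Pi.single j 1, 0)) h5
    exact h6.symm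
  rw [dl, h1.fderiv, ContinuousLinearMap.comp_apply]
  set w := fderiv ℂ T q (Pi.single j 1, 0) with hw
  have h5 : w = w.1 0 • ((Pi.single 0 1, 0) : Cm 2 × ℂ) +
      w.1 1 • ((Pi.single 1 1, 0) : Cm 2 × ℂ) := by
    refine Prod.ext ?_ (by simp [h2])
    funext i
    fin_cases i <;> simp
  conv_lhs => rw [h5, map_add, map_smul, map_smul]
  rfl

/-- the residue form on linear combinations -/
lemma res_comb {g : VN (K + 3) →L[ℂ] (Fin K → ℂ)} (hg : ∀ a, ∃ v, g v = a) {x u v : VN (K + 3)}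
    (hx : g x = 0) (hu : g u = 0) (hv : g v = 0) (a b c d : ℂ) :
    res g x (a • u + b • v) (c • u + d • v) = (a * d - b * c) * res g x u v := by
  obtain ⟨l, hl⟩ := exists_compl hg
  have hd0 : cdet l g ≠ 0 := cdet_ne_zero hl
  have h1 := res_mul_cdet hg l hx (u := a • u + b • v) (v := c • u + d • v)
    (by rw [map_add, map_smul, map_smul, hu, hv]; simp)
    (by rw [map_add, map_smul, map_smul, hu, hv]; simp)
  have h2 := res_mul_cdet hg l hx hu hv
  have h3 := pdet_change l x u v 1 0 0 a b c d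
  rw [one_smul, zero_smul, zero_add, zero_add, one_mul] at h3
  rw [h3, ← h2] at h1
  apply mul_right_cancel₀ hd0
  rw [h1]
  ring

/-- scaling of the residue form -/
lemma res_scale (h : CIF Ω G dg) {N : ℕ} (hN : N + (K + 3) = ∑ k, dg k) {y : ℂ × VN (K + 3)}
    (hy : y ∈ Cone Ω G) {u v : VN (K + 3)} (hu : gv G y u = 0) (hv : gv G y v = 0) {c : ℂ}
    (hc : c ≠ 0) (a b : ℂ) :
    c ^ N * res (gv G (y.1, c • y.2)) (c • y.2) (a • y.2 + c • u) (b • y.2 + c • v) =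
      res (gv G y) y.2 u v := by
  have hg := gv_surj h hy
  have hy' : (y.1, c • y.2) ∈ Cone Ω G := by
    refine ⟨hy.1, smul_ne_zero hc hy.2.1, ?_⟩
    funext k
    rw [h.hom _ hy.1]
    have : G (y.1, y.2) k = 0 := by
      have : G y = 0 := hy.2.2
      exact congrFun this k
    rw [this, mul_zero]
    rfl
  obtain ⟨l, hl⟩ := exists_compl hg
  have hd0 : cdet l (gv G y) ≠ 0 := cdet_ne_zero hl
  have hk : ∀ w, gv G y w = 0 → gv G (y.1, c • y.2) w = 0 := by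
    intro w hw
    funext k
    have h1 := gv_smul h hy.1 (c := c) k w
    rw [hw] at h1
    have h2 : c * gv G (y.1, c • y.2) w k = 0 := by rw [h1]; simp
    exact (mul_eq_zero.1 h2).resolve_left hc
  have hx := gv_self h hy
  have h1 := res_mul_cdet (gv_surj h hy') l (x := c • y.2) (u := a • y.2 + c • u)
    (v := b • y.2 + c • v) (hk _ (by rw [map_smul, hx, smul_zero]))
    (hk _ (by rw [map_add, map_smul, map_smul, hx, hu]; simp))
    (hk _ (by rw [map_add, map_smul, map_smul, hx, hv]; simp))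
  have h2 := res_mul_cdet hg l hx hu hv
  have h3 := cdet_smul h hy.1 (c := c) l
  have h4 : pdet l (c • y.2) (a • y.2 + c • u) (b • y.2 + c • v) =
      c * (c * c - 0 * 0) * pdet l y.2 u v := by
    rw [← pdet_change l y.2 u v c a b c 0 0 c]
    simp
  rw [h4, ← h2] at h1
  have h6 : c ^ (K + 3) * cdet l (gv G y) ≠ 0 := mul_ne_zero (pow_ne_zero _ hc) hd0
  apply mul_right_cancel₀ h6
  calc c ^ N * res (gv G (y.1, c • y.2)) (c • y.2) (a • y.2 + c • u) (b • y.2 + c • v) *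
        (c ^ (K + 3) * cdet l (gv G y))
      = res (gv G (y.1, c • y.2)) (c • y.2) (a • y.2 + c • u) (b • y.2 + c • v) *
        (c ^ (N + (K + 3)) * cdet l (gv G y)) := by ring
    _ = c ^ K * (res (gv G (y.1, c • y.2)) (c • y.2) (a • y.2 + c • u) (b • y.2 + c • v) *
        cdet l (gv G (y.1, c • y.2))) := by rw [hN, ← h3]; ring
    _ = _ := by rw [h1]; ring

end gen

/-- derivative of the initial part -/
lemma dl_ini {L : Cm 2 × ℂ → ℂ × VN (2 + 3)} {q : Cm 2 × ℂ} (hL : AnalyticAt ℂ L q) (j : Fin 2) :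
    dl (K := 1) (fun q => ((L q).1, ini (L q).2)) q j = ini (dl L q j) := by
  have h1 : HasFDerivAt (fun q => (((L q).1, ini (L q).2) : ℂ × VN (1 + 3)))
      (((ContinuousLinearMap.fst ℂ ℂ (VN (2 + 3))).comp (fderiv ℂ L q)).prod
        (ini.comp ((ContinuousLinearMap.snd ℂ ℂ (VN (2 + 3))).comp (fderiv ℂ L q)))) q :=
    hL.differentiableAt.hasFDerivAt.fst.prodMk
      (ini.hasFDerivAt.comp q hL.differentiableAt.hasFDerivAt.snd)
  rw [dl, h1.fderiv]
  rfl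

/-- powers of a coordinate -/
def pwr {n : ℕ} (a : Fin n) (l : ℕ) (y : ℂ × VN n) : ℂ := y.2 a ^ l

lemma hPol_pwr {K : ℕ} (Ω : Set ℂ) (a : Fin (K + 3)) (l : ℕ) : HPol Ω (pwr a l) l where
  an t _ z _ := (((ContinuousLinearMap.proj (R := ℂ) (φ := fun _ : Fin (K + 3) => ℂ) a).comp
    (ContinuousLinearMap.snd ℂ ℂ (VN (K + 3)))).analyticAt _).pow l
  hom t _ c _ z := by
    simp only [pwr, Pi.smul_apply, smul_eq_mul, mul_pow]

variable {D Ω : Set ℂ} {d M : ℕ} {G H : ℂ × VN (1 + 3) → ℂ}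

/-- an index with non-zero coordinate -/
def idx (x : VN (1 + 3)) : Fin (1 + 3) :=
  open Classical in if h : ∃ a, x a ≠ 0 then h.choose else 0

lemma idx_ne {x : VN (1 + 3)} (hx : x ≠ 0) : x (idx x) ≠ 0 := by
  have h : ∃ a, x a ≠ 0 := Function.ne_iff.mp hx
  rw [idx, dif_pos h]
  exact h.choose_spec

/-- the section `Y ^ (d - 4) w_S` of the pulled back canonical bundle -/
def hsec (h : Dat D d M G H) (hΩD : Ω ⊆ D) (hZ : CIF Ω (gZ G H M) ![d, M])
    (ε : PC (TZ D (gS G))) (z : TZ Ω (gZ G H M)) : ℂ :=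
  (lst (exists_rep z).choose.2 / ini (exists_rep z).choose.2 (idx (ini (exists_rep z).choose.2))) ^
    (d - 4) * cf (pwr (idx (ini (exists_rep z).choose.2)) (d - 4)) ε (ε (prZ h hΩD hZ z))

section
variable {h : Dat D d M G H} {hΩD : Ω ⊆ D} {hZ : CIF Ω (gZ G H M) ![d, M]}
  {ε ε' : PC (TZ D (gS G))} {e : PC (TZ Ω (gZ G H M))} {z : TZ Ω (gZ G H M)}

lemma hN_S (hd : 5 ≤ d) : (d - 4) + (1 + 3) = ∑ _k : Fin 1, d := by
  simp only [Finset.univ_unique, Finset.sum_const, Finset.card_singleton, one_smul]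
  omega

lemma hsec_core (hd : 5 ≤ d) (hε : IsPC ε) (hz : prZ h hΩD hZ z ∈ ε.source)
    {LS : Cm 2 × ℂ → ℂ × VN (1 + 3)} (hLS : IsL LS ε (ε (prZ h hΩD hZ z)))
    {y : ℂ × VN (2 + 3)} {a : Fin (1 + 3)} (ha : ini y.2 a ≠ 0) {c : ℂ}
    (hc : (LS (ε (prZ h hΩD hZ z))).2 = c • ini y.2) :
    (lst y.2 / ini y.2 a) ^ (d - 4) * cf (pwr a (d - 4)) ε (ε (prZ h hΩD hZ z)) =
      (c * lst y.2) ^ (d - 4) * res (gv (gS G) (LS (ε (prZ h hΩD hZ z))))
        (LS (ε (prZ h hΩD hZ z))).2 (dl LS (ε (prZ h hΩD hZ z)) 0)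
        (dl LS (ε (prZ h hΩD hZ z)) 1) := by
  rw [cf_eq (cifS h) (hPol_pwr D a (d - 4)) (hN_S hd) hε (ε.map_source hz) hLS, cfL, pwr, hc]
  simp only [Pi.smul_apply, smul_eq_mul, mul_pow, div_pow]
  have h1 : (ini y.2 a) ^ (d - 4) ≠ 0 := pow_ne_zero _ ha
  field_simp

lemma hsec_eq (hd : 5 ≤ d) (hε : IsPC ε) (hz : prZ h hΩD hZ z ∈ ε.source)
    {y : ℂ × VN (2 + 3)} (hy : Rep y z) {a : Fin (1 + 3)} (ha : ini y.2 a ≠ 0) :
    hsec h hΩD hZ ε z =
      (lst y.2 / ini y.2 a) ^ (d - 4) * cf (pwr a (d - 4)) ε (ε (prZ h hΩD hZ z)) := by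
  obtain ⟨LS, hLS⟩ := hε.exists_isL (ε.map_source hz)
  have h0 := (exists_rep z).choose_spec
  set y₀ := (exists_rep z).choose with hy₀
  have hL0 : Rep (LS (ε (prZ h hΩD hZ z))) (prZ h hΩD hZ z) := by
    have := hLS.rep.self_of_nhds
    rwa [ε.left_inv hz] at this
  have h1 := prZ_ind h hΩD hZ y₀ z h0
  obtain ⟨c₀, hc₀, hL⟩ := h1.eq_smul hL0
  obtain ⟨c', hc', hy'⟩ := h0.eq_smul hy
  have h2 : (LS (ε (prZ h hΩD hZ z))).2 = c₀ • ini y₀.2 := by rw [hL]
  have h3 : (LS (ε (prZ h hΩD hZ z))).2 = (c₀ / c') • ini y.2 := by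
    rw [h2, hy', map_smul, smul_smul, div_mul_cancel₀ _ hc']
  have hne : ini y₀.2 ≠ 0 := h1.1
  rw [hsec_core hd hε hz hLS ha h3]
  rw [hsec]
  rw [← hy₀]
  rw [hsec_core hd hε hz hLS (idx_ne hne) h2, hy', map_smul, smul_eq_mul]
  congr 2
  field_simp

/-- change of the chart of the surface -/
lemma hsec_change (hd : 5 ≤ d) (hε : IsPC ε) (hε' : IsPC ε') (hz : prZ h hΩD hZ z ∈ ε.source)
    (hz' : prZ h hΩD hZ z ∈ ε'.source) (u x : Cm 2) :
    hsec h hΩD hZ ε z * (u 0 * x 1 - u 1 * x 0) = hsec h hΩD hZ ε' z *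
      (fj ε ε' (prZ h hΩD hZ z) u 0 * fj ε ε' (prZ h hΩD hZ z) x 1 -
        fj ε ε' (prZ h hΩD hZ z) u 1 * fj ε ε' (prZ h hΩD hZ z) x 0) := by
  obtain ⟨y, hy⟩ := exists_rep z
  have hne : ini y.2 ≠ 0 := (prZ_ind h hΩD hZ y z hy).1
  rw [hsec_eq hd hε hz hy (idx_ne hne), hsec_eq hd hε' hz' hy (idx_ne hne),
    cf_change (cifS h) (hPol_pwr D _ (d - 4)) (hN_S hd) hε hε' hz hz',
    fj_expand (cifS h) hε hε' hz hz' u, fj_expand (cifS h) hε hε' hz hz' x]
  simp only [Pi.add_apply, Pi.smul_apply, smul_eq_mul]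
  ring

lemma prZ_hol (hε : IsPC ε) (he : IsPC e) (hz : z ∈ e.source) (hz' : prZ h hΩD hZ z ∈ ε.source) :
    AnalyticAt ℂ (fun q => ε (prZ h hΩD hZ (e.symm q))) (e z) :=
  ((prZ_ind h hΩD hZ).hol he hε hz hz').analyticAt

/-- holomorphy -/
lemma hsec_hol (hd : 5 ≤ d) (hε : IsPC ε) (he : IsPC e) (hz : z ∈ e.source)
    (hz' : prZ h hΩD hZ z ∈ ε.source) :
    AnalyticAt ℂ (fun q => hsec h hΩD hZ ε (e.symm q)) (e z) := by
  obtain ⟨L, hL⟩ := he.exists_isL (e.map_source hz)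
  have hr : Rep (L (e z)) z := by
    have := hL.rep.self_of_nhds
    rwa [e.left_inv hz] at this
  have hne : ini (L (e z)).2 ≠ 0 := (prZ_ind h hΩD hZ _ z hr).1
  set a := idx (ini (L (e z)).2) with ha
  have ha0 : ini (L (e z)).2 a ≠ 0 := idx_ne hne
  have h1 : AnalyticAt ℂ (fun q => ini (L q).2 a) (e z) :=
    AnalyticAt.comp (g := fun y : ℂ × VN (2 + 3) => ini y.2 a) (f := L)
      (((ContinuousLinearMap.proj (R := ℂ) (φ := fun _ : Fin (1 + 3) => ℂ) a).comp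
        (ini.comp (ContinuousLinearMap.snd ℂ ℂ (VN (2 + 3))))).analyticAt _) hL.an
  have h2 : AnalyticAt ℂ (fun q => lst (L q).2) (e z) :=
    AnalyticAt.comp (g := fun y : ℂ × VN (2 + 3) => lst y.2) (f := L) (analyticAt_lst _) hL.an
  have hT := prZ_hol (h := h) (hΩD := hΩD) (hZ := hZ) hε he hz hz'
  have hTz : ε (prZ h hΩD hZ (e.symm (e z))) = ε (prZ h hΩD hZ z) := by rw [e.left_inv hz]
  have h3 : AnalyticAt ℂ (fun q => cf (pwr a (d - 4)) ε (ε (prZ h hΩD hZ (e.symm q)))) (e z) := by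
    refine AnalyticAt.comp (g := cf (pwr a (d - 4)) ε)
      (f := fun q => ε (prZ h hΩD hZ (e.symm q))) ?_ hT
    rw [hTz]
    exact cf_analyticAt (cifS h) (hPol_pwr D a (d - 4)) (hN_S hd) hε (ε.map_source hz')
  refine (((h2.div h1 ha0).pow (d - 4)).mul h3).congr ?_
  have hcont : ∀ᶠ q in 𝓝 (e z), prZ h hΩD hZ (e.symm q) ∈ ε.source := by
    have h4 : ContinuousAt (fun q => prZ h hΩD hZ (e.symm q)) (e z) :=
      ((prZ_ind h hΩD hZ).continuous hZ rfl).continuousAt.comp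
        (e.continuousAt_symm (e.map_source hz))
    refine h4.eventually (ε.open_source.mem_nhds ?_)
    show prZ h hΩD hZ (e.symm (e z)) ∈ ε.source
    rw [e.left_inv hz]
    exact hz'
  filter_upwards [hL.rep, hcont, h1.continuousAt.eventually_ne ha0] with q h4 h5 h6
  exact (hsec_eq hd hε h5 h4 h6).symm

end

/-- the polynomial of `η` -/
def Peta (H : ℂ × VN (1 + 3) → ℂ) (d M : ℕ) : ℂ × VN (2 + 3) → ℂ :=
  mulY (fun y => M * H y) (d - 5)

lemma hPol_mulY {Q : ℂ × VN (1 + 3) → ℂ} {m : ℕ} (j : ℕ)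
    (hQa : ∀ t ∈ Ω, ∀ z, AnalyticAt ℂ Q (t, z))
    (hQh : ∀ t ∈ Ω, ∀ c : ℂ, ∀ z : VN (1 + 3), Q (t, c • z) = c ^ m * Q (t, z)) :
    HPol Ω (mulY Q j) (m + j) where
  an t ht x _ := by
    have h1 : AnalyticAt ℂ (fun y : ℂ × VN (2 + 3) => Q (y.1, ini y.2)) (t, x) :=
      AnalyticAt.comp (g := Q) (hQa t ht _) (analyticAt_ini _)
    exact h1.mul ((analyticAt_lst _).pow j)
  hom t ht c _ x := by
    simp only [mulY, map_smul, hQh t ht, smul_eq_mul]
    ring

lemma hPol_Peta (h : Dat D d M G H) (hΩD : Ω ⊆ D) : HPol Ω (Peta H d M) (M + (d - 5)) :=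
  hPol_mulY (d - 5) (fun t ht z => analyticAt_const.mul (h.anH t (hΩD ht) z))
    (fun t ht c z => by rw [h.homH t (hΩD ht)]; ring)

lemma hN_Z (hd : 5 ≤ d) : (M + (d - 5)) + (2 + 3) = ∑ k, ![d, M] k := by
  rw [Fin.sum_univ_two]
  show (M + (d - 5)) + (2 + 3) = d + M
  omega

section
variable {h : Dat D d M G H} {hΩD : Ω ⊆ D} {hZ : CIF Ω (gZ G H M) ![d, M]}
  {ε ε' : PC (TZ D (gS G))} {e : PC (TZ Ω (gZ G H M))} {z : TZ Ω (gZ G H M)}

/-- the coefficient of `η` and the section `hsec` -/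
lemma cf_eta (hd : 5 ≤ d) (hε : IsPC ε) (he : IsPC e) (hz : z ∈ e.source)
    (hz' : prZ h hΩD hZ z ∈ ε.source) :
    cf (Peta H d M) e (e z) = hsec h hΩD hZ ε z *
      ((fderiv ℂ (fun q => ε (prZ h hΩD hZ (e.symm q))) (e z) (Pi.single 0 1, 0)).1 0 *
        (fderiv ℂ (fun q => ε (prZ h hΩD hZ (e.symm q))) (e z) (Pi.single 1 1, 0)).1 1 -
      (fderiv ℂ (fun q => ε (prZ h hΩD hZ (e.symm q))) (e z) (Pi.single 0 1, 0)).1 1 *
        (fderiv ℂ (fun q => ε (prZ h hΩD hZ (e.symm q))) (e z) (Pi.single 1 1, 0)).1 0) := by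
  have hq := e.map_source hz
  obtain ⟨L, hL⟩ := he.exists_isL hq
  obtain ⟨LS, hLS⟩ := hε.exists_isL (ε.map_source hz')
  have hr : Rep (L (e z)) z := by
    have := hL.rep.self_of_nhds
    rwa [e.left_inv hz] at this
  have hcone := hL.mem_cone hZ
  have htD : (L (e z)).1 ∈ D := hΩD hcone.1
  have hconeS := cone_ini h hΩD hcone
  have hne : ini (L (e z)).2 ≠ 0 := hconeS.2.1
  set a := idx (ini (L (e z)).2) with ha
  have ha0 : ini (L (e z)).2 a ≠ 0 := idx_ne hne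
  set T : Cm 2 × ℂ → Cm 2 × ℂ := fun q => ε (prZ h hΩD hZ (e.symm q)) with hTdef
  have hT : AnalyticAt ℂ T (e z) := prZ_hol (h := h) (hΩD := hΩD) (hZ := hZ) hε he hz hz'
  have hTz : T (e z) = ε (prZ h hΩD hZ z) := by
    simp only [hTdef]; rw [e.left_inv hz]
  rw [cf_eq hZ (hPol_Peta h hΩD) (hN_Z hd) he hq hL, hsec_eq hd hε hz' hr ha0]
  have hYM : lst (L (e z)).2 ^ M = H ((L (e z)).1, ini (L (e z)).2) :=
    (gZ_zero_iff.1 (show gZ G H M ((L (e z)).1, (L (e z)).2) = 0 from hcone.2.2)).2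
  by_cases hY : lst (L (e z)).2 = 0
  · rw [hY, zero_pow h.hM.ne'] at hYM
    have h1 : Peta H d M (L (e z)) = 0 := by
      simp only [Peta, mulY]
      rw [← hYM]
      simp
    rw [cfL, h1, hY, zero_div, zero_pow (by omega)]
    ring
  · -- the two lifts of the projection
    have hrS : Rep ((L (e z)).1, ini (L (e z)).2) (prZ h hΩD hZ z) := prZ_ind h hΩD hZ _ z hr
    set A : Cm 2 × ℂ → ℂ × VN (1 + 3) := fun q => ((L q).1, ini (L q).2) with hA
    set B : Cm 2 × ℂ → ℂ × VN (1 + 3) := fun q => LS (T q) with hB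
    have hBa : AnalyticAt ℂ B (e z) := AnalyticAt.comp (g := LS) (f := T)
      (by rw [hTz]; exact hLS.an) hT
    have hAa : AnalyticAt ℂ A (e z) :=
      AnalyticAt.comp (g := fun y : ℂ × VN (2 + 3) => ((y.1, ini y.2) : ℂ × VN (1 + 3))) (f := L)
        (analyticAt_ini _) hL.an
    have hcont : ∀ᶠ q in 𝓝 (e z), prZ h hΩD hZ (e.symm q) ∈ ε.source := by
      have h4 : ContinuousAt (fun q => prZ h hΩD hZ (e.symm q)) (e z) :=
        ((prZ_ind h hΩD hZ).continuous hZ rfl).continuousAt.comp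
          (e.continuousAt_symm (e.map_source hz))
      refine h4.eventually (ε.open_source.mem_nhds ?_)
      show prZ h hΩD hZ (e.symm (e z)) ∈ ε.source
      rw [e.left_inv hz]
      exact hz'
    have hAr : ∀ᶠ q in 𝓝 (e z), Rep (A q) (prZ h hΩD hZ (e.symm q)) := by
      filter_upwards [hL.rep] with q h1
      exact prZ_ind h hΩD hZ _ _ h1
    have hBr : ∀ᶠ q in 𝓝 (e z), Rep (B q) (prZ h hΩD hZ (e.symm q)) := by
      have h1 : Tendsto T (𝓝 (e z)) (𝓝 (ε (prZ h hΩD hZ z))) := by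
        have := hT.continuousAt.tendsto
        rwa [hTz] at this
      filter_upwards [h1.eventually hLS.rep, hcont] with q h2 h3
      simp only [hTdef] at h2
      rw [ε.left_inv h3] at h2
      exact h2
    have hpa : ∀ {E : Cm 2 × ℂ → ℂ × VN (1 + 3)}, AnalyticAt ℂ E (e z) →
        AnalyticAt ℂ (fun q => (E q).2 a) (e z) := fun {E} hE =>
      AnalyticAt.comp (g := fun y : ℂ × VN (1 + 3) => y.2 a) (f := E)
        (((ContinuousLinearMap.proj (R := ℂ) (φ := fun _ : Fin (1 + 3) => ℂ) a).comp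
          (ContinuousLinearMap.snd ℂ ℂ (VN (1 + 3)))).analyticAt _) hE
    have hBz : (B (e z)).2 a ≠ 0 := by
      obtain ⟨c, hc, hc'⟩ := hAr.self_of_nhds.eq_smul hBr.self_of_nhds
      rw [hc']
      exact mul_ne_zero hc ha0
    set c : Cm 2 × ℂ → ℂ := fun q => (A q).2 a / (B q).2 a with hc
    have hca : AnalyticAt ℂ c (e z) := (hpa hAa).div (hpa hBa) hBz
    have hc0 : c (e z) ≠ 0 := div_ne_zero ha0 hBz
    have hcAB : ∀ᶠ q in 𝓝 (e z), A q = ((B q).1, c q • (B q).2) := by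
      filter_upwards [hAr, hBr, (hpa hBa).continuousAt.eventually_ne hBz] with q h1 h2 h3
      obtain ⟨k, hk, hk'⟩ := h2.eq_smul h1
      have h4 : c q = k := by
        simp only [hc]
        rw [hk']
        simp only [Pi.smul_apply, smul_eq_mul]
        field_simp
      rw [h4, hk']
    have hconeB : B (e z) ∈ Cone D (gS G) := hBr.self_of_nhds.mem_cone (cifS h)
    have hT2 : ∀ᶠ q in 𝓝 (e z), (T q).2 = q.2 := by
      filter_upwards [hcont, e.open_target.mem_nhds hq] with q h1 h2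
      simp only [hTdef]
      rw [hε.par _ h1, (prZ_ind h hΩD hZ).t, ← he.par _ (e.map_target h2), e.right_inv h2]
    have hB0 := dl_comp (K := 1) (L' := LS) (by rw [hTz]; exact hLS.an) hT hT2 0
    have hB1 := dl_comp (K := 1) (L' := LS) (by rw [hTz]; exact hLS.an) hT hT2 1
    rw [← hB] at hB0 hB1
    have hkS0 := hLS.gv_dl (cifS h) hε (ε.map_source hz') 0
    have hkS1 := hLS.gv_dl (cifS h) hε (ε.map_source hz') 1
    have hBT : B (e z) = LS (ε (prZ h hΩD hZ z)) := by simp only [hB, hTz]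
    have hgS := gv_surj (cifS h) hconeB
    have hxS := gv_self (cifS h) hconeB
    rw [hTz] at hB0 hB1
    -- residue of the surface along `B`
    have hresB : res (gv (gS G) (B (e z))) (B (e z)).2 (dl B (e z) 0) (dl B (e z) 1) =
        ((fderiv ℂ T (e z) (Pi.single 0 1, 0)).1 0 * (fderiv ℂ T (e z) (Pi.single 1 1, 0)).1 1 -
          (fderiv ℂ T (e z) (Pi.single 0 1, 0)).1 1 * (fderiv ℂ T (e z) (Pi.single 1 1, 0)).1 0) *
        res (gv (gS G) (LS (ε (prZ h hΩD hZ z)))) (LS (ε (prZ h hΩD hZ z))).2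
          (dl LS (ε (prZ h hΩD hZ z)) 0) (dl LS (ε (prZ h hΩD hZ z)) 1) := by
      rw [hB0, hB1, hBT]
      rw [hBT] at hgS hxS
      exact res_comb hgS hxS hkS0 hkS1 _ _ _ _
    -- residue of the surface along `A`
    have hkB : ∀ j, gv (gS G) (B (e z)) (dl B (e z) j) = 0 := by
      intro j
      rw [hBT]
      fin_cases j
      · show gv (gS G) (LS (ε (prZ h hΩD hZ z))) (dl B (e z) 0) = 0
        rw [hB0, map_add, map_smul, map_smul, hkS0, hkS1]; simp
      · show gv (gS G) (LS (ε (prZ h hΩD hZ z))) (dl B (e z) 1) = 0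
        rw [hB1, map_add, map_smul, map_smul, hkS0, hkS1]; simp
    have hresA := res_scale (cifS h) (hN_S hd) hconeB (hkB 0) (hkB 1) hc0
      (fderiv ℂ c (e z) (Pi.single 0 1, 0)) (fderiv ℂ c (e z) (Pi.single 1 1, 0))
    rw [← dl_smul hBa hca hcAB 0, ← dl_smul hBa hca hcAB 1] at hresA
    have hAz : A (e z) = ((B (e z)).1, c (e z) • (B (e z)).2) := hcAB.self_of_nhds
    have hAz2 : (A (e z)).2 = c (e z) • (B (e z)).2 := by rw [hAz]
    have hAz3 : ((B (e z)).1, (A (e z)).2) = A (e z) := Prod.ext (by rw [hAz]) rfl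
    rw [← hAz2, hAz3, hresB] at hresA
    have hdA : ∀ j, dl A (e z) j = ini (dl L (e z) j) := fun j => dl_ini hL.an j
    rw [hdA, hdA] at hresA
    -- comparison with the cover
    have hZS := res_ZS h htD (x := (L (e z)).2) (gv_surj hZ hcone)
      (gv_surj (cifS h) hconeS) (gv_self hZ hcone) (hL.gv_dl hZ he hq 0) (hL.gv_dl hZ he hq 1)
    have hMY : (M : ℂ) * lst (L (e z)).2 ^ (M - 1) ≠ 0 :=
      mul_ne_zero (Nat.cast_ne_zero.2 h.hM.ne') (pow_ne_zero _ hY)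
    have hcf : cf (pwr a (d - 4)) ε (ε (prZ h hΩD hZ z)) =
        (B (e z)).2 a ^ (d - 4) * res (gv (gS G) (LS (ε (prZ h hΩD hZ z))))
          (LS (ε (prZ h hΩD hZ z))).2 (dl LS (ε (prZ h hΩD hZ z)) 0)
          (dl LS (ε (prZ h hΩD hZ z)) 1) := by
      rw [cf_eq (cifS h) (hPol_pwr D a (d - 4)) (hN_S hd) hε (ε.map_source hz') hLS, cfL, pwr, hBT]
    rw [hcf]
    have hca2 : c (e z) = ini (L (e z)).2 a / (B (e z)).2 a := rfl
    rw [hca2] at hresA
    have hP : Peta H d M (L (e z)) = (M : ℂ) * lst (L (e z)).2 ^ (M - 1) *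
        lst (L (e z)).2 ^ (d - 4) := by
      simp only [Peta, mulY]
      rw [← hYM]
      have h1 : lst (L (e z)).2 ^ M = lst (L (e z)).2 ^ (M - 1) * lst (L (e z)).2 := by
        rw [← pow_succ, Nat.sub_add_cancel h.hM]
      have h2 : lst (L (e z)).2 ^ (d - 4) = lst (L (e z)).2 ^ (d - 5) * lst (L (e z)).2 := by
        rw [← pow_succ]
        congr 1
        omega
      rw [h1, h2]
      ring
    have e1 : cfL (gZ G H M) (Peta H d M) L (e z) = lst (L (e z)).2 ^ (d - 4) *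
        res (gv (gS G) ((L (e z)).1, ini (L (e z)).2)) (ini (L (e z)).2)
          (ini (dl L (e z) 0)) (ini (dl L (e z) 1)) := by
      rw [← hZS, cfL, hP]
      ring
    have e2 : (A (e z)) = ((L (e z)).1, ini (L (e z)).2) := rfl
    have e3 : (A (e z)).2 = ini (L (e z)).2 := rfl
    rw [e3, e2] at hresA
    rw [e1]
    set R := res (gv (gS G) ((L (e z)).1, ini (L (e z)).2)) (ini (L (e z)).2)
          (ini (dl L (e z) 0)) (ini (dl L (e z) 1)) with hR
    set R' := res (gv (gS G) (LS (ε (prZ h hΩD hZ z))))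
          (LS (ε (prZ h hΩD hZ z))).2 (dl LS (ε (prZ h hΩD hZ z)) 0)
          (dl LS (ε (prZ h hΩD hZ z)) 1) with hR'
    set J := (fderiv ℂ T (e z) (Pi.single 0 1, 0)).1 0 *
        (fderiv ℂ T (e z) (Pi.single 1 1, 0)).1 1 -
      (fderiv ℂ T (e z) (Pi.single 0 1, 0)).1 1 *
        (fderiv ℂ T (e z) (Pi.single 1 1, 0)).1 0 with hJ
    have e4 : R = (ini (L (e z)).2 a / (B (e z)).2 a)⁻¹ ^ (d - 4) * (J * R') := by
      rw [← hresA, inv_pow, ← mul_assoc, inv_mul_cancel₀, one_mul]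
      exact pow_ne_zero _ (div_ne_zero ha0 hBz)
    rw [e4, inv_div, div_pow, div_pow]
    field_simp

/-- the form `η` in terms of the section `hsec` -/
lemma eta_eq (hd : 5 ≤ d) (hε : IsPC ε) (he : IsPC e) (hz : z ∈ e.source)
    (hz' : prZ h hΩD hZ z ∈ ε.source) (u x : Cm 2) :
    fm (cf (Peta H d M)) e (e z) u x = hsec h hΩD hZ ε z *
      ((fderiv ℝ (fun q => ε (prZ h hΩD hZ (e.symm q))) (e z) (u, 0)).1 0 *
        (fderiv ℝ (fun q => ε (prZ h hΩD hZ (e.symm q))) (e z) (x, 0)).1 1 -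
      (fderiv ℝ (fun q => ε (prZ h hΩD hZ (e.symm q))) (e z) (u, 0)).1 1 *
        (fderiv ℝ (fun q => ε (prZ h hΩD hZ (e.symm q))) (e z) (x, 0)).1 0) := by
  have hT := (prZ_hol (h := h) (hΩD := hΩD) (hZ := hZ) hε he hz hz').differentiableAt
  have h1 : fderiv ℝ (fun q => ε (prZ h hΩD hZ (e.symm q))) (e z) =
      (fderiv ℂ (fun q => ε (prZ h hΩD hZ (e.symm q))) (e z)).restrictScalars ℝ :=
    (hT.hasFDerivAt.restrictScalars ℝ).fderiv
  rw [fm_apply, cf_eta hd hε he hz hz', h1]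
  set T := fderiv ℂ (fun q => ε (prZ h hΩD hZ (e.symm q))) (e z) with hTd
  have h2 : ∀ u : Cm 2, (T (u, 0)).1 = u 0 • (T (Pi.single 0 1, 0)).1 +
      u 1 • (T (Pi.single 1 1, 0)).1 := by
    intro u
    have h3 : ((u, 0) : Cm 2 × ℂ) = u 0 • ((Pi.single 0 1, 0) : Cm 2 × ℂ) +
        u 1 • ((Pi.single 1 1, 0) : Cm 2 × ℂ) := by
      refine Prod.ext ?_ (by simp)
      funext i
      fin_cases i <;> simp
    conv_lhs => rw [h3, map_add, map_smul, map_smul]
    rfl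
  simp only [ContinuousLinearMap.coe_restrictScalars']
  rw [h2 u, h2 x]
  simp only [Pi.add_apply, Pi.smul_apply, smul_eq_mul]
  ring

end

end Vale.Agent.P298.H863
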