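import Vale.Agent.P298.H863.C2

/-!
# P298, S1-GEO, R0: existence of charts, the family
-/

open scoped ContDiff ComplexConjugate Topology
open Vale.Agent.P298.H39 Vale.Agent.P272.K Filter Set

noncomputable section

namespace Vale.Agent.P298.H863

variable {n K : ℕ} {Ω : Set ℂ} {G : ℂ × VN n → (Fin K → ℂ)} {dg : Fin K → ℕ}

/-- straightening map -/
def psi (G : ℂ × VN n → (Fin K → ℂ)) (a : Fin n) (μ : VN n →L[ℂ] Cm 2) (y : ℂ × VN n) :
    (Cm 2 × ℂ) × ((Fin K → ℂ) × ℂ) := ((μ y.2, y.1), (G y, y.2 a))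

/-- derivative of the straightening map -/
def dpsi (G : ℂ × VN n → (Fin K → ℂ)) (a : Fin n) (μ : VN n →L[ℂ] Cm 2) (y : ℂ × VN n) :
    ℂ × VN n →L[ℂ] (Cm 2 × ℂ) × ((Fin K → ℂ) × ℂ) :=
  ((μ.comp (ContinuousLinearMap.snd ℂ ℂ (VN n))).prod (ContinuousLinearMap.fst ℂ ℂ (VN n))).prod
    ((fderiv ℂ G y).prod ((ContinuousLinearMap.proj (R := ℂ) (φ := fun _ : Fin n => ℂ) a).comp
      (ContinuousLinearMap.snd ℂ ℂ (VN n))))

lemma dpsi_apply (a : Fin n) (μ : VN n →L[ℂ] Cm 2) (y v : ℂ × VN n) :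
    dpsi G a μ y v = ((μ v.2, v.1), (fderiv ℂ G y v, v.2 a)) := rfl

lemma psi_analyticAt (a : Fin n) (μ : VN n →L[ℂ] Cm 2) {y : ℂ × VN n} (hG : AnalyticAt ℂ G y) :
    AnalyticAt ℂ (psi G a μ) y := by
  have h1 : AnalyticAt ℂ (fun y : ℂ × VN n => μ y.2) y :=
    (μ.comp (ContinuousLinearMap.snd ℂ ℂ (VN n))).analyticAt y
  have h2 : AnalyticAt ℂ (fun y : ℂ × VN n => y.2 a) y :=
    ((ContinuousLinearMap.proj (R := ℂ) (φ := fun _ : Fin n => ℂ) a).comp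
      (ContinuousLinearMap.snd ℂ ℂ (VN n))).analyticAt y
  exact (h1.prod analyticAt_fst).prod (hG.prod h2)

lemma psi_hasFDerivAt (a : Fin n) (μ : VN n →L[ℂ] Cm 2) {y : ℂ × VN n} (hG : AnalyticAt ℂ G y) :
    HasFDerivAt (psi G a μ) (dpsi G a μ y) y := by
  have h1 : HasFDerivAt (fun y : ℂ × VN n => μ y.2)
      (μ.comp (ContinuousLinearMap.snd ℂ ℂ (VN n))) y :=
    (μ.comp (ContinuousLinearMap.snd ℂ ℂ (VN n))).hasFDerivAt
  have h2 : HasFDerivAt (fun y : ℂ × VN n => y.2 a)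
      ((ContinuousLinearMap.proj (R := ℂ) (φ := fun _ : Fin n => ℂ) a).comp
      (ContinuousLinearMap.snd ℂ ℂ (VN n))) y :=
    ((ContinuousLinearMap.proj (R := ℂ) (φ := fun _ : Fin n => ℂ) a).comp
      (ContinuousLinearMap.snd ℂ ℂ (VN n))).hasFDerivAt
  exact (h1.prodMk hasFDerivAt_fst).prodMk (hG.differentiableAt.hasFDerivAt.prodMk h2)

lemma dpsi_injective (a : Fin n) (μ : VN n →L[ℂ] Cm 2) {y : ℂ × VN n}
    (hμ : ∀ v : VN n, fderiv ℂ G y (0, v) = 0 → v a = 0 → μ v = 0 → v = 0) :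
    Function.Injective (dpsi G a μ y) := by
  rw [injective_iff_map_eq_zero]
  rintro ⟨τ, v⟩ hv
  rw [dpsi_apply] at hv
  simp only [Prod.mk_eq_zero] at hv
  obtain ⟨⟨h1, h2⟩, h3, h4⟩ := hv
  subst h2
  rw [hμ v h3 h4 h1]
  rfl

/-- derivative of the straightening map as an isomorphism -/
def epsi (hn : n = K + 3) (a : Fin n) (μ : VN n →L[ℂ] Cm 2) {y : ℂ × VN n}
    (hμ : ∀ v : VN n, fderiv ℂ G y (0, v) = 0 → v a = 0 → μ v = 0 → v = 0) :
    (ℂ × VN n) ≃L[ℂ] (Cm 2 × ℂ) × ((Fin K → ℂ) × ℂ) :=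
  (LinearEquiv.ofInjectiveOfFinrankEq (dpsi G a μ y : (ℂ × VN n) →ₗ[ℂ] _)
    (dpsi_injective a μ hμ) (by
      simp only [Module.finrank_prod, Module.finrank_self, Module.finrank_fintype_fun_eq_card,
        Fintype.card_fin]
      omega)).toContinuousLinearEquiv

lemma epsi_coe (hn : n = K + 3) (a : Fin n) (μ : VN n →L[ℂ] Cm 2) {y : ℂ × VN n}
    (hμ : ∀ v : VN n, fderiv ℂ G y (0, v) = 0 → v a = 0 → μ v = 0 → v = 0) :
    (epsi hn a μ hμ : (ℂ × VN n) →L[ℂ] (Cm 2 × ℂ) × ((Fin K → ℂ) × ℂ)) = dpsi G a μ y := by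
  exact ContinuousLinearMap.ext fun v => rfl

/-- charts with prescribed linear coordinates -/
theorem exists_pc_of (h : CIF Ω G dg) (hn : n = K + 3) (z₀ : TZ Ω G) {a : Fin n}
    (ha : z₀ ∈ Ua Ω G a) (μ : VN n →L[ℂ] Cm 2)
    (hμ : ∀ v : VN n, fderiv ℂ G (sg a z₀) (0, v) = 0 → v a = 0 → μ v = 0 → v = 0) :
    ∃ e : PC (TZ Ω G), IsPC e ∧ z₀ ∈ e.source ∧
      ∀ z ∈ e.source, z ∈ Ua Ω G a ∧ e z = (μ (sg a z).2, z.t) := by
  set y₀ := sg a z₀ with hy₀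
  have hr₀ : Rep y₀ z₀ := rep_sg ha
  have hc₀ : y₀ ∈ Cone Ω G := hr₀.mem_cone h
  have hG₀ : AnalyticAt ℂ G y₀ := h.an y₀.1 hc₀.1 y₀.2
  have hd₀ : HasFDerivAt (psi G a μ) (epsi hn a μ hμ : (ℂ × VN n) →L[ℂ] _) y₀ := by
    rw [epsi_coe]
    exact psi_hasFDerivAt a μ hG₀
  have hcd : ContDiffAt ℂ ω (psi G a μ) y₀ := (psi_analyticAt a μ hG₀).contDiffAt
  set Θ : OpenPartialHomeomorph (ℂ × VN n) ((Cm 2 × ℂ) × ((Fin K → ℂ) × ℂ)) :=
    hcd.toOpenPartialHomeomorph (psi G a μ) hd₀ (by simp) with hΘ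
  have hΘc : ⇑Θ = psi G a μ := rfl
  have hys : y₀ ∈ Θ.source := ContDiffAt.mem_toOpenPartialHomeomorph_source _ _ _
  have hyt : psi G a μ y₀ ∈ Θ.target := Θ.map_source hys
  have hsa : AnalyticAt ℂ Θ.symm (psi G a μ y₀) := by
    have h1 : Θ.symm (psi G a μ y₀) = y₀ := Θ.left_inv hys
    refine (Θ.contDiffAt_symm (n := ω) (a := psi G a μ y₀) hyt (f₀' := epsi hn a μ hμ)
      ?_ ?_).analyticAt
    · rw [h1]; exact hd₀
    · rw [h1]; exact hcd
  -- the two domains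
  set S : Set (TZ Ω G) := Ua Ω G a ∩ sg a ⁻¹' Θ.source with hS
  set ι : Cm 2 × ℂ → (Cm 2 × ℂ) × ((Fin K → ℂ) × ℂ) := fun q => (q, (0, 1)) with hι
  have hιc : Continuous ι := by
    simp only [hι]; fun_prop
  set T : Set (Cm 2 × ℂ) := ι ⁻¹' (Θ.target ∩ {p | AnalyticAt ℂ Θ.symm p}) ∩ {q | q.2 ∈ Ω}
    with hT
  have hSo : IsOpen S := by
    have h1 : ContinuousOn (sg (Ω := Ω) (G := G) a) (Ua Ω G a) := fun z hz =>
      (sg_continuousAt hz).continuousWithinAt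
    exact h1.isOpen_inter_preimage (isOpen_Ua a) Θ.open_source
  have hTo : IsOpen T := by
    refine IsOpen.inter ((Θ.open_target.inter (isOpen_analyticAt ℂ Θ.symm)).preimage hιc) ?_
    exact h.isOpen.preimage continuous_snd
  set f : TZ Ω G → Cm 2 × ℂ := fun z => (μ (sg a z).2, z.t) with hf
  set g : Cm 2 × ℂ → TZ Ω G := fun q => mkz z₀ (Θ.symm (ι q)) with hg
  have hpsi : ∀ z ∈ Ua Ω G a, psi G a μ (sg a z) = ι (f z) := by
    intro z hz
    have h1 : G (sg a z) = 0 := ((rep_sg hz).mem_cone h).2.2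
    simp only [psi, hι, hf, h1, sg_self hz]
    rfl
  have hL : ∀ q ∈ T, Rep (Θ.symm (ι q)) (g q) ∧ (Θ.symm (ι q)).2 a = 1 ∧
      (μ (Θ.symm (ι q)).2, (Θ.symm (ι q)).1) = q := by
    intro q hq
    have h1 : psi G a μ (Θ.symm (ι q)) = ι q := Θ.right_inv hq.1.1
    simp only [psi, hι, Prod.mk.injEq] at h1
    obtain ⟨h2, h3, h4⟩ := h1
    have h5 : (Θ.symm (ι q)).1 ∈ Ω := by
      have h6 : (Θ.symm (ι q)).1 = q.2 := congrArg Prod.snd h2
      rw [h6]; exact hq.2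
    have h6 : (Θ.symm (ι q)).2 ≠ 0 := by
      intro h7
      have h8 : (Θ.symm (ι q)).2 a = 1 := h4
      rw [h7] at h8
      simp at h8
    exact ⟨rep_mkz ⟨h5, h6, h3⟩, h4, h2⟩
  have hlift : ∀ q ∈ T, LiftAt g q := by
    intro q hq
    have hιa : AnalyticAt ℂ ι q := analyticAt_id.prod analyticAt_const
    refine ⟨fun q => Θ.symm (ι q), AnalyticAt.comp (g := Θ.symm) (f := ι) hq.1.2 hιa, ?_⟩
    filter_upwards [hTo.mem_nhds hq] with q' hq'
    exact (hL q' hq').1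
  have hfc : ContinuousOn f S := by
    intro z hz
    have h1 := sg_continuousAt hz.1
    have h2 : ContinuousAt f z :=
      (μ.continuous.continuousAt.comp (continuousAt_snd.comp h1)).prodMk
        continuous_t.continuousAt
    exact h2.continuousWithinAt
  have hgc : ContinuousOn g T := fun q hq => (hlift q hq).continuousAt.continuousWithinAt
  have hgf : ∀ z ∈ S, g (f z) = z := by
    intro z hz
    have h1 : Θ.symm (ι (f z)) = sg a z := by
      rw [← hpsi z hz.1, ← hΘc, Θ.left_inv hz.2]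
    have h2 : Rep (sg a z) (g (f z)) := by
      simp only [hg, h1]
      exact rep_mkz ((rep_sg hz.1).mem_cone h)
    exact h2.inj (rep_sg hz.1)
  have hfg : ∀ q ∈ T, f (g q) = q := by
    intro q hq
    obtain ⟨h1, h2, h3⟩ := hL q hq
    have h4 : sg a (g q) = Θ.symm (ι q) := by
      rw [h1.sg_eq (by rw [h2]; exact one_ne_zero), h2]
      simp
    simp only [hf, h4]
    rw [h1.2.1]
    exact h3
  have hz₀S : z₀ ∈ S := ⟨ha, hys⟩
  have hz₀T : f z₀ ∈ T := by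
    refine ⟨?_, hc₀.1⟩
    show ι (f z₀) ∈ Θ.target ∩ {p | AnalyticAt ℂ Θ.symm p}
    rw [← hpsi z₀ ha]
    exact ⟨hyt, hsa⟩
  refine ⟨mkPH f g S T hSo hTo hfc hgc hgf hfg, ⟨?_, ?_, ?_⟩, ⟨hz₀S, hz₀T⟩, ?_⟩
  · intro z _
    rfl
  · intro z hz
    have hza : z ∈ Ua Ω G a := hz.1.1
    have hr := rep_sg hza
    have hne : (sg a z).2 a ≠ 0 := by rw [sg_self hza]; exact one_ne_zero
    refine AnZ.of_rep hr (E := fun y => (μ ((y.2 a)⁻¹ • y.2), y.1)) ?_ ?_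
    · have h2 : AnalyticAt ℂ (fun y : ℂ × VN n => y.2 a) (sg a z) :=
        ((ContinuousLinearMap.proj (R := ℂ) (φ := fun _ : Fin n => ℂ) a).comp
          (ContinuousLinearMap.snd ℂ ℂ (VN n))).analyticAt _
      have h3 : AnalyticAt ℂ (fun y : ℂ × VN n => (y.2 a)⁻¹ • y.2) (sg a z) :=
        (h2.inv hne).fun_smul analyticAt_snd
      exact (AnalyticAt.comp (g := μ) (f := fun y : ℂ × VN n => (y.2 a)⁻¹ • y.2)
        (μ.analyticAt _) h3).prod analyticAt_fst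
    · have h2 : ContinuousAt (fun y : ℂ × VN n => y.2 a) (sg a z) :=
        ((continuous_apply a).comp continuous_snd).continuousAt
      filter_upwards [h2.eventually_ne hne] with y hy z' hz'
      show f z' = _
      simp only [hf, hz'.sg_eq hy, hz'.2.1]
  · intro q hq
    exact hlift q hq.1
  · intro z hz
    exact ⟨hz.1.1, rfl⟩

/-- linear coordinates exist -/
theorem exists_mu (h : CIF Ω G dg) (hn : n = K + 3) {y : ℂ × VN n} (hy : y ∈ Cone Ω G)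
    {a : Fin n} (ha : y.2 a ≠ 0) : ∃ μ : VN n →L[ℂ] Cm 2,
      ∀ v : VN n, fderiv ℂ G y (0, v) = 0 → v a = 0 → μ v = 0 → v = 0 := by
  set A : VN n →ₗ[ℂ] (Fin K → ℂ) × ℂ :=
    ((fderiv ℂ G y : (ℂ × VN n) →ₗ[ℂ] (Fin K → ℂ)).comp (LinearMap.inr ℂ ℂ (VN n))).prod
      (LinearMap.proj a) with hA
  have hAv : ∀ v, A v = (fderiv ℂ G y (0, v), v a) := fun v => rfl
  have hsurj : Function.Surjective A := by
    rintro ⟨b, c⟩
    obtain ⟨v, hv⟩ := h.reg y.1 hy.1 y.2 hy.2.1 hy.2.2 b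
    refine ⟨v + ((c - v a) / y.2 a) • y.2, ?_⟩
    rw [map_add, map_smul, hAv, hAv, h.radial hy]
    have h2 : fderiv ℂ G y (0, v) = b := hv
    rw [h2]
    refine Prod.ext ?_ ?_
    · simp
    · simp only [Prod.snd_add, Prod.smul_snd, smul_eq_mul]
      field_simp
      ring
  have hW : Module.finrank ℂ (LinearMap.ker A) = 2 := by
    have h1 := LinearMap.finrank_range_add_finrank_ker A
    rw [LinearMap.range_eq_top.2 hsurj, finrank_top] at h1
    simp only [Module.finrank_prod, Module.finrank_self, Module.finrank_fintype_fun_eq_card,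
      Fintype.card_fin] at h1
    omega
  obtain ⟨φ⟩ : Nonempty (LinearMap.ker A ≃ₗ[ℂ] Cm 2) :=
    FiniteDimensional.nonempty_linearEquiv_of_finrank_eq (by
      rw [hW]
      simp)
  obtain ⟨m, hm⟩ := LinearMap.exists_extend (φ : LinearMap.ker A →ₗ[ℂ] Cm 2)
  refine ⟨LinearMap.toContinuousLinearMap m, fun v h1 h2 h3 => ?_⟩
  have hv : v ∈ LinearMap.ker A := by
    rw [LinearMap.mem_ker, hAv, h1, h2]
    rfl
  have h4 : φ ⟨v, hv⟩ = 0 := by
    have h5 := congrArg (fun l : LinearMap.ker A →ₗ[ℂ] Cm 2 => l ⟨v, hv⟩) hm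
    have h6 : m v = φ ⟨v, hv⟩ := h5
    rw [← h6]
    exact h3
  have h5 : (⟨v, hv⟩ : LinearMap.ker A) = 0 := by
    rwa [LinearEquiv.map_eq_zero_iff] at h4
  exact congrArg Subtype.val h5

/-- every point has a chart -/
theorem exists_pc (h : CIF Ω G dg) (hn : n = K + 3) (z : TZ Ω G) :
    ∃ e : PC (TZ Ω G), IsPC e ∧ z ∈ e.source := by
  obtain ⟨a, ha⟩ := exists_mem_Ua z
  obtain ⟨μ, hμ⟩ := exists_mu h hn ((rep_sg ha).mem_cone h)
    (by rw [sg_self ha]; exact one_ne_zero)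
  obtain ⟨e, he, hz, -⟩ := exists_pc_of h hn z ha μ hμ
  exact ⟨e, he, hz⟩

/-- the family of complete intersections -/
def fam (h : CIF Ω G dg) (hn : n = K + 3) : Fam (TZ Ω G) where
  Ω := Ω
  isOpen := h.isOpen
  p := TZ.t
  cont := continuous_t
  p_mem := fun z => z.prop.1
  surj := fun t ht => by
    obtain ⟨z, hz, hG⟩ := h.ne t ht
    obtain ⟨w, hw⟩ := exists_of_cone (Ω := Ω) (G := G) (y := (t, z)) ⟨ht, hz, hG⟩
    exact ⟨w, hw.2.1⟩
  proper := fun L hL hLΩ => isCompact_preimage h hL hLΩ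
  A := {e | IsPC e}
  chart_p := fun e he z hz => he.par z hz
  cover := fun z => exists_pc h hn z
  trans := fun e he e' he' => he.holTr he'
  max := fun e hp hc => isPC_of_compat (fun z _ => exists_pc h hn z) hp hc

end Vale.Agent.P298.H863
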