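import Vale.Agent.P298.H863.Eigen3
import Mathlib.RingTheory.MvPolynomial.Homogeneous

/-!
# P298, S1-GEO row R4b: eigenfunctions are polynomials, constants, connectedness

`PolyP K` is the conclusion of row R4 (P1): a function on the cone `K` which is locally the
restriction of analytic functions and homogeneous of degree `k` is the restriction of a homogeneous
polynomial of degree `k`.
-/

open Set Filter Metric Topology Complex

namespace Vale.Agent.P298.H863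

variable {n : ℕ}

/-- conclusion of row R4 (P1) -/
def PolyP (K : Set (Fin n → ℂ)) (Q : ℕ → MvPolynomial (Fin n) ℂ → Prop) : Prop :=
  ∀ k : ℕ, ∀ h : (Fin n → ℂ) → ℂ, LocAn K h →
    (∀ c : ℂ, c ≠ 0 → ∀ z ∈ K, h (c • z) = c ^ k * h z) →
    ∃ A : MvPolynomial (Fin n) ℂ, A.IsHomogeneous k ∧ Q k A ∧ ∀ z ∈ K, h z = MvPolynomial.eval z A

theorem eval_const_of_homog {A : MvPolynomial (Fin n) ℂ} (hA : A.IsHomogeneous 0)
    (z w : Fin n → ℂ) : MvPolynomial.eval z A = MvPolynomial.eval w A := by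
  have h1 : A.totalDegree = 0 := by
    have := hA.totalDegree_le
    omega
  rw [MvPolynomial.totalDegree_eq_zero_iff_eq_C] at h1
  rw [h1]
  simp

/-- there are no nonzero functions of negative degree -/
theorem vanish_of_neg {K : Set (Fin n → ℂ)} {Q : ℕ → MvPolynomial (Fin n) ℂ → Prop}
    (hP : PolyP K Q) (hw : ∀ z ∈ K, ∃ i, z i ≠ 0 ∧ ∃ w ∈ K, w i = 0)
    {h : (Fin n → ℂ) → ℂ} (hh : LocAn K h) {k : ℤ} (hk : k < 0)
    (hhom : ∀ c : ℂ, c ≠ 0 → ∀ z ∈ K, h (c • z) = c ^ k * h z) {z : Fin n → ℂ} (hz : z ∈ K) :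
    h z = 0 := by
  obtain ⟨i, hi, w, hwK, hwi⟩ := hw z hz
  obtain ⟨N, hN⟩ : ∃ N : ℕ, k = -(N : ℤ) := ⟨(-k).toNat, by omega⟩
  have hN0 : N ≠ 0 := by rintro rfl; simp at hN; omega
  have h1 : LocAn K (fun z => z i ^ N * h z) := by
    refine (LocAn.of_analytic fun p _ => ?_).mul hh
    have : AnalyticAt ℂ (fun z : Fin n → ℂ => z i) p :=
      (ContinuousLinearMap.proj (R := ℂ) (φ := fun _ : Fin n => ℂ) i).analyticAt p
    exact this.pow N
  obtain ⟨A, hA, -, hAe⟩ := hP 0 _ h1 (by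
    intro c hc z hz
    rw [hhom c hc z hz, hN]
    simp only [Pi.smul_apply, smul_eq_mul, mul_pow, pow_zero, one_mul, zpow_neg, zpow_natCast]
    field_simp)
  have h2 := hAe w hwK
  simp only [hwi, zero_pow hN0, zero_mul] at h2
  have h3 := hAe z hz
  rw [eval_const_of_homog hA z w, ← h2] at h3
  exact (mul_eq_zero.1 h3).resolve_left (pow_ne_zero _ hi)

/-- Row R4b: eigenfunctions on the cyclic cover are `y ^ j A(z)`. -/
theorem eigen_poly {m : ℕ} {j : ℕ} (hj : j < m) {ζ : ℂ} (hζ : IsPrimitiveRoot ζ m)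
    {K : Set (Fin n → ℂ)} {Q : ℕ → MvPolynomial (Fin n) ℂ → Prop} (hP : PolyP K Q)
    {H : (Fin n → ℂ) → ℂ} (hH : ∀ p ∈ K, AnalyticAt ℂ H p)
    (hden : ∀ p ∈ K, p ∈ closure {q | q ∈ K ∧ H q ≠ 0}) {e : ℕ}
    (hK : ∀ c : ℂ, c ≠ 0 → ∀ z ∈ K, c • z ∈ K)
    (hHh : ∀ c : ℂ, c ≠ 0 → ∀ z ∈ K, H (c • z) = (c ^ e) ^ m * H z) {k : ℕ} (hk : j * e ≤ k)
    {f : (Fin n → ℂ) × ℂ → ℂ} (hf : LocAn (Cyc K H m) f)
    (hfh : ∀ c : ℂ, c ≠ 0 → ∀ z ∈ K, ∀ y, y ^ m = H z → f (c • z, c ^ e * y) = c ^ k * f (z, y))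
    (heig : ∀ z ∈ K, ∀ y, y ^ m = H z → f (z, ζ * y) = ζ ^ j * f (z, y)) :
    ∃ A : MvPolynomial (Fin n) ℂ, A.IsHomogeneous (k - j * e) ∧ Q (k - j * e) A ∧
      ∀ z ∈ K, ∀ y, y ^ m = H z → f (z, y) = y ^ j * MvPolynomial.eval z A := by
  obtain ⟨h, hh, hfb⟩ := exists_base hj hζ hH hden hf heig
  have h1 : ∀ c : ℂ, c ≠ 0 → ∀ z ∈ K, h (c • z) = c ^ (k - j * e) * h z := by
    intro c hc z hz
    have := homog_base (by omega) hden (k := (k : ℤ)) hK hHh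
      (fun c hc z hz y hy => by rw [zpow_natCast]; exact hfh c hc z hz y hy) hh hfb hc hz
    rw [this]
    congr 1
    rw [← zpow_natCast]
    congr 1
    push_cast [Nat.cast_sub hk]
    ring
  obtain ⟨A, hA, hQ, hAe⟩ := hP _ h hh h1
  exact ⟨A, hA, hQ, fun z hz y hy => by rw [hfb z hz y hy, hAe z hz]⟩

/-- Functions of degree `0` on the cyclic cover are constant. -/
theorem eigen_const {m : ℕ} (hm : 0 < m) {ζ : ℂ} (hζ : IsPrimitiveRoot ζ m)
    {K : Set (Fin n → ℂ)} {Q : ℕ → MvPolynomial (Fin n) ℂ → Prop} (hP : PolyP K Q)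
    (hw : ∀ z ∈ K, ∃ i, z i ≠ 0 ∧ ∃ w ∈ K, w i = 0)
    {H : (Fin n → ℂ) → ℂ} (hH : ∀ p ∈ K, AnalyticAt ℂ H p)
    (hden : ∀ p ∈ K, p ∈ closure {q | q ∈ K ∧ H q ≠ 0}) {e : ℕ} (he : 0 < e)
    (hK : ∀ c : ℂ, c ≠ 0 → ∀ z ∈ K, c • z ∈ K)
    (hHh : ∀ c : ℂ, c ≠ 0 → ∀ z ∈ K, H (c • z) = (c ^ e) ^ m * H z)
    {f : (Fin n → ℂ) × ℂ → ℂ} (hf : LocAn (Cyc K H m) f)
    (hfh : ∀ c : ℂ, c ≠ 0 → ∀ z ∈ K, ∀ y, y ^ m = H z → f (c • z, c ^ e * y) = f (z, y)) :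
    ∃ a : ℂ, ∀ z ∈ K, ∀ y, y ^ m = H z → f (z, y) = a := by
  have h0 : ∀ j ∈ Finset.range m, ∃ a : ℂ, ∀ z ∈ K, ∀ y, y ^ m = H z →
      eigPart m ζ f j (z, y) = a := by
    intro j hj
    have hj' := Finset.mem_range.1 hj
    have h1 : LocAn (Cyc K H m) (eigPart m ζ f j) := LocAn.eigPart hζ hf j
    obtain ⟨h, hh, hfb⟩ := exists_base hj' hζ hH hden h1
      (fun z _ y _ => eigPart_rot hm hζ f j z y)
    have h2 : ∀ c : ℂ, c ≠ 0 → ∀ z ∈ K, h (c • z) = c ^ ((0 : ℤ) - j * e) * h z := by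
      intro c hc z hz
      refine homog_base hm hden (k := 0) hK hHh ?_ hh hfb hc hz
      intro c hc z hz y hy
      exact eigPart_homog hζ (k := 0) (fun c hc z hz y hy => by
        rw [zpow_zero, one_mul]; exact hfh c hc z hz y hy) j hc hz hy
    rcases Nat.eq_zero_or_pos j with h3 | h3
    · subst h3
      obtain ⟨A, hA, -, hAe⟩ := hP 0 h hh (fun c hc z hz => by
        have := h2 c hc z hz
        simpa using this)
      refine ⟨MvPolynomial.eval 0 A, fun z hz y hy => ?_⟩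
      rw [hfb z hz y hy, hAe z hz, pow_zero, one_mul, eval_const_of_homog hA z 0]
    · refine ⟨0, fun z hz y hy => ?_⟩
      have h4 : (0 : ℤ) - j * e < 0 := by
        have : (0 : ℤ) < j * e := by positivity
        omega
      rw [hfb z hz y hy, vanish_of_neg hP hw hh h4 h2 hz, mul_zero]
  choose! a ha using h0
  refine ⟨∑ j ∈ Finset.range m, a j, fun z hz y hy => ?_⟩
  rw [← sum_eigPart hm hζ f (z, y)]
  exact Finset.sum_congr rfl fun j hj => ha j hj z hz y hy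

end Vale.Agent.P298.H863
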