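import Vale.Agent.P298.H863.C10
import Vale.Agent.P298.H863.Eigen4
import Vale.Agent.P298.H845.Main
import Vale.Agent.P298.H39.Fib

/-!
# P298, S1-GEO, R4b: functions on the cone of the cyclic cover, connectedness of the fibres
-/

open scoped ContDiff ComplexConjugate Topology Matrix
open Vale.Agent.P298.H39 Vale.Agent.P272.K Filter Set

noncomputable section

namespace Vale.Agent.P298.H863

variable {D Ω : Set ℂ} {d M : ℕ} {G H : ℂ × VN (1 + 3) → ℂ}

open Vale.Agent.P298.H845 (Kc)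

/-- the punctured cone of the cover over `t` -/
def KZ (G H : ℂ × VN (1 + 3) → ℂ) (M : ℕ) (t : ℂ) : Set (VN (2 + 3)) :=
  {x | x ≠ 0 ∧ gZ G H M (t, x) = 0}

lemma slice_hasFDerivAt {F : ℂ × VN (1 + 3) → ℂ} {t : ℂ} {z : VN (1 + 3)}
    (hF : AnalyticAt ℂ F (t, z)) :
    HasFDerivAt (fun z => F (t, z)) ((fderiv ℂ F (t, z)).comp
      (ContinuousLinearMap.inr ℂ ℂ (VN (1 + 3)))) z := by
  have h4 : HasFDerivAt (fun x : VN (1 + 3) => ((t, x) : ℂ × VN (1 + 3)))
      (ContinuousLinearMap.inr ℂ ℂ (VN (1 + 3))) z := by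
    have h5 := (hasFDerivAt_const (𝕜 := ℂ) t z).prodMk (hasFDerivAt_id z)
    refine h5.congr_fderiv ?_
    exact ContinuousLinearMap.ext fun w => rfl
  exact HasFDerivAt.comp (g := F) z hF.differentiableAt.hasFDerivAt h4

lemma slice_analyticAt {F : ℂ × VN (1 + 3) → ℂ} {t : ℂ} {z : VN (1 + 3)}
    (hF : AnalyticAt ℂ F (t, z)) : AnalyticAt ℂ (fun z => F (t, z)) z :=
  AnalyticAt.comp (g := F) (f := fun z : VN (1 + 3) => ((t, z) : ℂ × VN (1 + 3))) hF
    (analyticAt_const.prod analyticAt_id)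

lemma Dat.differentiable (h : Dat D d M G H) {t : ℂ} (ht : t ∈ D) :
    Differentiable ℂ fun z => G (t, z) := fun z =>
  (slice_hasFDerivAt (h.anG t ht z)).differentiableAt

lemma Dat.reg' (h : Dat D d M G H) {t : ℂ} (ht : t ∈ D) (z : VN (1 + 3)) (hz : z ≠ 0)
    (h0 : G (t, z) = 0) : fderiv ℂ (fun z => G (t, z)) z ≠ 0 := by
  obtain ⟨v, hv⟩ := h.reg t ht z hz h0
  intro h1
  apply hv
  rw [(slice_hasFDerivAt (h.anG t ht z)).fderiv] at h1
  exact congrArg (fun l : VN (1 + 3) →L[ℂ] ℂ => l v) h1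

lemma polyP_t (h : Dat D d M G H) {t : ℂ} (ht : t ∈ D)
    (hmon : G (t, Pi.single (Fin.last (1 + 2)) 1) ≠ 0) :
    PolyP (Kc fun z => G (t, z)) (fun _ A => ∀ s ∈ A.support, s (Fin.last (1 + 2)) < d) :=
  H845.polyP (h.differentiable ht) (fun c z => h.homG t ht c z) hmon (h.reg' ht)

lemma dense_t (h : Dat D d M G H) {t : ℂ} (ht : t ∈ D) (hg : Good G H t)
    (p : VN (1 + 3)) (hp : p ∈ Kc fun z => G (t, z)) :
    p ∈ closure {q | q ∈ (Kc fun z => G (t, z)) ∧ H (t, q) ≠ 0} := by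
  by_cases hH : H (t, p) = 0
  · obtain ⟨v, w, hvw⟩ := hg p hp.1 hp.2 hH
    have h1 : p ∈ closure {q | G (t, q) = 0 ∧ H (t, q) ≠ 0} := by
      refine mem_closure_of_indep (G := fun z => G (t, z)) (H := fun z => H (t, z))
        (slice_analyticAt (h.anG t ht p)) (slice_analyticAt (h.anH t ht p)) hp.2 hH ?_
      rintro ⟨a, b⟩
      rw [(slice_hasFDerivAt (h.anG t ht p)).fderiv, (slice_hasFDerivAt (h.anH t ht p)).fderiv]
      set TG := fderiv ℂ G (t, p) with hTG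
      set TH := fderiv ℂ H (t, p) with hTH
      have hdet : TG (0, v) * TH (0, w) - TG (0, w) * TH (0, v) ≠ 0 := by
        intro h2
        apply hvw
        linear_combination -h2
      refine ⟨((a * TH (0, w) - b * TG (0, w)) /
        (TG (0, v) * TH (0, w) - TG (0, w) * TH (0, v))) • v +
        ((b * TG (0, v) - a * TH (0, v)) /
        (TG (0, v) * TH (0, w) - TG (0, w) * TH (0, v))) • w, ?_⟩
      have hlin : ∀ (T : (ℂ × VN (1 + 3)) →L[ℂ] ℂ) (α β : ℂ),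
          (T.comp (ContinuousLinearMap.inr ℂ ℂ (VN (1 + 3)))) (α • v + β • w) =
          α * T (0, v) + β * T (0, w) := by
        intro T α β
        rw [map_add, map_smul, map_smul]
        rfl
      rw [hlin, hlin]
      refine Prod.ext ?_ ?_
      · show _ = a
        rw [div_mul_eq_mul_div, div_mul_eq_mul_div, ← add_div, div_eq_iff hdet]
        ring
      · show (a * TH (0, w) - b * TG (0, w)) / (TG (0, v) * TH (0, w) - TG (0, w) * TH (0, v)) *
            TH (0, v) +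
          (b * TG (0, v) - a * TH (0, v)) / (TG (0, v) * TH (0, w) - TG (0, w) * TH (0, v)) *
            TH (0, w) = b
        rw [div_mul_eq_mul_div, div_mul_eq_mul_div, ← add_div, div_eq_iff hdet]
        ring
    rw [mem_closure_iff_frequently] at h1 ⊢
    have h2 : ∀ᶠ q in 𝓝 p, q ≠ 0 := isOpen_ne.mem_nhds hp.1
    exact (h1.and_eventually h2).mono fun q hq => ⟨⟨hq.2, hq.1.1⟩, hq.1.2⟩
  · exact subset_closure ⟨hp, hH⟩

/-- the homogeneous coordinates as a linear map -/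
def sncL : (VN (1 + 3) × ℂ) →L[ℂ] VN (2 + 3) :=
  ContinuousLinearMap.pi fun i : Fin (2 + 3) => Fin.lastCases (motive := fun _ => _ →L[ℂ] ℂ)
    (ContinuousLinearMap.snd ℂ (VN (1 + 3)) ℂ)
    (fun i => (ContinuousLinearMap.proj (R := ℂ) (φ := fun _ : Fin (1 + 3) => ℂ) i).comp
      (ContinuousLinearMap.fst ℂ (VN (1 + 3)) ℂ)) i

lemma sncL_apply (p : VN (1 + 3) × ℂ) : sncL p = snc p.1 p.2 := by
  refine ext_ini ?_ ?_
  · rw [ini_snc]
    funext i
    rw [ini_apply]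
    show (Fin.lastCases (motive := fun _ => _ →L[ℂ] ℂ) _ _ (Fin.castSucc i) :
      VN (1 + 3) × ℂ →L[ℂ] ℂ) p = _
    rw [Fin.lastCases_castSucc]
    rfl
  · rw [lst_snc, lst_apply]
    have h1 : (Fin.lastCases (motive := fun _ : Fin (4 + 1) => (VN (1 + 3) × ℂ) →L[ℂ] ℂ)
      (ContinuousLinearMap.snd ℂ (VN (1 + 3)) ℂ)
      (fun i : Fin 4 => (ContinuousLinearMap.proj (R := ℂ) (φ := fun _ : Fin (1 + 3) => ℂ) i).comp
        (ContinuousLinearMap.fst ℂ (VN (1 + 3)) ℂ)) (Fin.last 4)) =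
      ContinuousLinearMap.snd ℂ (VN (1 + 3)) ℂ := Fin.lastCases_last
    exact congrArg (fun l : (VN (1 + 3) × ℂ) →L[ℂ] ℂ => l p) h1

lemma snc_analyticAt (p : VN (1 + 3) × ℂ) :
    AnalyticAt ℂ (fun p : VN (1 + 3) × ℂ => snc p.1 p.2) p := by
  have h1 : (fun p : VN (1 + 3) × ℂ => snc p.1 p.2) = sncL := funext fun p => (sncL_apply p).symm
  rw [h1]
  exact sncL.analyticAt p

lemma mapsTo_snc {t : ℂ} :
    MapsTo (fun p : VN (1 + 3) × ℂ => snc p.1 p.2)
      (Cyc (Kc fun z => G (t, z)) (fun z => H (t, z)) M) (KZ G H M t) := by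
  rintro ⟨z, Y⟩ ⟨hz, hY⟩
  refine ⟨?_, gZ_zero_iff.2 ⟨by rw [ini_snc]; exact hz.2, by rw [ini_snc, lst_snc]; exact hY⟩⟩
  intro h1
  apply hz.1
  have h2 : snc z Y = 0 := h1
  rw [← ini_snc z Y, h2, map_zero]

lemma snc_smul (c : ℂ) (z : VN (1 + 3)) (Y : ℂ) : snc (c • z) (c ^ 1 * Y) = c • snc z Y :=
  ext_ini (by rw [ini_snc, map_smul, ini_snc]) (by rw [lst_snc, map_smul, lst_snc]; simp)

lemma snc_dlin (ζ : ℂ) (z : VN (1 + 3)) (Y : ℂ) : snc z (ζ * Y) = dlin ζ (snc z Y) :=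
  ext_ini (by rw [ini_snc, ini_dlin, ini_snc]) (by rw [lst_snc, lst_dlin, lst_snc])

lemma KZ_ini (h : Dat D d M G H) {t : ℂ} (ht : t ∈ D) {x : VN (2 + 3)} (hx : x ∈ KZ G H M t) :
    ini x ∈ (Kc fun z => G (t, z)) ∧ lst x ^ M = H (t, ini x) :=
  ⟨⟨ini_ne_zero h ht hx.1 hx.2, (gZ_zero_iff.1 hx.2).1⟩, (gZ_zero_iff.1 hx.2).2⟩

/-- Row R4b: eigenfunctions on the cone of the cover are `A Y ^ j`. -/
theorem eig_form (h : Dat D d M G H) {t : ℂ} (ht : t ∈ D) (hg : Good G H t)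
    (hmon : G (t, Pi.single (Fin.last (1 + 2)) 1) ≠ 0) {ζ : ℂ} (hζ : IsPrimitiveRoot ζ M)
    {j N : ℕ} (hj : j < M) (hN : j ≤ N) {f : VN (2 + 3) → ℂ} (hf : LocAn (KZ G H M t) f)
    (hhom : ∀ c : ℂ, c ≠ 0 → ∀ x ∈ KZ G H M t, f (c • x) = c ^ N * f x)
    (heig : ∀ x ∈ KZ G H M t, f (dlin ζ x) = ζ ^ j * f x) :
    ∃ A : MvPolynomial (Fin (1 + 3)) ℂ, A.IsHomogeneous (N - j) ∧
      (∀ s ∈ A.support, s (Fin.last (1 + 2)) < d) ∧
      ∀ x ∈ KZ G H M t, f x = MvPolynomial.eval (ini x) A * lst x ^ j := by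
  have h1 : LocAn (Cyc (Kc fun z => G (t, z)) (fun z => H (t, z)) M)
      (fun p : VN (1 + 3) × ℂ => f (snc p.1 p.2)) :=
    hf.comp (g := fun p : VN (1 + 3) × ℂ => snc p.1 p.2) (fun p _ => snc_analyticAt p) mapsTo_snc
  have h2 : ∀ z ∈ (Kc fun z => G (t, z)), ∀ Y : ℂ, Y ^ M = H (t, z) → snc z Y ∈ KZ G H M t :=
    fun z hz Y hY => mapsTo_snc (show (z, Y) ∈ Cyc (Kc fun z => G (t, z)) (fun z => H (t, z)) M
      from ⟨hz, hY⟩)
  obtain ⟨A, hA, hQ, hAe⟩ := eigen_poly (e := 1) (k := N) (j := j) hj hζ (polyP_t h ht hmon)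
    (H := fun z => H (t, z)) (fun p _ => slice_analyticAt (h.anH t ht p)) (dense_t h ht hg)
    (fun c hc z hz => ⟨smul_ne_zero hc hz.1, by
      show G (t, c • z) = 0
      rw [h.homG t ht, show G (t, z) = 0 from hz.2, mul_zero]⟩)
    (fun c _ z _ => by rw [pow_one]; exact h.homH t ht c z) (by omega) h1
    (fun c hc z hz Y hY => by rw [snc_smul]; exact hhom c hc _ (h2 z hz Y hY))
    (fun z hz Y hY => by rw [snc_dlin]; exact heig _ (h2 z hz Y hY))
  rw [mul_one] at hA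
  refine ⟨A, hA, hQ, fun x hx => ?_⟩
  obtain ⟨h3, h4⟩ := KZ_ini h ht hx
  have h5 := hAe (ini x) h3 (lst x) h4
  simp only [snc_ini] at h5
  rw [h5, mul_comm]

/-- points of the cone of the surface in the coordinate hyperplanes -/
lemma exists_hyper (h : Dat D d M G H) {t : ℂ} (ht : t ∈ D)
    (hmon : G (t, Pi.single (Fin.last (1 + 2)) 1) ≠ 0) (z : VN (1 + 3))
    (hz : z ∈ Kc fun z => G (t, z)) :
    ∃ i, z i ≠ 0 ∧ ∃ w ∈ (Kc fun z => G (t, z)), w i = 0 := by
  obtain ⟨a, -, -, ha⟩ := H845.exists_monic (n := 3) (h.differentiable ht)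
    (fun c z => h.homG t ht c z) hmon
  -- points of the cone over given `x`
  have key : ∀ x : Fin 3 → ℂ, x ≠ 0 → ∃ w ∈ (Kc fun z => G (t, z)), ∀ i : Fin 3,
      w (Fin.castSucc i) = x i := by
    intro x hx
    have hdeg : (H845.MP a x).degree ≠ 0 := by
      rw [Polynomial.degree_eq_natDegree (H845.MP_monic a x).ne_zero, H845.MP_natDegree]
      exact_mod_cast h.hd.ne'
    obtain ⟨r, hr⟩ := IsAlgClosed.exists_root (H845.MP a x) hdeg
    refine ⟨(Fin.snoc x r : Fin (3 + 1) → ℂ), ⟨?_, ?_⟩, fun i => ?_⟩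
    · intro h0
      apply hx
      funext i
      have h1 := congrFun h0 (Fin.castSucc i)
      rw [Fin.snoc_castSucc (α := fun _ => ℂ)] at h1
      exact h1
    · show G (t, (Fin.snoc x r : Fin (3 + 1) → ℂ)) = 0
      rw [ha x r]
      have h1 : H845.GF a (x, r) = 0 := hr
      rw [h1, mul_zero]
    · exact Fin.snoc_castSucc (α := fun _ => ℂ) _ _ _
  obtain ⟨i, hi⟩ : ∃ i : Fin 3, z (Fin.castSucc i) ≠ 0 := by
    by_contra hcon
    push Not at hcon
    have h1 : z = z (Fin.last 3) • (Pi.single (Fin.last 3) 1 : Fin (3 + 1) → ℂ) := by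
      funext k
      refine Fin.lastCases ?_ (fun k => ?_) k
      · simp
      · rw [hcon k, Pi.smul_apply, Pi.single_apply, if_neg (Fin.castSucc_lt_last k).ne, smul_zero]
    have h2 : z (Fin.last 3) ≠ 0 := by
      intro h3
      apply hz.1
      rw [h1, h3, zero_smul]
    have h3 : G (t, z) = 0 := hz.2
    rw [h1, h.homG t ht] at h3
    rcases mul_eq_zero.1 h3 with h4 | h4
    · exact pow_ne_zero _ h2 h4
    · exact hmon h4
  obtain ⟨k, hk⟩ : ∃ k : Fin 3, k ≠ i := exists_ne i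
  obtain ⟨w, hw, hwx⟩ := key (Pi.single k 1) (by
    intro h0
    have := congrFun h0 k
    simp at this)
  refine ⟨Fin.castSucc i, hi, w, hw, ?_⟩
  rw [hwx i, Pi.single_apply, if_neg hk.symm]

/-- Functions of degree `0` on the cone of the cover are constant. -/
theorem eig_const (h : Dat D d M G H) {t : ℂ} (ht : t ∈ D) (hg : Good G H t)
    (hmon : G (t, Pi.single (Fin.last (1 + 2)) 1) ≠ 0)
    {f : VN (2 + 3) → ℂ} (hf : LocAn (KZ G H M t) f)
    (hhom : ∀ c : ℂ, c ≠ 0 → ∀ x ∈ KZ G H M t, f (c • x) = f x) :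
    ∃ a, ∀ x ∈ KZ G H M t, f x = a := by
  have h1 : LocAn (Cyc (Kc fun z => G (t, z)) (fun z => H (t, z)) M)
      (fun p : VN (1 + 3) × ℂ => f (snc p.1 p.2)) :=
    hf.comp (g := fun p : VN (1 + 3) × ℂ => snc p.1 p.2) (fun p _ => snc_analyticAt p) mapsTo_snc
  have h2 : ∀ z ∈ (Kc fun z => G (t, z)), ∀ Y : ℂ, Y ^ M = H (t, z) → snc z Y ∈ KZ G H M t :=
    fun z hz Y hY => mapsTo_snc (show (z, Y) ∈ Cyc (Kc fun z => G (t, z)) (fun z => H (t, z)) M
      from ⟨hz, hY⟩)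
  have hM0 : M ≠ 0 := h.hM.ne'
  obtain ⟨a, ha⟩ := eigen_const (e := 1) h.hM (Complex.isPrimitiveRoot_exp M hM0)
    (polyP_t h ht hmon) (exists_hyper h ht hmon)
    (H := fun z => H (t, z)) (fun p _ => slice_analyticAt (h.anH t ht p)) (dense_t h ht hg)
    one_pos
    (fun c hc z hz => ⟨smul_ne_zero hc hz.1, by
      show G (t, c • z) = 0
      rw [h.homG t ht, show G (t, z) = 0 from hz.2, mul_zero]⟩)
    (fun c _ z _ => by rw [pow_one]; exact h.homH t ht c z) h1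
    (fun c hc z hz Y hY => by rw [snc_smul]; exact hhom c hc _ (h2 z hz Y hY))
  refine ⟨a, fun x hx => ?_⟩
  obtain ⟨h3, h4⟩ := KZ_ini h ht hx
  have h5 := ha (ini x) h3 (lst x) h4
  simp only [snc_ini] at h5
  exact h5

/-- The fibres of the family of cyclic covers are connected. -/
theorem connected_fib (h : Dat D d M G H) (hΩD : Ω ⊆ D) (hZ : CIF Ω (gZ G H M) ![d, M]) {t : ℂ}
    (ht : t ∈ Ω) (hg : Good G H t) (hmon : G (t, Pi.single (Fin.last (1 + 2)) 1) ≠ 0) :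
    ConnectedSpace ((fam hZ rfl).Fib t) := by
  classical
  have hne : Nonempty ((fam hZ rfl).Fib t) := (fam hZ rfl).nonempty_fib ht
  have hpre : PreconnectedSpace ((fam hZ rfl).Fib t) := by
    refine preconnectedSpace_of_forall_constant fun b hb p q => ?_
    -- the function on the cone
    set f : VN (2 + 3) → ℂ := fun x =>
      if hx : ∃ z : (fam hZ rfl).Fib t, Rep (t, x) z.val then (if b hx.choose then 1 else 0) else 0
      with hf
    have hfe : ∀ (x : VN (2 + 3)) (z : (fam hZ rfl).Fib t), Rep (t, x) z.val →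
        f x = if b z then 1 else 0 := by
      intro x z hz
      have hx : ∃ z : (fam hZ rfl).Fib t, Rep (t, x) z.val := ⟨z, hz⟩
      have h1 : hx.choose = z := Fam.Fib.ext (hx.choose_spec.inj hz)
      simp only [hf]
      rw [dif_pos hx, h1]
    have hrep : ∀ x ∈ KZ G H M t, ∃ z : (fam hZ rfl).Fib t, Rep (t, x) z.val := by
      intro x hx
      obtain ⟨z, hz⟩ := exists_of_cone (Ω := Ω) (G := gZ G H M) (y := (t, x)) ⟨ht, hx.1, hx.2⟩
      exact ⟨⟨z, hz.2.1⟩, hz⟩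
    have hla : LocAn (KZ G H M t) f := by
      intro x hx
      obtain ⟨z, hz⟩ := hrep x hx
      refine ⟨fun _ => f x, analyticAt_const, ?_⟩
      have h1 : ∀ᶠ z' in 𝓝 z, b z' = b z := by
        have := hb.continuousAt (x := z)
        exact this.eventually (IsOpen.mem_nhds (isOpen_discrete {b z}) rfl)
      rw [isEmbedding_fib.isInducing.nhds_eq_comap, Filter.eventually_comap] at h1
      have h2 := hz.eventually h1
      have h3 : Tendsto (fun x : VN (2 + 3) => ((t, x) : ℂ × VN (2 + 3))) (𝓝 x) (𝓝 (t, x)) :=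
        (Continuous.prodMk_right t).tendsto x
      filter_upwards [h3.eventually h2] with x' hx' hxK
      obtain ⟨z', hz'⟩ := hrep x' hxK
      rw [hfe x' z' hz', hfe x z hz, hx' z'.val hz' z' rfl]
    obtain ⟨a, ha⟩ := eig_const h (hΩD ht) hg hmon hla (by
      intro c hc x hx
      obtain ⟨z, hz⟩ := hrep x hx
      rw [hfe x z hz, hfe (c • x) z (hz.smul hc)])
    have hval : ∀ z : (fam hZ rfl).Fib t, (if b z then (1 : ℂ) else 0) = a := by
      intro z
      obtain ⟨y, hy⟩ := exists_rep z.val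
      have hyt : y.1 = t := hy.2.1.symm.trans z.prop
      have hy0 : ((t, y.2) : ℂ × VN (2 + 3)) = y := Prod.ext hyt.symm rfl
      have hy' : Rep (t, y.2) z.val := by rw [hy0]; exact hy
      have hc := hy'.mem_cone hZ
      rw [← hfe y.2 z hy']
      exact ha y.2 ⟨hc.2.1, hc.2.2⟩
    have h1 := (hval p).trans (hval q).symm
    cases hbp : b p <;> cases hbq : b q <;> simp [hbp, hbq] at h1 <;> rfl
  exact { hpre with toNonempty := hne }

end Vale.Agent.P298.H863
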