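import Vale.Agent.P298.H863.C7
import Vale.Agent.P298.H265.FSInst

/-!
# P298, S1-GEO, R0: maps induced by linear maps, deck transformations
-/

open scoped ContDiff ComplexConjugate Topology Matrix
open Vale.Agent.P298.H39 Vale.Agent.P272.K Filter Set
open Vale.Agent.P298.H265 (Ind)

noncomputable section

namespace Vale.Agent.P298.H863

section ind
variable {n n' K K' : ℕ} {Ω Ω' : Set ℂ} {G : ℂ × VN n → (Fin K → ℂ)}
  {G' : ℂ × VN n' → (Fin K' → ℂ)} {dg : Fin K → ℕ} {dg' : Fin K' → ℕ}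

/-- the map induced by a linear map of the homogeneous coordinates -/
def indMap (h : CIF Ω G dg) (L : VN n →L[ℂ] VN n')
    (hL : ∀ y ∈ Cone Ω G, (y.1, L y.2) ∈ Cone Ω' G') (z : TZ Ω G) : TZ Ω' G' :=
  (exists_of_cone (hL _ ((exists_rep z).choose_spec.mem_cone h))).choose

/-- the map `φ` is induced by the linear map `L` of the homogeneous coordinates -/
def IndG (L : VN n →L[ℂ] VN n') (φ : TZ Ω G → TZ Ω' G') : Prop :=
  ∀ y z, Rep y z → Rep (y.1, L y.2) (φ z)

lemma IndG.t {L : VN n →L[ℂ] VN n'} {φ : TZ Ω G → TZ Ω' G'} (hφ : IndG L φ) (z : TZ Ω G) :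
    (φ z).t = z.t := by
  obtain ⟨y, hy⟩ := exists_rep z
  rw [(hφ y z hy).2.1, hy.2.1]

lemma IndG.lift {L : VN n →L[ℂ] VN n'} {φ : TZ Ω G → TZ Ω' G'} (hφ : IndG L φ)
    {M : Type*} [NormedAddCommGroup M] [NormedSpace ℂ M] {g : M → TZ Ω G} {q : M}
    (hg : LiftAt g q) : LiftAt (fun q => φ (g q)) q := by
  obtain ⟨T, hT, hTg⟩ := hg
  refine ⟨fun q => ((T q).1, L (T q).2), ?_, ?_⟩
  · refine (analyticAt_fst.comp hT).prod ?_
    exact AnalyticAt.comp (g := L) (f := fun q => (T q).2) (L.analyticAt _)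
      (analyticAt_snd.comp hT)
  · filter_upwards [hTg] with q' hq'
    exact hφ _ _ hq'

lemma IndG.continuous {L : VN n →L[ℂ] VN n'} {φ : TZ Ω G → TZ Ω' G'} (hφ : IndG L φ)
    (h : CIF Ω G dg) (hn : n = K + 3) : Continuous φ := by
  rw [continuous_iff_continuousAt]
  intro z
  obtain ⟨e, he, hz⟩ := exists_pc h hn z
  have h1 : LiftAt (fun q => φ (e.symm q)) (e z) := hφ.lift (he.lift _ (e.map_source hz))
  have h2 : ContinuousAt (fun z' => φ (e.symm (e z'))) z :=
    ContinuousAt.comp (g := fun q => φ (e.symm q)) h1.continuousAt (e.continuousAt hz)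
  refine h2.congr ?_
  filter_upwards [e.open_source.mem_nhds hz] with z' hz'
  rw [e.left_inv hz']

lemma IndG.hol {L : VN n →L[ℂ] VN n'} {φ : TZ Ω G → TZ Ω' G'} (hφ : IndG L φ)
    {e : PC (TZ Ω G)} (he : IsPC e) {e' : PC (TZ Ω' G')} (he' : IsPC e') {z : TZ Ω G}
    (hz : z ∈ e.source) (hz' : φ z ∈ e'.source) :
    ContDiffAt ℂ ω (fun q => e' (φ (e.symm q))) (e z) := by
  have h1 : LiftAt (fun q => φ (e.symm q)) (e z) := hφ.lift (he.lift _ (e.map_source hz))
  have h2 : AnZ e' (φ (e.symm (e z))) := by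
    rw [e.left_inv hz]
    exact he'.an _ hz'
  exact (AnZ.comp_lift h1 h2).contDiffAt

lemma ind_indMap (h : CIF Ω G dg) (L : VN n →L[ℂ] VN n')
    (hL : ∀ y ∈ Cone Ω G, (y.1, L y.2) ∈ Cone Ω' G') : IndG L (indMap h L hL) := by
  intro y z hy
  have h1 := (exists_rep z).choose_spec
  have h2 := (exists_of_cone (hL _ (h1.mem_cone h))).choose_spec
  obtain ⟨c, hc, hyc⟩ := h1.eq_smul hy
  have h3 := h2.smul hc
  have h4 : (y.1, L y.2) = (((exists_rep z).choose.1, L (exists_rep z).choose.2).1,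
      c • ((exists_rep z).choose.1, L (exists_rep z).choose.2).2) := by
    rw [hyc]
    simp
  rw [h4]
  exact h3

end ind

section deck
variable {K : ℕ} {Ω : Set ℂ} {G : ℂ × VN (K + 3) → (Fin K → ℂ)} {dg : Fin K → ℕ}

/-- a linear automorphism of the homogeneous coordinates preserving the equations -/
structure IsDeck (Ω : Set ℂ) (G : ℂ × VN (K + 3) → (Fin K → ℂ))
    (S : VN (K + 3) ≃L[ℂ] VN (K + 3)) : Prop where
  inv : ∀ t ∈ Ω, ∀ x, G (t, S x) = G (t, x)

variable {S : VN (K + 3) ≃L[ℂ] VN (K + 3)}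

lemma IsDeck.cone (hS : IsDeck Ω G S) {y : ℂ × VN (K + 3)} (hy : y ∈ Cone Ω G) :
    (y.1, (S : VN (K + 3) →L[ℂ] VN (K + 3)) y.2) ∈ Cone Ω G := by
  refine ⟨hy.1, ?_, ?_⟩
  · intro h0
    apply hy.2.1
    have h1 : S y.2 = 0 := h0
    simpa using h1
  · show G (y.1, S y.2) = 0
    rw [hS.inv _ hy.1]
    exact hy.2.2

lemma IsDeck.symm (hS : IsDeck Ω G S) : IsDeck Ω G S.symm := by
  refine ⟨fun t ht x => ?_⟩
  rw [← hS.inv t ht (S.symm x), ContinuousLinearEquiv.apply_symm_apply]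

/-- the deck map -/
def dmap (h : CIF Ω G dg) (hS : IsDeck Ω G S) : TZ Ω G → TZ Ω G :=
  indMap h (S : VN (K + 3) →L[ℂ] VN (K + 3)) fun _ hy => hS.cone hy

lemma rep_dmap (h : CIF Ω G dg) (hS : IsDeck Ω G S) {y : ℂ × VN (K + 3)} {z : TZ Ω G}
    (hy : Rep y z) : Rep (y.1, S y.2) (dmap h hS z) :=
  ind_indMap h (S : VN (K + 3) →L[ℂ] VN (K + 3)) (fun _ hy => hS.cone hy) y z hy

lemma dmap_symm (h : CIF Ω G dg) (hS : IsDeck Ω G S) (z : TZ Ω G) :
    dmap h hS.symm (dmap h hS z) = z := by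
  obtain ⟨y, hy⟩ := exists_rep z
  have h1 := rep_dmap h hS.symm (rep_dmap h hS hy)
  simp only [ContinuousLinearEquiv.symm_apply_apply] at h1
  exact h1.inj hy

lemma dmap_symm' (h : CIF Ω G dg) (hS : IsDeck Ω G S) (z : TZ Ω G) :
    dmap h hS (dmap h hS.symm z) = z := by
  obtain ⟨y, hy⟩ := exists_rep z
  have h1 := rep_dmap h hS (rep_dmap h hS.symm hy)
  simp only [ContinuousLinearEquiv.apply_symm_apply] at h1
  exact h1.inj hy

lemma continuous_dmap (h : CIF Ω G dg) (hS : IsDeck Ω G S) : Continuous (dmap h hS) :=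
  (ind_indMap h (S : VN (K + 3) →L[ℂ] VN (K + 3)) fun _ hy => hS.cone hy).continuous h rfl

/-- the deck homeomorphism -/
def deck (h : CIF Ω G dg) (hS : IsDeck Ω G S) : TZ Ω G ≃ₜ TZ Ω G where
  toFun := dmap h hS
  invFun := dmap h hS.symm
  left_inv := dmap_symm h hS
  right_inv := dmap_symm' h hS
  continuous_toFun := continuous_dmap h hS
  continuous_invFun := continuous_dmap h hS.symm

lemma rep_deck (h : CIF Ω G dg) (hS : IsDeck Ω G S) {y : ℂ × VN (K + 3)} {z : TZ Ω G}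
    (hy : Rep y z) : Rep (y.1, S y.2) (deck h hS z) := rep_dmap h hS hy

lemma deck_t (h : CIF Ω G dg) (hS : IsDeck Ω G S) (z : TZ Ω G) : (deck h hS z).t = z.t := by
  obtain ⟨y, hy⟩ := exists_rep z
  rw [(rep_deck h hS hy).2.1, hy.2.1]

lemma rep_deck_symm (h : CIF Ω G dg) (hS : IsDeck Ω G S) {y : ℂ × VN (K + 3)} {z : TZ Ω G}
    (hy : Rep y z) : Rep (y.1, S.symm y.2) ((deck h hS).symm z) := rep_dmap h hS.symm hy

/-- the chart moved by the deck homeomorphism is a chart -/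
lemma isPC_deck (h : CIF Ω G dg) (hS : IsDeck Ω G S) {e : PC (TZ Ω G)} (he : IsPC e) :
    IsPC ((deck h hS).transOpenPartialHomeomorph e) where
  par z hz := by
    have h1 : deck h hS z ∈ e.source := hz
    show (e (deck h hS z)).2 = z.t
    rw [he.par _ h1, deck_t]
  an z hz := by
    have h1 : deck h hS z ∈ e.source := hz
    obtain ⟨y, hy⟩ := exists_rep z
    obtain ⟨E, hE, hEf⟩ := he.an _ h1 _ (rep_deck h hS hy)
    have h2 : AnalyticAt ℂ (fun y : ℂ × VN (K + 3) => ((y.1, S y.2) : ℂ × VN (K + 3))) y :=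
      analyticAt_fst.prod (AnalyticAt.comp (g := S) (f := fun y : ℂ × VN (K + 3) => y.2)
        ((S : VN (K + 3) →L[ℂ] VN (K + 3)).analyticAt _) analyticAt_snd)
    refine AnZ.of_rep hy (E := fun y => E (y.1, S y.2)) (AnalyticAt.comp (g := E)
      (f := fun y : ℂ × VN (K + 3) => ((y.1, S y.2) : ℂ × VN (K + 3))) hE h2) ?_
    filter_upwards [h2.continuousAt.tendsto.eventually hEf] with y' hy' z' hz'
    exact hy' _ (rep_deck h hS hz')
  lift q hq := by
    have h1 : q ∈ e.target := hq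
    obtain ⟨L, hL, hLr⟩ := he.lift q h1
    refine ⟨fun q => ((L q).1, S.symm (L q).2), ?_, ?_⟩
    · exact (analyticAt_fst.comp hL).prod (AnalyticAt.comp (g := S.symm) (f := fun q => (L q).2)
        ((S.symm : VN (K + 3) →L[ℂ] VN (K + 3)).analyticAt _) (analyticAt_snd.comp hL))
    · filter_upwards [hLr] with q' hq'
      exact rep_deck_symm h hS hq'

lemma isL_deck (h : CIF Ω G dg) (hS : IsDeck Ω G S) {e : PC (TZ Ω G)}
    {q : Cm 2 × ℂ} {L : Cm 2 × ℂ → ℂ × VN (K + 3)} (hL : IsL L e q) :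
    IsL (fun q => ((L q).1, S.symm (L q).2)) ((deck h hS).transOpenPartialHomeomorph e) q where
  an := (analyticAt_fst.comp hL.an).prod (AnalyticAt.comp (g := S.symm) (f := fun q => (L q).2)
        ((S.symm : VN (K + 3) →L[ℂ] VN (K + 3)).analyticAt _) (analyticAt_snd.comp hL.an))
  rep := by
    filter_upwards [hL.rep] with q' hq'
    exact rep_deck_symm h hS hq'

lemma dl_deck {L : Cm 2 × ℂ → ℂ × VN (K + 3)} {q : Cm 2 × ℂ} (hL : AnalyticAt ℂ L q) (j : Fin 2) :
    dl (fun q => ((L q).1, S.symm (L q).2)) q j = S.symm (dl L q j) := by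
  have h1 : HasFDerivAt (fun q => (((L q).1, S.symm (L q).2) : ℂ × VN (K + 3)))
      (((ContinuousLinearMap.fst ℂ ℂ (VN (K + 3))).comp (fderiv ℂ L q)).prod
        ((S.symm : VN (K + 3) →L[ℂ] VN (K + 3)).comp
          ((ContinuousLinearMap.snd ℂ ℂ (VN (K + 3))).comp (fderiv ℂ L q)))) q :=
    hL.differentiableAt.hasFDerivAt.fst.prodMk
      ((S.symm : VN (K + 3) →L[ℂ] VN (K + 3)).hasFDerivAt.comp q
        hL.differentiableAt.hasFDerivAt.snd)
  rw [dl, h1.fderiv]
  rfl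

/-- the differential at the image -/
lemma gv_deck (h : CIF Ω G dg) (hS : IsDeck Ω G S) {y : ℂ × VN (K + 3)} (hy : y.1 ∈ Ω)
    (v : VN (K + 3)) : gv G (y.1, S.symm y.2) v = gv G y (S v) := by
  have h1 : HasFDerivAt (fun x : VN (K + 3) => G (y.1, S x))
      ((gv G y).comp (S : VN (K + 3) →L[ℂ] VN (K + 3))) (S.symm y.2) := by
    have h2 : HasFDerivAt G (fderiv ℂ G y) (y.1, S (S.symm y.2)) := by
      rw [ContinuousLinearEquiv.apply_symm_apply]
      exact (h.an _ hy _).differentiableAt.hasFDerivAt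
    have h3 : HasFDerivAt (fun x : VN (K + 3) => ((y.1, S x) : ℂ × VN (K + 3)))
        ((ContinuousLinearMap.inr ℂ ℂ (VN (K + 3))).comp
          (S : VN (K + 3) →L[ℂ] VN (K + 3))) (S.symm y.2) := by
      have h5 := (hasFDerivAt_const (𝕜 := ℂ) y.1 (S.symm y.2)).prodMk
        (S : VN (K + 3) →L[ℂ] VN (K + 3)).hasFDerivAt
      refine h5.congr_fderiv ?_
      exact ContinuousLinearMap.ext fun w => rfl
    exact HasFDerivAt.comp (g := G) (S.symm y.2) h2 h3
  have h2 : HasFDerivAt (fun x : VN (K + 3) => G (y.1, x)) (gv G (y.1, S.symm y.2))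
      (S.symm y.2) := by
    have h3 : HasFDerivAt G (fderiv ℂ G (y.1, S.symm y.2)) (y.1, S.symm y.2) :=
      (h.an _ hy _).differentiableAt.hasFDerivAt
    have h4 : HasFDerivAt (fun x : VN (K + 3) => ((y.1, x) : ℂ × VN (K + 3)))
        (ContinuousLinearMap.inr ℂ ℂ (VN (K + 3))) (S.symm y.2) := by
      have h5 := (hasFDerivAt_const (𝕜 := ℂ) y.1 (S.symm y.2)).prodMk (hasFDerivAt_id _)
      refine h5.congr_fderiv ?_
      exact ContinuousLinearMap.ext fun w => rfl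
    exact HasFDerivAt.comp (g := G) (S.symm y.2) h3 h4
  have h3 : (fun x : VN (K + 3) => G (y.1, S x)) = fun x => G (y.1, x) := by
    funext x
    exact hS.inv _ hy x
  rw [h3] at h1
  exact congrArg (fun l : VN (K + 3) →L[ℂ] (Fin K → ℂ) => l v) (h2.unique h1)

/-- matrix of an endomorphism in the reindexed basis -/
def endM (S : VN (K + 3) →L[ℂ] VN (K + 3)) : Matrix (Fin 3 ⊕ Fin K) (Fin 3 ⊕ Fin K) ℂ :=
  Matrix.of fun j i => S (Pi.single (sgm K j) 1) (sgm K i)

lemma cdet_comp (l : VN (K + 3) →L[ℂ] (Fin 3 → ℂ)) (g : VN (K + 3) →L[ℂ] (Fin K → ℂ))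
    (S : VN (K + 3) →L[ℂ] VN (K + 3)) :
    cdet (l.comp S) (g.comp S) = (endM S).det * cdet l g := by
  rw [cdet, cdet, ← Matrix.det_mul]
  congr 1
  ext j i
  rw [Matrix.mul_apply]
  simp only [colM, endM, Matrix.of_apply]
  rcases i with i | i
  · simp only [Sum.elim_inl, ContinuousLinearMap.comp_apply]
    have := congrFun (sum_clm l (S (Pi.single (sgm K j) 1))) i
    rw [← this]
    simp [Finset.sum_apply]
  · simp only [Sum.elim_inr, ContinuousLinearMap.comp_apply]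
    have := congrFun (sum_clm g (S (Pi.single (sgm K j) 1))) i
    rw [← this]
    simp [Finset.sum_apply]

/-- the coefficient in a chart moved by the deck homeomorphism -/
lemma cfL_deck (h : CIF Ω G dg) (hS : IsDeck Ω G S) {P P' : ℂ × VN (K + 3) → ℂ}
    {e : PC (TZ Ω G)} (he : IsPC e) {q : Cm 2 × ℂ} (hq : q ∈ e.target)
    {L : Cm 2 × ℂ → ℂ × VN (K + 3)} (hL : IsL L e q)
    (hP : P' (L q) = (endM (S : VN (K + 3) →L[ℂ] VN (K + 3))).det⁻¹ *
      P ((L q).1, S.symm (L q).2)) (hdet : (endM (S : VN (K + 3) →L[ℂ] VN (K + 3))).det ≠ 0) :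
    cfL G P (fun q => ((L q).1, S.symm (L q).2)) q = cfL G P' L q := by
  have hc := hL.mem_cone h
  obtain ⟨l, hl⟩ := exists_compl (gv_surj h hc)
  have hd0 : cdet l (gv G (L q)) ≠ 0 := cdet_ne_zero hl
  have hL' := isL_deck h hS hL
  have he' := isPC_deck h hS he
  have h1 := cfL_mul_cdet (P := P) h he' (show q ∈ ((deck h hS).transOpenPartialHomeomorph e).target
    from hq) hL' (l.comp (S : VN (K + 3) →L[ℂ] VN (K + 3)))
  have h2 : gv G ((L q).1, S.symm (L q).2) =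
      (gv G (L q)).comp (S : VN (K + 3) →L[ℂ] VN (K + 3)) :=
    ContinuousLinearMap.ext fun v => gv_deck h hS hc.1 v
  rw [dl_deck hL.an, dl_deck hL.an] at h1
  simp only at h1
  rw [h2, cdet_comp] at h1
  have h3 : ∀ a b c : VN (K + 3), pdet (l.comp (S : VN (K + 3) →L[ℂ] VN (K + 3)))
      (S.symm a) (S.symm b) (S.symm c) = pdet l a b c := by
    intro a b c
    simp only [pdet, ContinuousLinearMap.comp_apply, ContinuousLinearEquiv.coe_coe,
      ContinuousLinearEquiv.apply_symm_apply]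
  rw [h3] at h1
  have h4 := cfL_mul_cdet (P := P') h he hq hL l
  apply mul_right_cancel₀ hd0
  rw [h4, hP]
  apply mul_left_cancel₀ hdet
  calc (endM (S : VN (K + 3) →L[ℂ] VN (K + 3))).det *
        (cfL G P (fun q => ((L q).1, S.symm (L q).2)) q * cdet l (gv G (L q)))
      = cfL G P (fun q => ((L q).1, S.symm (L q).2)) q *
        ((endM (S : VN (K + 3) →L[ℂ] VN (K + 3))).det * cdet l (gv G (L q))) := by ring
    _ = P ((L q).1, S.symm (L q).2) * pdet l (L q).2 (dl L q 0) (dl L q 1) := h1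
    _ = _ := by field_simp

end deck

end Vale.Agent.P298.H863
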