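import Vale.Agent.P298.H863.C9

/-!
# P298, S1-GEO, R0: deck transformation and projection of the cyclic cover
-/

open scoped ContDiff ComplexConjugate Topology Matrix
open Vale.Agent.P298.H39 Vale.Agent.P272.K Filter Set

noncomputable section

namespace Vale.Agent.P298.H863

/-! ### the deck transformation -/

/-- coefficients of the deck map -/
def dco (ζ : ℂ) (i : Fin (2 + 3)) : ℂ := if i = Fin.last 4 then ζ else 1

/-- multiplication of the last coordinate by `ζ` -/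
def dlin (ζ : ℂ) : VN (2 + 3) →L[ℂ] VN (2 + 3) :=
  ContinuousLinearMap.pi fun i =>
    dco ζ i • ContinuousLinearMap.proj (R := ℂ) (φ := fun _ : Fin (2 + 3) => ℂ) i

lemma dlin_apply (ζ : ℂ) (x : VN (2 + 3)) (i : Fin (2 + 3)) : dlin ζ x i = dco ζ i * x i := rfl

lemma dlin_inv {ζ : ℂ} (hζ : ζ ≠ 0) (x : VN (2 + 3)) : dlin ζ⁻¹ (dlin ζ x) = x := by
  funext i
  rw [dlin_apply, dlin_apply, dco, dco]
  split_ifs
  · rw [inv_mul_cancel_left₀ hζ]
  · rw [one_mul, one_mul]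

/-- multiplication of the last coordinate by `ζ` -/
def dS (ζ : ℂ) (hζ : ζ ≠ 0) : VN (2 + 3) ≃L[ℂ] VN (2 + 3) :=
  ContinuousLinearEquiv.equivOfInverse (dlin ζ) (dlin ζ⁻¹) (dlin_inv hζ) (by
    intro x
    have := dlin_inv (inv_ne_zero hζ) x
    rwa [inv_inv] at this)

lemma dS_apply (ζ : ℂ) (hζ : ζ ≠ 0) (x : VN (2 + 3)) : dS ζ hζ x = dlin ζ x := rfl

lemma dS_symm_apply (ζ : ℂ) (hζ : ζ ≠ 0) (x : VN (2 + 3)) : (dS ζ hζ).symm x = dlin ζ⁻¹ x := rfl

lemma ini_dlin (ζ : ℂ) (x : VN (2 + 3)) : ini (dlin ζ x) = ini x := by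
  funext i
  rw [ini_apply, dlin_apply, dco, if_neg (Fin.castSucc_lt_last (n := 4) i).ne, one_mul, ini_apply]

lemma lst_dlin (ζ : ℂ) (x : VN (2 + 3)) : lst (dlin ζ x) = ζ * lst x := by
  rw [lst_apply, dlin_apply, dco, if_pos rfl, lst_apply]

variable {D Ω : Set ℂ} {d M : ℕ} {G H : ℂ × VN (1 + 3) → ℂ}

lemma isDeck_dS {ζ : ℂ} (hζ : ζ ≠ 0) (hM : ζ ^ M = 1) : IsDeck Ω (gZ G H M) (dS ζ hζ) where
  inv t _ x := by
    funext k
    fin_cases k
    · show G (t, ini (dlin ζ x)) = G (t, ini x)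
      rw [ini_dlin]
    · show lst (dlin ζ x) ^ M - H (t, ini (dlin ζ x)) = lst x ^ M - H (t, ini x)
      rw [ini_dlin, lst_dlin, mul_pow, hM, one_mul]

lemma endM_dS (ζ : ℂ) (hζ : ζ ≠ 0) :
    (endM (dS ζ hζ : VN (2 + 3) →L[ℂ] VN (2 + 3))).det = ζ := by
  have h1 : endM (dS ζ hζ : VN (2 + 3) →L[ℂ] VN (2 + 3)) =
      Matrix.diagonal fun j => dco ζ (sgm 2 j) := by
    ext j i
    simp only [endM, Matrix.of_apply, Matrix.diagonal_apply]
    show dco ζ (sgm 2 i) * (Pi.single (sgm 2 j) (1 : ℂ) : VN (2 + 3)) (sgm 2 i) = _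
    by_cases hij : j = i
    · subst hij; simp
    · rw [if_neg hij, Pi.single_apply, if_neg (fun h => hij ((sgm 2).injective h.symm)), mul_zero]
  rw [h1, Matrix.det_diagonal, Equiv.prod_comp (sgm 2) (dco ζ), Fin.prod_univ_castSucc]
  have h2 : ∀ i : Fin 4, dco ζ (Fin.castSucc i) = 1 := by
    intro i
    rw [dco, if_neg (Fin.castSucc_lt_last (n := 4) i).ne]
  have h3 : dco ζ (Fin.last 4) = ζ := if_pos rfl
  calc (∏ i : Fin 4, dco ζ (Fin.castSucc i)) * dco ζ (Fin.last 4) = 1 * ζ := by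
        rw [h3, Finset.prod_congr rfl fun i _ => h2 i, Finset.prod_const_one]
    _ = ζ := one_mul ζ

/-- the deck homeomorphism of the cyclic cover -/
def dk (h : CIF Ω (gZ G H M) ![d, M]) {ζ : ℂ} (hζ : ζ ≠ 0) (hM : ζ ^ M = 1) :
    TZ Ω (gZ G H M) ≃ₜ TZ Ω (gZ G H M) := deck h (isDeck_dS hζ hM)

lemma rep_dk (h : CIF Ω (gZ G H M) ![d, M]) {ζ : ℂ} (hζ : ζ ≠ 0) (hM : ζ ^ M = 1)
    {y : ℂ × VN (2 + 3)} {z : TZ Ω (gZ G H M)} (hy : Rep y z) :
    Rep (y.1, dlin ζ y.2) (dk h hζ hM z) := rep_deck h (isDeck_dS hζ hM) hy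

lemma dk_iter (h : CIF Ω (gZ G H M) ![d, M]) {ζ : ℂ} (hζ : ζ ≠ 0) (hM : ζ ^ M = 1)
    (z : TZ Ω (gZ G H M)) : (dk h hζ hM)^[M] z = z := by
  obtain ⟨y, hy⟩ := exists_rep z
  have key : ∀ k : ℕ, Rep (y.1, dlin (ζ ^ k) y.2) ((dk h hζ hM)^[k] z) := by
    intro k
    induction k with
    | zero =>
      have h1 : dlin (ζ ^ 0) y.2 = y.2 := by
        funext i
        rw [dlin_apply, dco, pow_zero]
        simp
      rw [h1]
      exact hy
    | succ k ih =>
      rw [Function.iterate_succ_apply']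
      have h1 := rep_dk h hζ hM ih
      have h2 : dlin ζ (dlin (ζ ^ k) y.2) = dlin (ζ ^ (k + 1)) y.2 := by
        funext i
        simp only [dlin_apply, dco]
        split_ifs
        · rw [pow_succ', mul_assoc]
        · simp
      simpa only [h2] using h1
  have h1 := key M
  have h2 : dlin (ζ ^ M) y.2 = y.2 := by
    funext i
    rw [dlin_apply, dco, hM]
    simp
  rw [h2] at h1
  exact h1.inj hy

/-- functions `Q(t, z) Y ^ j` -/
def mulY (Q : ℂ × VN (1 + 3) → ℂ) (j : ℕ) (y : ℂ × VN (2 + 3)) : ℂ :=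
  Q (y.1, ini y.2) * lst y.2 ^ j

/-- the character of `Q Y ^ j w_Z` -/
lemma cf_mulY (h : CIF Ω (gZ G H M) ![d, M]) {ζ : ℂ} (hζ : ζ ≠ 0) (hM : ζ ^ M = 1)
    {Q : ℂ × VN (1 + 3) → ℂ} {j N : ℕ} (hP : HPol Ω (mulY Q j) N)
    (hN : N + (2 + 3) = ∑ k, ![d, M] k) {e : PC (TZ Ω (gZ G H M))} (he : IsPC e)
    {q : Cm 2 × ℂ} (hq : q ∈ e.target) :
    cf (mulY Q j) e q =
      ζ ^ (1 + j) * cf (mulY Q j) ((dk h hζ hM).transOpenPartialHomeomorph e) q := by
  obtain ⟨L, hL⟩ := he.exists_isL hq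
  have hS : IsDeck Ω (gZ G H M) (dS ζ hζ) := isDeck_dS hζ hM
  have hL' := isL_deck h hS hL
  have he' := isPC_deck h hS he
  have h1 : cf (mulY Q j) ((dk h hζ hM).transOpenPartialHomeomorph e) q =
      cfL (gZ G H M) (mulY Q j) (fun q => ((L q).1, (dS ζ hζ).symm (L q).2)) q :=
    cf_eq h hP hN he' (show q ∈ ((deck h hS).transOpenPartialHomeomorph e).target from hq) hL'
  have hcone := hL.mem_cone h
  have h2 := cfL_deck h hS (P := mulY Q j) (P' := fun y => (ζ ^ (1 + j))⁻¹ * mulY Q j y) he hq hL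
    (by
      rw [endM_dS]
      simp only [mulY, dS_symm_apply, ini_dlin, lst_dlin, mul_pow, inv_pow]
      rw [pow_add, pow_one, mul_inv]
      ring) (by rw [endM_dS]; exact hζ)
  have h3 : cfL (gZ G H M) (fun y => (ζ ^ (1 + j))⁻¹ * mulY Q j y) L q =
      (ζ ^ (1 + j))⁻¹ * cfL (gZ G H M) (mulY Q j) L q := by
    simp only [cfL]
    ring
  rw [cf_eq h hP hN he hq hL, h1, h2, h3, mul_inv_cancel_left₀ (pow_ne_zero _ hζ)]

/-! ### comparison of the residue forms -/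

/-- reindexing -/
def rix : (Fin 3 ⊕ Fin 1) ⊕ Fin 1 ≃ Fin 3 ⊕ Fin 2 where
  toFun := Sum.elim (Sum.elim Sum.inl fun _ => Sum.inr 0) fun _ => Sum.inr 1
  invFun := Sum.elim (fun i => Sum.inl (Sum.inl i))
    fun k => if k = 0 then Sum.inl (Sum.inr 0) else Sum.inr 0
  left_inv := by
    rintro ((i | i) | i)
    · rfl
    · have : i = 0 := Subsingleton.elim _ _
      subst this; rfl
    · have : i = 0 := Subsingleton.elim _ _
      subst this; rfl
  right_inv := by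
    rintro (i | k)
    · rfl
    · fin_cases k <;> rfl

lemma sgm_inl (i : Fin 3 ⊕ Fin 1) : sgm 2 (rix (Sum.inl i)) = Fin.castSucc (sgm 1 i) := by
  rcases i with i | i
  · fin_cases i <;> rfl
  · fin_cases i; rfl

lemma sgm_inr (i : Fin 1) : sgm 2 (rix (Sum.inr i)) = Fin.last 4 := by
  fin_cases i; rfl

lemma ini_single_castSucc (i : Fin (1 + 3)) :
    ini (Pi.single (Fin.castSucc i) 1) = Pi.single i 1 := by
  funext k
  rw [ini_apply, Pi.single_apply, Pi.single_apply]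
  simp only [Fin.castSucc_inj]

lemma ini_single_last : ini (Pi.single (Fin.last 4) 1) = 0 := by
  funext k
  rw [ini_apply, Pi.single_apply, if_neg (Fin.castSucc_lt_last (n := 4) k).ne]
  rfl

lemma cdet_ZS (h : Dat D d M G H) {t : ℂ} (ht : t ∈ D) (x : VN (2 + 3))
    (c : VN (1 + 3) →L[ℂ] (Fin 3 → ℂ)) :
    cdet (c.comp ini) (gv (gZ G H M) (t, x)) =
      M * lst x ^ (M - 1) * cdet c (gv (gS G) (t, ini x)) := by
  rw [cdet, ← Matrix.det_submatrix_equiv_self rix]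
  have h1 : (colM (c.comp ini) (gv (gZ G H M) (t, x))).submatrix rix rix =
      Matrix.fromBlocks (colM c (gv (gS G) (t, ini x)))
        (Matrix.of fun j _ => gv (gZ G H M) (t, x) (Pi.single (Fin.castSucc (sgm 1 j)) 1) 1) 0
        (Matrix.of fun _ _ => (M : ℂ) * lst x ^ (M - 1)) := by
    ext j i
    rw [Matrix.submatrix_apply]
    rcases j with j | j
    · rcases i with i | i
      · rw [Matrix.fromBlocks_apply₁₁]
        simp only [colM, Matrix.of_apply, sgm_inl]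
        rcases i with i | i
        · show (c.comp ini) (Pi.single (Fin.castSucc (sgm 1 j)) 1) i = c (Pi.single (sgm 1 j) 1) i
          rw [ContinuousLinearMap.comp_apply, ini_single_castSucc]
        · show gv (gZ G H M) (t, x) (Pi.single (Fin.castSucc (sgm 1 j)) 1) 0 =
            gv (gS G) (t, ini x) (Pi.single (sgm 1 j) 1) i
          rw [gv_gS h ht, (gv_gZ h ht x _).1, ini_single_castSucc]
      · rw [Matrix.fromBlocks_apply₁₂]
        simp only [colM, Matrix.of_apply, sgm_inl]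
        rfl
    · rcases i with i | i
      · rw [Matrix.fromBlocks_apply₂₁]
        simp only [colM, Matrix.of_apply, sgm_inr]
        rcases i with i | i
        · show (c.comp ini) (Pi.single (Fin.last 4) 1) i = 0
          rw [ContinuousLinearMap.comp_apply, ini_single_last, map_zero]
          rfl
        · show gv (gZ G H M) (t, x) (Pi.single (Fin.last 4) 1) 0 = 0
          rw [(gv_gZ h ht x _).1, ini_single_last]
          exact map_zero _
      · rw [Matrix.fromBlocks_apply₂₂]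
        simp only [colM, Matrix.of_apply, sgm_inr]
        show gv (gZ G H M) (t, x) (Pi.single (Fin.last 4) 1) 1 = (M : ℂ) * lst x ^ (M - 1)
        rw [(gv_gZ h ht x _).2, ini_single_last]
        have h2 : lst (Pi.single (Fin.last 4) 1) = 1 := by
          rw [lst_apply, Pi.single_eq_same]
        rw [h2]
        have h3 : fderiv ℂ H (t, ini x) (0, 0) = 0 := map_zero _
        rw [h3]
        ring
  rw [h1, Matrix.det_fromBlocks_zero₂₁, ← cdet, Matrix.det_unique]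
  simp only [Matrix.of_apply]
  ring

lemma res_ZS (h : Dat D d M G H) {t : ℂ} (ht : t ∈ D) {x : VN (2 + 3)}
    (hZ : ∀ a, ∃ v, gv (gZ G H M) (t, x) v = a) (hS : ∀ a, ∃ v, gv (gS G) (t, ini x) v = a)
    {u v w : VN (2 + 3)}
    (hu : gv (gZ G H M) (t, x) u = 0) (hv : gv (gZ G H M) (t, x) v = 0)
    (hw : gv (gZ G H M) (t, x) w = 0) :
    res (gv (gZ G H M) (t, x)) u v w * (M * lst x ^ (M - 1)) =
      res (gv (gS G) (t, ini x)) (ini u) (ini v) (ini w) := by
  obtain ⟨c, hc⟩ := exists_compl hS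
  have hd0 : cdet c (gv (gS G) (t, ini x)) ≠ 0 := cdet_ne_zero hc
  have hker : ∀ {u : VN (2 + 3)}, gv (gZ G H M) (t, x) u = 0 → gv (gS G) (t, ini x) (ini u) = 0 := by
    intro u hu
    funext k
    rw [gv_gS h ht, ← (gv_gZ h ht x u).1, hu]
    rfl
  have h1 := res_mul_cdet hZ (c.comp ini) hu hv hw
  have h2 := res_mul_cdet hS c (hker hu) (hker hv) (hker hw)
  rw [cdet_ZS h ht] at h1
  have h3 : pdet (c.comp ini) u v w = pdet c (ini u) (ini v) (ini w) := rfl
  rw [h3, ← h2] at h1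
  apply mul_right_cancel₀ hd0
  rw [← h1]
  ring

/-! ### the projection -/

lemma cone_ini (h : Dat D d M G H) (hΩD : Ω ⊆ D) {y : ℂ × VN (2 + 3)}
    (hy : y ∈ Cone Ω (gZ G H M)) : (y.1, ini y.2) ∈ Cone D (gS G) := by
  have h0 : gZ G H M (y.1, y.2) = 0 := hy.2.2
  exact ⟨hΩD hy.1, ini_ne_zero h (hΩD hy.1) hy.2.1 h0, funext fun _ => (gZ_zero_iff.1 h0).1⟩

/-- the projection of the cyclic cover onto the surface -/
def prZ (h : Dat D d M G H) (hΩD : Ω ⊆ D) (hZ : CIF Ω (gZ G H M) ![d, M]) :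
    TZ Ω (gZ G H M) → TZ D (gS G) :=
  indMap hZ ini fun _ hy => cone_ini h hΩD hy

lemma prZ_ind (h : Dat D d M G H) (hΩD : Ω ⊆ D) (hZ : CIF Ω (gZ G H M) ![d, M]) :
    IndG ini (prZ h hΩD hZ) := ind_indMap hZ ini fun _ hy => cone_ini h hΩD hy

end Vale.Agent.P298.H863
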