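import Vale.Agent.P298.H39.Fam
import Mathlib.Analysis.Calculus.InverseFunctionTheorem.ContDiff
import Mathlib.Topology.Sequences

/-!
# P298, S1-GEO, R0: families of complete intersections in projective space, total space

The point `[z]` is represented by the rank one projector `z z* / |z|²`.
-/

open scoped ContDiff ComplexConjugate Topology

noncomputable section

namespace Vale.Agent.P298.H863

/-- homogeneous coordinates -/
abbrev VN (n : ℕ) : Type := Fin n → ℂ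

variable {n K : ℕ}

/-- squared norm -/
def nsq (z : VN n) : ℝ := ∑ i, Complex.normSq (z i)

lemma nsq_pos {z : VN n} (hz : z ≠ 0) : 0 < nsq z := by
  obtain ⟨i, hi⟩ := Function.ne_iff.mp hz
  exact Finset.sum_pos' (fun i _ => Complex.normSq_nonneg _)
    ⟨i, Finset.mem_univ _, Complex.normSq_pos.mpr hi⟩

lemma nsq_smul (c : ℂ) (z : VN n) : nsq (c • z) = Complex.normSq c * nsq z := by
  simp [nsq, Finset.mul_sum]

lemma nsq_continuous : Continuous (nsq (n := n)) := by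
  unfold nsq
  fun_prop

lemma nsq_ofReal (z : VN n) : ∑ i, z i * conj (z i) = (nsq z : ℂ) := by
  simp [nsq, Complex.mul_conj]

/-- the projector `z z* / |z|²` -/
def prj (z : VN n) : Fin n → Fin n → ℂ := fun i j => z i * conj (z j) / (nsq z : ℂ)

lemma prj_smul {c : ℂ} (hc : c ≠ 0) (z : VN n) : prj (c • z) = prj z := by
  funext i j
  have h1 : (Complex.normSq c : ℂ) ≠ 0 := by
    exact_mod_cast (Complex.normSq_pos.mpr hc).ne'
  by_cases hz : (nsq z : ℂ) = 0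
  · simp [prj, nsq_smul, hz]
  · simp only [prj, nsq_smul, Pi.smul_apply, smul_eq_mul, map_mul, Complex.ofReal_mul]
    rw [← Complex.mul_conj] at h1 ⊢
    have h2 : conj c ≠ 0 := right_ne_zero_of_mul h1
    field_simp

lemma prj_ne {z : VN n} (hz : z ≠ 0) {a : Fin n} : prj z a a ≠ 0 ↔ z a ≠ 0 := by
  have h1 : (nsq z : ℂ) ≠ 0 := by exact_mod_cast (nsq_pos hz).ne'
  simp [prj, h1]

lemma prj_div {z : VN n} (hz : z ≠ 0) {a : Fin n} (ha : z a ≠ 0) (i : Fin n) :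
    prj z i a / prj z a a = z i / z a := by
  have h1 : (nsq z : ℂ) ≠ 0 := by exact_mod_cast (nsq_pos hz).ne'
  have h2 : conj (z a) ≠ 0 := by simpa using ha
  simp only [prj]
  field_simp

lemma prj_eq {z w : VN n} (hz : z ≠ 0) (hw : w ≠ 0) (h : prj z = prj w) :
    ∃ c : ℂ, c ≠ 0 ∧ w = c • z := by
  obtain ⟨a, ha⟩ := Function.ne_iff.mp hz
  have ha' : z a ≠ 0 := ha
  have hwa : w a ≠ 0 := by
    rw [← prj_ne hw, ← h, prj_ne hz]
    exact ha'
  refine ⟨w a / z a, div_ne_zero hwa ha', ?_⟩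
  funext i
  have h1 := prj_div hz ha' i
  rw [h, prj_div hw hwa i] at h1
  simp only [Pi.smul_apply, smul_eq_mul]
  field_simp at h1 ⊢
  linear_combination h1

lemma prj_continuousAt {z : VN n} (hz : z ≠ 0) : ContinuousAt prj z := by
  refine continuousAt_pi.mpr fun i => continuousAt_pi.mpr fun j => ?_
  have h1 : (nsq z : ℂ) ≠ 0 := by exact_mod_cast (nsq_pos hz).ne'
  have h2 : ContinuousAt (fun z : VN n => (nsq z : ℂ)) z :=
    (Complex.continuous_ofReal.comp nsq_continuous).continuousAt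
  have h3 : ContinuousAt (fun z : VN n => z i * conj (z j)) z := by
    have : Continuous (fun z : VN n => z i * conj (z j)) := by fun_prop
    exact this.continuousAt
  exact h3.div h2 h1

/-- a family of smooth complete intersections of projective hypersurfaces over `Ω` -/
structure CIF (Ω : Set ℂ) (G : ℂ × VN n → (Fin K → ℂ)) (dg : Fin K → ℕ) : Prop where
  isOpen : IsOpen Ω
  an : ∀ t ∈ Ω, ∀ z, AnalyticAt ℂ G (t, z)
  hom : ∀ t ∈ Ω, ∀ (c : ℂ) (z : VN n) (k : Fin K), G (t, c • z) k = c ^ dg k * G (t, z) k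
  reg : ∀ t ∈ Ω, ∀ z : VN n, z ≠ 0 → G (t, z) = 0 → ∀ a, ∃ v, fderiv ℂ G (t, z) (0, v) = a
  ne : ∀ t ∈ Ω, ∃ z : VN n, z ≠ 0 ∧ G (t, z) = 0

/-- the total space -/
@[ext] structure TZ (Ω : Set ℂ) (G : ℂ × VN n → (Fin K → ℂ)) : Type where
  /-- parameter -/
  t : ℂ
  /-- the projector on the line -/
  val : Fin n → Fin n → ℂ
  prop : t ∈ Ω ∧ ∃ z : VN n, z ≠ 0 ∧ G (t, z) = 0 ∧ val = prj z

variable {Ω : Set ℂ} {G : ℂ × VN n → (Fin K → ℂ)} {dg : Fin K → ℕ}

/-- ambient coordinates -/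
def TZ.amb (z : TZ Ω G) : ℂ × (Fin n → Fin n → ℂ) := (z.t, z.val)

instance : TopologicalSpace (TZ Ω G) := TopologicalSpace.induced TZ.amb inferInstance

lemma isEmbedding_amb : Topology.IsEmbedding (TZ.amb (Ω := Ω) (G := G)) :=
  ⟨⟨rfl⟩, fun z w h => by
    simp only [TZ.amb, Prod.mk.injEq] at h
    exact TZ.ext h.1 h.2⟩

instance : T2Space (TZ Ω G) := isEmbedding_amb.t2Space

lemma continuous_t : Continuous (TZ.t (Ω := Ω) (G := G)) :=
  continuous_fst.comp isEmbedding_amb.continuous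

lemma continuous_val : Continuous (TZ.val (Ω := Ω) (G := G)) :=
  continuous_snd.comp isEmbedding_amb.continuous

lemma continuous_entry (i j : Fin n) : Continuous fun z : TZ Ω G => z.val i j :=
  (continuous_apply j).comp ((continuous_apply i).comp continuous_val)

/-- the cone over the family -/
def Cone (Ω : Set ℂ) (G : ℂ × VN n → (Fin K → ℂ)) : Set (ℂ × VN n) :=
  {y | y.1 ∈ Ω ∧ y.2 ≠ 0 ∧ G y = 0}

/-- `y = (t, x)` represents the point `z` -/
def Rep (y : ℂ × VN n) (z : TZ Ω G) : Prop := y.2 ≠ 0 ∧ z.t = y.1 ∧ z.val = prj y.2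

lemma Rep.smul {y : ℂ × VN n} {z : TZ Ω G} (h : Rep y z) {c : ℂ} (hc : c ≠ 0) :
    Rep (y.1, c • y.2) z :=
  ⟨smul_ne_zero hc h.1, h.2.1, by rw [prj_smul hc]; exact h.2.2⟩

lemma Rep.eq_smul {y y' : ℂ × VN n} {z : TZ Ω G} (h : Rep y z) (h' : Rep y' z) :
    ∃ c : ℂ, c ≠ 0 ∧ y' = (y.1, c • y.2) := by
  obtain ⟨c, hc, hw⟩ := prj_eq h.1 h'.1 (h.2.2.symm.trans h'.2.2)
  exact ⟨c, hc, Prod.ext (h'.2.1.symm.trans h.2.1) hw⟩

lemma Rep.inj {y : ℂ × VN n} {z z' : TZ Ω G} (h : Rep y z) (h' : Rep y z') : z = z' :=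
  TZ.ext (h.2.1.trans h'.2.1.symm) (h.2.2.trans h'.2.2.symm)

lemma exists_rep (z : TZ Ω G) : ∃ y : ℂ × VN n, Rep y z := by
  obtain ⟨-, x, hx, -, hv⟩ := z.prop
  exact ⟨(z.t, x), hx, rfl, hv⟩

lemma Rep.mem_cone (h : CIF Ω G dg) {y : ℂ × VN n} {z : TZ Ω G} (hy : Rep y z) :
    y ∈ Cone Ω G := by
  obtain ⟨ht, x, hx, hG, hv⟩ := z.prop
  have h1 : Rep (z.t, x) z := ⟨hx, rfl, hv⟩
  obtain ⟨c, hc, hyc⟩ := h1.eq_smul hy
  refine ⟨by rw [hyc]; exact ht, hy.1, ?_⟩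
  rw [hyc]
  funext k
  rw [h.hom _ ht]
  have : G (z.t, x) k = 0 := by rw [hG]; rfl
  simp [this]

lemma exists_of_cone {y : ℂ × VN n} (hy : y ∈ Cone Ω G) : ∃ z : TZ Ω G, Rep y z :=
  ⟨⟨y.1, prj y.2, hy.1, y.2, hy.2.1, hy.2.2, rfl⟩, hy.2.1, rfl, rfl⟩

/-- the point represented by `y` is near `z` if `y` is near a representative of `z` -/
lemma Rep.eventually {y : ℂ × VN n} {z : TZ Ω G} (h : Rep y z) {p : TZ Ω G → Prop}
    (hp : ∀ᶠ z' in 𝓝 z, p z') : ∀ᶠ y' in 𝓝 y, ∀ z', Rep y' z' → p z' := by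
  rw [isEmbedding_amb.isInducing.nhds_eq_comap, Filter.eventually_comap] at hp
  have h1 : Filter.Tendsto (fun y : ℂ × VN n => (y.1, prj y.2)) (𝓝 y) (𝓝 (z.amb)) := by
    have h2 : z.amb = (y.1, prj y.2) := by rw [TZ.amb, h.2.1, h.2.2]
    rw [h2]
    exact (continuousAt_fst.prodMk ((prj_continuousAt h.1).comp continuousAt_snd)).tendsto
  filter_upwards [h1.eventually hp] with y' hy' z' hz'
  refine hy' z' ?_
  rw [TZ.amb, hz'.2.1, hz'.2.2]

/-- normalized homogeneous coordinates, `z / z_a` -/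
def sg (a : Fin n) (z : TZ Ω G) : ℂ × VN n := (z.t, fun i => z.val i a / z.val a a)

/-- the affine chart domain -/
def Ua (Ω : Set ℂ) (G : ℂ × VN n → (Fin K → ℂ)) (a : Fin n) : Set (TZ Ω G) := {z | z.val a a ≠ 0}

lemma isOpen_Ua (a : Fin n) : IsOpen (Ua Ω G a) :=
  isOpen_ne_fun (continuous_entry a a) continuous_const

lemma Rep.mem_Ua {y : ℂ × VN n} {z : TZ Ω G} (h : Rep y z) {a : Fin n} :
    z ∈ Ua Ω G a ↔ y.2 a ≠ 0 := by
  show z.val a a ≠ 0 ↔ _
  rw [h.2.2, prj_ne h.1]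

lemma Rep.sg_eq {y : ℂ × VN n} {z : TZ Ω G} (h : Rep y z) {a : Fin n} (ha : y.2 a ≠ 0) :
    sg a z = (y.1, (y.2 a)⁻¹ • y.2) := by
  refine Prod.ext h.2.1 ?_
  funext i
  simp only [sg, h.2.2, prj_div h.1 ha, Pi.smul_apply, smul_eq_mul]
  rw [div_eq_inv_mul]

lemma rep_sg {a : Fin n} {z : TZ Ω G} (hz : z ∈ Ua Ω G a) : Rep (sg a z) z := by
  obtain ⟨y, hy⟩ := exists_rep z
  have ha := hy.mem_Ua.1 hz
  rw [hy.sg_eq ha]
  exact hy.smul (inv_ne_zero ha)

lemma sg_self {a : Fin n} {z : TZ Ω G} (hz : z ∈ Ua Ω G a) : (sg a z).2 a = 1 := div_self hz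

lemma sg_continuousAt {a : Fin n} {z : TZ Ω G} (hz : z ∈ Ua Ω G a) :
    ContinuousAt (sg a) z := by
  refine continuous_t.continuousAt.prodMk (continuousAt_pi.mpr fun i => ?_)
  exact (continuous_entry i a).continuousAt.div (continuous_entry a a).continuousAt hz

lemma exists_mem_Ua (z : TZ Ω G) : ∃ a : Fin n, z ∈ Ua Ω G a := by
  obtain ⟨y, hy⟩ := exists_rep z
  obtain ⟨a, ha⟩ := Function.ne_iff.mp hy.1
  exact ⟨a, hy.mem_Ua.mpr ha⟩

/-- the family is proper -/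
lemma isCompact_preimage (h : CIF Ω G dg) {L : Set ℂ} (hL : IsCompact L) (hLΩ : L ⊆ Ω) :
    IsCompact ((TZ.t (Ω := Ω) (G := G)) ⁻¹' L) := by
  have hB : IsCompact {z : VN n | nsq z = 1} := by
    refine Metric.isCompact_of_isClosed_isBounded
      (isClosed_eq nsq_continuous continuous_const) ?_
    refine (Metric.isBounded_closedBall (x := (0 : VN n)) (r := 1)).subset ?_
    intro z hz
    rw [mem_closedBall_zero_iff, pi_norm_le_iff_of_nonneg zero_le_one]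
    intro i
    have h1 : Complex.normSq (z i) ≤ 1 := by
      rw [← (show nsq z = 1 from hz)]
      exact Finset.single_le_sum (f := fun i => Complex.normSq (z i))
        (fun i _ => Complex.normSq_nonneg _) (Finset.mem_univ i)
    rw [Complex.normSq_eq_norm_sq] at h1
    nlinarith [norm_nonneg (z i)]
  have hLB : IsCompact (L ×ˢ {z : VN n | nsq z = 1}) := hL.prod hB
  have hGc : ContinuousOn G (L ×ˢ {z : VN n | nsq z = 1}) := fun y hy =>
    (h.an y.1 (hLΩ hy.1) y.2).continuousAt.continuousWithinAt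
  have hC : IsCompact ((L ×ˢ {z : VN n | nsq z = 1}) ∩ G ⁻¹' {0}) := by
    have h1 : IsClosed ((L ×ˢ {z : VN n | nsq z = 1}) ∩ G ⁻¹' {0}) :=
      hGc.preimage_isClosed_of_isClosed hLB.isClosed isClosed_singleton
    exact hLB.of_isClosed_subset h1 Set.inter_subset_left
  rw [isEmbedding_amb.isCompact_iff]
  have h2 : TZ.amb '' ((TZ.t (Ω := Ω) (G := G)) ⁻¹' L) =
      (fun y : ℂ × VN n => (y.1, fun i j => y.2 i * conj (y.2 j))) ''
        ((L ×ˢ {z : VN n | nsq z = 1}) ∩ G ⁻¹' {0}) := by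
    ext A
    constructor
    · rintro ⟨z, hz, rfl⟩
      obtain ⟨y, hy⟩ := exists_rep z
      have hp := nsq_pos hy.1
      have hs : 0 < Real.sqrt (nsq y.2) := Real.sqrt_pos.mpr hp
      have hc : (((Real.sqrt (nsq y.2))⁻¹ : ℝ) : ℂ) ≠ 0 := by
        exact_mod_cast (inv_pos.mpr hs).ne'
      have hy2 := hy.smul hc
      have hn : nsq ((((Real.sqrt (nsq y.2))⁻¹ : ℝ) : ℂ) • y.2) = 1 := by
        rw [nsq_smul, Complex.normSq_ofReal, ← sq, inv_pow, Real.sq_sqrt hp.le,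
          inv_mul_cancel₀ hp.ne']
      refine ⟨(y.1, (((Real.sqrt (nsq y.2))⁻¹ : ℝ) : ℂ) • y.2),
        ⟨⟨?_, hn⟩, (hy2.mem_cone h).2.2⟩, ?_⟩
      · show y.1 ∈ L
        rw [← hy.2.1]; exact hz
      · refine Prod.ext hy.2.1.symm ?_
        funext i j
        show _ = z.val i j
        rw [hy2.2.2, prj, hn]
        simp
    · rintro ⟨y, ⟨⟨h1, h3⟩, h4⟩, rfl⟩
      have hy0 : y.2 ≠ 0 := by
        intro h5
        have h3' : nsq y.2 = 1 := h3
        rw [h5] at h3'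
        simp [nsq] at h3'
      obtain ⟨z, hz⟩ := exists_of_cone (Ω := Ω) (G := G) (y := y) ⟨hLΩ h1, hy0, h4⟩
      refine ⟨z, ?_, ?_⟩
      · show z.t ∈ L
        rw [hz.2.1]; exact h1
      · refine Prod.ext hz.2.1 ?_
        funext i j
        show z.val i j = _
        rw [hz.2.2, prj, (show nsq y.2 = 1 from h3)]
        simp
  rw [h2]
  refine hC.image ?_
  fun_prop

end Vale.Agent.P298.H863
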