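import Vale.Agent.P298.H863.C1

/-!
# P298, S1-GEO, R0: families of complete intersections in projective space, charts

A product chart is a local homeomorphism which is given by an analytic function of the homogeneous
coordinates and whose inverse has analytic lifts to the cone.
-/

open scoped ContDiff ComplexConjugate Topology
open Vale.Agent.P298.H39 Vale.Agent.P272.K Filter Set

noncomputable section

namespace Vale.Agent.P298.H863

variable {n K : ℕ} {Ω : Set ℂ} {G : ℂ × VN n → (Fin K → ℂ)} {dg : Fin K → ℕ}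
  {F : Type*} [NormedAddCommGroup F] [NormedSpace ℂ F]
  {M : Type*} [NormedAddCommGroup M] [NormedSpace ℂ M]

/-- `f` is given near `z` by an analytic function of the homogeneous coordinates -/
def AnZ (f : TZ Ω G → F) (z : TZ Ω G) : Prop :=
  ∀ y, Rep y z → ∃ E : ℂ × VN n → F, AnalyticAt ℂ E y ∧
    ∀ᶠ y' in 𝓝 y, ∀ z', Rep y' z' → f z' = E y'

/-- `g` has an analytic lift to the cone near `q` -/
def LiftAt (g : M → TZ Ω G) (q : M) : Prop :=
  ∃ L : M → ℂ × VN n, AnalyticAt ℂ L q ∧ ∀ᶠ q' in 𝓝 q, Rep (L q') (g q')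

/-- scaling of the homogeneous coordinates -/
def scl (c : ℂ) (y : ℂ × VN n) : ℂ × VN n := (y.1, c • y.2)

lemma scl_analyticAt (c : ℂ) (y : ℂ × VN n) : AnalyticAt ℂ (scl c) y :=
  analyticAt_fst.prod (analyticAt_const.fun_smul analyticAt_snd)

lemma scl_scl {c : ℂ} (hc : c ≠ 0) (y : ℂ × VN n) : scl c⁻¹ (scl c y) = y := by
  simp [scl, smul_smul, inv_mul_cancel₀ hc]

lemma AnZ.of_rep {f : TZ Ω G → F} {z : TZ Ω G} {y : ℂ × VN n} (hy : Rep y z)
    {E : ℂ × VN n → F} (hE : AnalyticAt ℂ E y)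
    (hf : ∀ᶠ y' in 𝓝 y, ∀ z', Rep y' z' → f z' = E y') : AnZ f z := by
  intro y₁ hy₁
  obtain ⟨c, hc, hyc⟩ := hy.eq_smul hy₁
  have hyc' : y₁ = scl c y := hyc
  have h1 : scl c⁻¹ y₁ = y := by rw [hyc', scl_scl hc]
  refine ⟨fun x => E (scl c⁻¹ x), ?_, ?_⟩
  · exact AnalyticAt.comp (g := E) (f := scl c⁻¹) (by rw [h1]; exact hE) (scl_analyticAt _ _)
  · have h2 : Tendsto (scl (n := n) c⁻¹) (𝓝 y₁) (𝓝 y) := by
      have := (scl_analyticAt (n := n) c⁻¹ y₁).continuousAt.tendsto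
      rwa [h1] at this
    filter_upwards [h2.eventually hf] with x hx z' hz'
    exact hx z' (hz'.smul (inv_ne_zero hc))

lemma AnZ.continuousAt {f : TZ Ω G → F} {z : TZ Ω G} (hf : AnZ f z) : ContinuousAt f z := by
  obtain ⟨a, ha⟩ := exists_mem_Ua z
  obtain ⟨E, hE, hEf⟩ := hf (sg a z) (rep_sg ha)
  have h1 : ContinuousAt (fun z' => E (sg a z')) z :=
    ContinuousAt.comp (g := E) (f := sg a) hE.continuousAt (sg_continuousAt ha)
  refine h1.congr ?_
  filter_upwards [(sg_continuousAt ha).eventually hEf, (isOpen_Ua a).mem_nhds ha] with z' h2 h3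
  exact (h2 z' (rep_sg h3)).symm

lemma AnZ.congr {f f' : TZ Ω G → F} {z : TZ Ω G} (hf : AnZ f z) (h : f =ᶠ[𝓝 z] f') :
    AnZ f' z := by
  intro y hy
  obtain ⟨E, hE, hEf⟩ := hf y hy
  refine ⟨E, hE, ?_⟩
  filter_upwards [hEf, hy.eventually h] with y' h1 h2 z' hz'
  rw [← h2 z' hz', h1 z' hz']

lemma AnZ.comp {F' : Type*} [NormedAddCommGroup F'] [NormedSpace ℂ F'] {f : TZ Ω G → F}
    {z : TZ Ω G} (hf : AnZ f z) {T : F → F'} (hT : AnalyticAt ℂ T (f z)) :
    AnZ (fun z => T (f z)) z := by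
  intro y hy
  obtain ⟨E, hE, hEf⟩ := hf y hy
  refine ⟨fun x => T (E x), ?_, ?_⟩
  · refine AnalyticAt.comp (g := T) (f := E) ?_ hE
    rw [← hEf.self_of_nhds z hy]
    exact hT
  · filter_upwards [hEf] with y' h1 z' hz'
    rw [h1 z' hz']

lemma LiftAt.continuousAt {g : M → TZ Ω G} {q : M} (hg : LiftAt g q) : ContinuousAt g q := by
  obtain ⟨L, hL, hLg⟩ := hg
  intro U hU
  have h1 : ∀ᶠ z in 𝓝 (g q), z ∈ U := hU
  have h2 := (hLg.self_of_nhds).eventually h1
  rw [mem_map]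
  filter_upwards [hL.continuousAt.tendsto.eventually h2, hLg] with q' h3 h4
  exact h3 _ h4

lemma LiftAt.congr {g g' : M → TZ Ω G} {q : M} (hg : LiftAt g q) (h : g =ᶠ[𝓝 q] g') :
    LiftAt g' q := by
  obtain ⟨L, hL, hLg⟩ := hg
  refine ⟨L, hL, ?_⟩
  filter_upwards [hLg, h] with q' h1 h2
  rw [← h2]; exact h1

lemma LiftAt.comp {M' : Type*} [NormedAddCommGroup M'] [NormedSpace ℂ M'] {g : M → TZ Ω G}
    {T : M' → M} {q : M'} (hg : LiftAt g (T q)) (hT : AnalyticAt ℂ T q) :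
    LiftAt (fun q => g (T q)) q := by
  obtain ⟨L, hL, hLg⟩ := hg
  refine ⟨fun q => L (T q), AnalyticAt.comp (g := L) (f := T) hL hT, ?_⟩
  exact hT.continuousAt.tendsto.eventually hLg

lemma AnZ.comp_lift {f : TZ Ω G → F} {g : M → TZ Ω G} {q : M} (hg : LiftAt g q)
    (hf : AnZ f (g q)) : AnalyticAt ℂ (fun q => f (g q)) q := by
  obtain ⟨L, hL, hLg⟩ := hg
  obtain ⟨E, hE, hEf⟩ := hf (L q) hLg.self_of_nhds
  have h1 : AnalyticAt ℂ (fun q => E (L q)) q := AnalyticAt.comp (g := E) (f := L) hE hL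
  refine h1.congr ?_
  filter_upwards [hL.continuousAt.tendsto.eventually hEf, hLg] with q' h2 h3
  exact (h2 _ h3).symm

/-- product charts of the family -/
structure IsPC (e : PC (TZ Ω G)) : Prop where
  par : ∀ z ∈ e.source, (e z).2 = z.t
  an : ∀ z ∈ e.source, AnZ e z
  lift : ∀ q ∈ e.target, LiftAt e.symm q

lemma IsPC.holTr {e e' : PC (TZ Ω G)} (he : IsPC e) (he' : IsPC e') : HolTr e e' := by
  intro z hz hz'
  have h1 : AnZ e' (e.symm (e z)) := by rw [e.left_inv hz]; exact he'.an z hz'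
  exact (AnZ.comp_lift (he.lift _ (e.map_source hz)) h1).contDiffAt

lemma isPC_of_compat {e : PC (TZ Ω G)} (hcov : ∀ z ∈ e.source, ∃ e', IsPC e' ∧ z ∈ e'.source)
    (hp : ∀ z ∈ e.source, (e z).2 = z.t) (h : ∀ e', IsPC e' → HolTr e e' ∧ HolTr e' e) :
    IsPC e := by
  refine ⟨hp, ?_, ?_⟩
  · intro z hz
    obtain ⟨e', he', hz'⟩ := hcov z hz
    have h1 : AnalyticAt ℂ (fun q => e (e'.symm q)) (e' z) := ((h e' he').2 z hz' hz).analyticAt
    refine ((he'.an z hz').comp h1).congr ?_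
    filter_upwards [e'.open_source.mem_nhds hz'] with x hx
    rw [e'.left_inv hx]
  · intro q hq
    have hz := e.map_target hq
    obtain ⟨e', he', hz'⟩ := hcov _ hz
    have h1 : AnalyticAt ℂ (fun q => e' (e.symm q)) q := by
      have := ((h e' he').1 _ hz hz').analyticAt
      rwa [e.right_inv hq] at this
    have h2 : LiftAt e'.symm (e' (e.symm q)) := he'.lift _ (e'.map_source hz')
    refine (LiftAt.comp (T := fun q => e' (e.symm q)) h2 h1).congr ?_
    filter_upwards [(e.continuousAt_symm hq).preimage_mem_nhds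
      (e'.open_source.mem_nhds hz')] with q' hq'
    rw [e'.left_inv hq']

/-- a local homeomorphism from two local inverses -/
def mkPH {X Y : Type*} [TopologicalSpace X] [TopologicalSpace Y] (f : X → Y) (g : Y → X)
    (S : Set X) (T : Set Y) (hS : IsOpen S) (hT : IsOpen T) (hf : ContinuousOn f S)
    (hg : ContinuousOn g T) (hgf : ∀ x ∈ S, g (f x) = x) (hfg : ∀ y ∈ T, f (g y) = y) :
    OpenPartialHomeomorph X Y where
  toFun := f
  invFun := g
  source := S ∩ f ⁻¹' T
  target := T ∩ g ⁻¹' S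
  map_source' := fun x hx => ⟨hx.2, by rw [mem_preimage, hgf x hx.1]; exact hx.1⟩
  map_target' := fun y hy => ⟨hy.2, by rw [mem_preimage, hfg y hy.1]; exact hy.1⟩
  left_inv' := fun x hx => hgf x hx.1
  right_inv' := fun y hy => hfg y hy.1
  open_source := hf.isOpen_inter_preimage hS hT
  open_target := hg.isOpen_inter_preimage hT hS
  continuousOn_toFun := hf.mono inter_subset_left
  continuousOn_invFun := hg.mono inter_subset_left

/-- the point represented by `y`, with a default value -/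
def mkz (z₀ : TZ Ω G) (y : ℂ × VN n) : TZ Ω G :=
  open Classical in if h : y ∈ Cone Ω G then (exists_of_cone h).choose else z₀

lemma rep_mkz {z₀ : TZ Ω G} {y : ℂ × VN n} (h : y ∈ Cone Ω G) : Rep y (mkz z₀ y) := by
  rw [mkz, dif_pos h]
  exact (exists_of_cone h).choose_spec

/-- Euler relation: the differential vanishes on the radial direction -/
lemma CIF.radial (h : CIF Ω G dg) {y : ℂ × VN n} (hy : y ∈ Cone Ω G) :
    fderiv ℂ G y (0, y.2) = 0 := by
  have h1 : HasDerivAt (fun c : ℂ => ((y.1, c • y.2) : ℂ × VN n)) (0, y.2) 1 := by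
    have h2 : HasDerivAt (fun c : ℂ => c • y.2) y.2 1 := by
      simpa using (hasDerivAt_id (1 : ℂ)).smul_const y.2
    exact (hasDerivAt_const (1 : ℂ) y.1).prodMk h2
  have h3 : HasFDerivAt G (fderiv ℂ G y) ((fun c : ℂ => ((y.1, c • y.2) : ℂ × VN n)) 1) := by
    simpa using (h.an y.1 hy.1 y.2).differentiableAt.hasFDerivAt
  have h4 := h3.comp_hasDerivAt (1 : ℂ) h1
  have h5 : (G ∘ fun c : ℂ => ((y.1, c • y.2) : ℂ × VN n)) = fun _ => 0 := by
    funext c k
    have : G y k = 0 := by rw [hy.2.2]; rfl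
    simp only [Function.comp_apply, h.hom _ hy.1]
    rw [show ((y.1, y.2) : ℂ × VN n) = y from rfl, this, mul_zero]
    rfl
  rw [h5] at h4
  exact h4.unique (hasDerivAt_const _ _)

end Vale.Agent.P298.H863
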