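import Vale.Agent.P298.H863.C3
import Mathlib.LinearAlgebra.Matrix.SchurComplement

/-!
# P298, S1-GEO, R0: linear algebra of the residue form

`n = K + 3`. For `x, u, v` in the kernel of `g : ℂⁿ → ℂᴷ` the number `vol x u v m`, `m` a right
inverse of `g`, is `det (c x, c u, c v) / det (c, g)` for every triple `c` of linear forms.
-/

open scoped ContDiff ComplexConjugate Topology Matrix
open Vale.Agent.P298.H39 Vale.Agent.P272.K Filter Set

noncomputable section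

namespace Vale.Agent.P298.H863

variable {K : ℕ}

/-- index equivalence -/
def sgm (K : ℕ) : Fin 3 ⊕ Fin K ≃ Fin (K + 3) :=
  finSumFinEquiv.trans (finCongr (by omega))

/-- the matrix with rows `x, u, v, m` -/
def rowM (x u v : VN (K + 3)) (m : Fin K → VN (K + 3)) : Matrix (Fin 3 ⊕ Fin K) (Fin 3 ⊕ Fin K) ℂ :=
  Matrix.of fun i j => (Sum.elim ![x, u, v] m i) (sgm K j)

/-- the matrix of the linear map `(c, g)` -/
def colM (c : VN (K + 3) →L[ℂ] (Fin 3 → ℂ)) (g : VN (K + 3) →L[ℂ] (Fin K → ℂ)) :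
    Matrix (Fin 3 ⊕ Fin K) (Fin 3 ⊕ Fin K) ℂ :=
  Matrix.of fun j i => Sum.elim (c (Pi.single (sgm K j) 1)) (g (Pi.single (sgm K j) 1)) i

/-- `det (c, g)` -/
def cdet (c : VN (K + 3) →L[ℂ] (Fin 3 → ℂ)) (g : VN (K + 3) →L[ℂ] (Fin K → ℂ)) : ℂ :=
  (colM c g).det

/-- `det (c x, c u, c v)` -/
def pdet (c : VN (K + 3) →L[ℂ] (Fin 3 → ℂ)) (x u v : VN (K + 3)) : ℂ :=
  (Matrix.of ![c x, c u, c v]).det

/-- volume -/
def vol (x u v : VN (K + 3)) (m : Fin K → VN (K + 3)) : ℂ := (rowM x u v m).det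

lemma sum_single (x : VN (K + 3)) : ∑ j, x (sgm K j) • (Pi.single (sgm K j) (1 : ℂ) : VN (K + 3)) = x := by
  rw [Equiv.sum_comp (sgm K) fun j => x j • (Pi.single j (1 : ℂ) : VN (K + 3))]
  funext i
  simp [Finset.sum_apply, Pi.single_apply]

lemma sum_clm {E : Type*} [NormedAddCommGroup E] [NormedSpace ℂ E] (f : VN (K + 3) →L[ℂ] E)
    (x : VN (K + 3)) : ∑ j, x (sgm K j) • f (Pi.single (sgm K j) 1) = f x := by
  conv_rhs => rw [← sum_single x, map_sum]
  simp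

lemma rowM_mul (c : VN (K + 3) →L[ℂ] (Fin 3 → ℂ)) (g : VN (K + 3) →L[ℂ] (Fin K → ℂ))
    {x u v : VN (K + 3)} (m : Fin K → VN (K + 3)) (hx : g x = 0) (hu : g u = 0) (hv : g v = 0) :
    rowM x u v m * colM c g = Matrix.fromBlocks (Matrix.of ![c x, c u, c v]) 0
      (Matrix.of fun k => c (m k)) (Matrix.of fun k => g (m k)) := by
  have key : ∀ (w : VN (K + 3)) (i : Fin 3 ⊕ Fin K),
      ∑ j, w (sgm K j) * (Sum.elim (c (Pi.single (sgm K j) 1)) (g (Pi.single (sgm K j) 1)) i) =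
        Sum.elim (c w) (g w) i := by
    intro w i
    rcases i with i | i
    · simp only [Sum.elim_inl]
      have := congrFun (sum_clm c w) i
      simpa [Finset.sum_apply] using this
    · simp only [Sum.elim_inr]
      have := congrFun (sum_clm g w) i
      simpa [Finset.sum_apply] using this
  ext i j
  rw [Matrix.mul_apply]
  simp only [rowM, colM, Matrix.of_apply]
  rw [key]
  rcases i with i | i <;> rcases j with j | j
  · simp only [Sum.elim_inl, Matrix.fromBlocks_apply₁₁, Matrix.of_apply]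
    fin_cases i <;> rfl
  · simp only [Sum.elim_inl, Sum.elim_inr, Matrix.fromBlocks_apply₁₂, Matrix.zero_apply]
    fin_cases i
    · simpa using congrFun hx j
    · simpa using congrFun hu j
    · simpa using congrFun hv j
  · simp only [Sum.elim_inl, Sum.elim_inr, Matrix.fromBlocks_apply₂₁, Matrix.of_apply]
  · simp only [Sum.elim_inr, Matrix.fromBlocks_apply₂₂, Matrix.of_apply]

lemma vol_mul_cdet (c : VN (K + 3) →L[ℂ] (Fin 3 → ℂ)) (g : VN (K + 3) →L[ℂ] (Fin K → ℂ))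
    {x u v : VN (K + 3)} (m : Fin K → VN (K + 3)) (hx : g x = 0) (hu : g u = 0) (hv : g v = 0) :
    vol x u v m * cdet c g = pdet c x u v * (Matrix.of fun k => g (m k)).det := by
  rw [vol, cdet, ← Matrix.det_mul, rowM_mul c g m hx hu hv, Matrix.det_fromBlocks_zero₁₂, pdet]

/-- a right inverse of `g` -/
def rinv (g : VN (K + 3) →L[ℂ] (Fin K → ℂ)) (k : Fin K) : VN (K + 3) :=
  open Classical in if h : ∃ v, g v = Pi.single k 1 then h.choose else 0

lemma g_rinv {g : VN (K + 3) →L[ℂ] (Fin K → ℂ)} (hg : ∀ a, ∃ v, g v = a) (k : Fin K) :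
    g (rinv g k) = Pi.single k 1 := by
  rw [rinv, dif_pos (hg _)]
  exact (hg _).choose_spec

/-- the residue form at `x` -/
def res (g : VN (K + 3) →L[ℂ] (Fin K → ℂ)) (x u v : VN (K + 3)) : ℂ := vol x u v (rinv g)

/-- the residue form as a quotient -/
lemma res_mul_cdet {g : VN (K + 3) →L[ℂ] (Fin K → ℂ)} (hg : ∀ a, ∃ v, g v = a)
    (c : VN (K + 3) →L[ℂ] (Fin 3 → ℂ)) {x u v : VN (K + 3)} (hx : g x = 0) (hu : g u = 0)
    (hv : g v = 0) : res g x u v * cdet c g = pdet c x u v := by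
  rw [res, vol_mul_cdet c g _ hx hu hv]
  have h1 : (Matrix.of fun k => g (rinv g k)) = (1 : Matrix (Fin K) (Fin K) ℂ) := by
    ext k l
    rw [Matrix.of_apply, g_rinv hg, Matrix.one_apply, Pi.single_apply]
    simp only [eq_comm]
  rw [h1, Matrix.det_one, mul_one]

lemma cdet_ne_zero {g : VN (K + 3) →L[ℂ] (Fin K → ℂ)} {c : VN (K + 3) →L[ℂ] (Fin 3 → ℂ)}
    (h : ∀ v, g v = 0 → c v = 0 → v = 0) : cdet c g ≠ 0 := by
  intro h0
  obtain ⟨w, hw, hw0⟩ := Matrix.exists_vecMul_eq_zero_iff.2 h0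
  apply hw
  set v : VN (K + 3) := fun i => w ((sgm K).symm i) with hv
  have hwv : ∀ j, v (sgm K j) = w j := by intro j; simp [hv]
  have h1 : ∀ i, Sum.elim (c v) (g v) i = 0 := by
    intro i
    have h2 := congrFun hw0 i
    simp only [Matrix.vecMul, dotProduct, colM, Matrix.of_apply, Pi.zero_apply] at h2
    rw [← h2]
    rcases i with i | i
    · simp only [Sum.elim_inl]
      have := congrFun (sum_clm c v) i
      rw [← this]
      simp [Finset.sum_apply, hwv]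
    · simp only [Sum.elim_inr]
      have := congrFun (sum_clm g v) i
      rw [← this]
      simp [Finset.sum_apply, hwv]
  have h2 : v = 0 := h v (funext fun i => h1 (Sum.inr i)) (funext fun i => h1 (Sum.inl i))
  funext j
  rw [← hwv j, h2]
  rfl

lemma pdet_ne_zero {g : VN (K + 3) →L[ℂ] (Fin K → ℂ)} {c : VN (K + 3) →L[ℂ] (Fin 3 → ℂ)}
    (h : ∀ v, g v = 0 → c v = 0 → v = 0) {x u v : VN (K + 3)} (hx : g x = 0) (hu : g u = 0)
    (hv : g v = 0) (hi : ∀ a b d : ℂ, a • x + b • u + d • v = 0 → a = 0 ∧ b = 0 ∧ d = 0) :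
    pdet c x u v ≠ 0 := by
  intro h0
  obtain ⟨w, hw, hw0⟩ := Matrix.exists_vecMul_eq_zero_iff.2 h0
  have h1 : c (w 0 • x + w 1 • u + w 2 • v) = 0 := by
    rw [map_add, map_add, map_smul, map_smul, map_smul]
    rw [← hw0]
    funext i
    simp [Matrix.vecMul, dotProduct, Fin.sum_univ_three]
  have h2 : g (w 0 • x + w 1 • u + w 2 • v) = 0 := by
    rw [map_add, map_add, map_smul, map_smul, map_smul, hx, hu, hv]
    simp
  obtain ⟨h3, h4, h5⟩ := hi _ _ _ (h _ h2 h1)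
  apply hw
  funext i
  fin_cases i
  · exact h3
  · exact h4
  · exact h5

/-- linear forms complementary to `g` -/
lemma exists_compl {g : VN (K + 3) →L[ℂ] (Fin K → ℂ)} (hg : ∀ a, ∃ v, g v = a) :
    ∃ c : VN (K + 3) →L[ℂ] (Fin 3 → ℂ), ∀ v, g v = 0 → c v = 0 → v = 0 := by
  have hW : Module.finrank ℂ (LinearMap.ker (g : VN (K + 3) →ₗ[ℂ] (Fin K → ℂ))) = 3 := by
    have h1 := LinearMap.finrank_range_add_finrank_ker (g : VN (K + 3) →ₗ[ℂ] (Fin K → ℂ))
    have h2 : LinearMap.range (g : VN (K + 3) →ₗ[ℂ] (Fin K → ℂ)) = ⊤ :=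
      LinearMap.range_eq_top.2 fun a => hg a
    rw [h2, finrank_top] at h1
    simp only [Module.finrank_fintype_fun_eq_card, Fintype.card_fin] at h1
    omega
  obtain ⟨φ⟩ : Nonempty (LinearMap.ker (g : VN (K + 3) →ₗ[ℂ] (Fin K → ℂ)) ≃ₗ[ℂ] (Fin 3 → ℂ)) :=
    FiniteDimensional.nonempty_linearEquiv_of_finrank_eq (by
      rw [hW]
      simp)
  obtain ⟨m, hm⟩ := LinearMap.exists_extend φ.toLinearMap
  refine ⟨LinearMap.toContinuousLinearMap m, fun v h1 h3 => ?_⟩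
  have hv : v ∈ LinearMap.ker (g : VN (K + 3) →ₗ[ℂ] (Fin K → ℂ)) := h1
  have h4 : φ ⟨v, hv⟩ = 0 := by
    have h5 := congrArg (fun l : LinearMap.ker (g : VN (K + 3) →ₗ[ℂ] (Fin K → ℂ)) →ₗ[ℂ]
      (Fin 3 → ℂ) => l ⟨v, hv⟩) hm
    have h6 : m v = φ ⟨v, hv⟩ := h5
    rw [← h6]
    exact h3
  have h5 : (⟨v, hv⟩ : LinearMap.ker (g : VN (K + 3) →ₗ[ℂ] (Fin K → ℂ))) = 0 := by
    rwa [LinearEquiv.map_eq_zero_iff] at h4
  exact congrArg Subtype.val h5

lemma res_ne_zero {g : VN (K + 3) →L[ℂ] (Fin K → ℂ)} (hg : ∀ a, ∃ v, g v = a) {x u v : VN (K + 3)}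
    (hx : g x = 0) (hu : g u = 0)
    (hv : g v = 0) (hi : ∀ a b d : ℂ, a • x + b • u + d • v = 0 → a = 0 ∧ b = 0 ∧ d = 0) :
    res g x u v ≠ 0 := by
  obtain ⟨c, hc⟩ := exists_compl hg
  intro h0
  have h1 := res_mul_cdet hg c hx hu hv
  rw [h0, zero_mul] at h1
  exact pdet_ne_zero hc hx hu hv hi h1.symm

lemma pdet_eq (c : VN (K + 3) →L[ℂ] (Fin 3 → ℂ)) (x u v : VN (K + 3)) :
    pdet c x u v = c x 0 * c u 1 * c v 2 - c x 0 * c u 2 * c v 1 - c x 1 * c u 0 * c v 2 +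
      c x 1 * c u 2 * c v 0 + c x 2 * c u 0 * c v 1 - c x 2 * c u 1 * c v 0 := by
  rw [pdet, Matrix.det_fin_three]
  rfl

/-- transformation of `pdet` under a change of the three vectors -/
lemma pdet_change (c : VN (K + 3) →L[ℂ] (Fin 3 → ℂ)) (x u v : VN (K + 3))
    (s a b p q r w : ℂ) :
    pdet c (s • x) (a • x + p • u + q • v) (b • x + r • u + w • v) =
      s * (p * w - q * r) * pdet c x u v := by
  simp only [pdet_eq, map_add, map_smul, Pi.add_apply, Pi.smul_apply, smul_eq_mul]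
  ring

end Vale.Agent.P298.H863
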