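import Vale.Agent.P298.H863.C4

/-!
# P298, S1-GEO, R0: lifts of the charts to the cone and the residue form in charts
-/

open scoped ContDiff ComplexConjugate Topology Matrix
open Vale.Agent.P298.H39 Vale.Agent.P272.K Filter Set

noncomputable section

namespace Vale.Agent.P298.H863

variable {K : ℕ} {Ω : Set ℂ} {G : ℂ × VN (K + 3) → (Fin K → ℂ)} {dg : Fin K → ℕ}

/-- differential in the direction of the homogeneous coordinates -/
def gv (G : ℂ × VN (K + 3) → (Fin K → ℂ)) (y : ℂ × VN (K + 3)) : VN (K + 3) →L[ℂ] (Fin K → ℂ) :=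
  (fderiv ℂ G y).comp (ContinuousLinearMap.inr ℂ ℂ (VN (K + 3)))

lemma gv_apply (y : ℂ × VN (K + 3)) (v : VN (K + 3)) : gv G y v = fderiv ℂ G y (0, v) := rfl

lemma gv_surj (h : CIF Ω G dg) {y : ℂ × VN (K + 3)} (hy : y ∈ Cone Ω G) :
    ∀ a, ∃ v, gv G y v = a := fun a => h.reg y.1 hy.1 y.2 hy.2.1 hy.2.2 a

/-- a lift of the inverse of the chart `e` near `q` -/
structure IsL (L : Cm 2 × ℂ → ℂ × VN (K + 3)) (e : PC (TZ Ω G)) (q : Cm 2 × ℂ) : Prop where
  an : AnalyticAt ℂ L q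
  rep : ∀ᶠ q' in 𝓝 q, Rep (L q') (e.symm q')

lemma IsPC.exists_isL {e : PC (TZ Ω G)} (he : IsPC e) {q : Cm 2 × ℂ} (hq : q ∈ e.target) :
    ∃ L, IsL L e q := by
  obtain ⟨L, hL, hr⟩ := he.lift q hq
  exact ⟨L, hL, hr⟩

/-- derivatives of the lift along the fibre -/
def dl (L : Cm 2 × ℂ → ℂ × VN (K + 3)) (q : Cm 2 × ℂ) (j : Fin 2) : VN (K + 3) :=
  (fderiv ℂ L q (Pi.single j 1, 0)).2

section
variable {L L' : Cm 2 × ℂ → ℂ × VN (K + 3)} {e e' : PC (TZ Ω G)} {q : Cm 2 × ℂ}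

lemma IsL.eventually (hL : IsL L e q) : ∀ᶠ q' in 𝓝 q, IsL L e q' := by
  filter_upwards [hL.an.eventually_analyticAt, hL.rep.eventually_nhds] with q' h1 h2
  exact ⟨h1, h2⟩

lemma IsL.mem_cone (h : CIF Ω G dg) (hL : IsL L e q) : L q ∈ Cone Ω G :=
  hL.rep.self_of_nhds.mem_cone h

lemma IsL.fst (he : IsPC e) (hq : q ∈ e.target) (hL : IsL L e q) :
    ∀ᶠ q' in 𝓝 q, (L q').1 = q'.2 := by
  filter_upwards [hL.rep, e.open_target.mem_nhds hq] with q' h1 h2
  have h3 := he.par _ (e.map_target h2)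
  rw [e.right_inv h2] at h3
  rw [h3, h1.2.1]

lemma IsL.fderiv_fst (he : IsPC e) (hq : q ∈ e.target) (hL : IsL L e q) (w : Cm 2 × ℂ) :
    (fderiv ℂ L q w).1 = w.2 := by
  have h1 : HasFDerivAt (fun q => (L q).1) ((ContinuousLinearMap.fst ℂ ℂ (VN (K + 3))).comp
      (fderiv ℂ L q)) q := hL.an.differentiableAt.hasFDerivAt.fst
  have h2 : HasFDerivAt (fun q : Cm 2 × ℂ => q.2) (ContinuousLinearMap.snd ℂ (Cm 2) ℂ) q :=
    hasFDerivAt_snd
  have h3 := (h2.congr_of_eventuallyEq (hL.fst he hq)).unique h1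
  have h4 := congrArg (fun l : Cm 2 × ℂ →L[ℂ] ℂ => l w) h3
  exact h4.symm

lemma IsL.fderiv_inl (he : IsPC e) (hq : q ∈ e.target) (hL : IsL L e q) (j : Fin 2) :
    fderiv ℂ L q (Pi.single j 1, 0) = (0, dl L q j) :=
  Prod.ext (hL.fderiv_fst he hq _) rfl

lemma IsL.gv_dl (h : CIF Ω G dg) (he : IsPC e) (hq : q ∈ e.target) (hL : IsL L e q) (j : Fin 2) :
    gv G (L q) (dl L q j) = 0 := by
  have hc := hL.mem_cone h
  have h1 : HasFDerivAt (fun q => G (L q)) ((fderiv ℂ G (L q)).comp (fderiv ℂ L q)) q :=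
    (h.an _ hc.1 _).differentiableAt.hasFDerivAt.comp q hL.an.differentiableAt.hasFDerivAt
  have h2 : (fun q => G (L q)) =ᶠ[𝓝 q] fun _ => 0 := by
    filter_upwards [hL.eventually] with q' hq'
    exact (hq'.mem_cone h).2.2
  have h3 := ((hasFDerivAt_const (0 : Fin K → ℂ) q).congr_of_eventuallyEq h2).unique h1
  have h4 := congrArg (fun l : Cm 2 × ℂ →L[ℂ] (Fin K → ℂ) => l (Pi.single j 1, 0)) h3
  rw [gv_apply, ← hL.fderiv_inl he hq j]
  exact h4.symm

lemma gv_self (h : CIF Ω G dg) {y : ℂ × VN (K + 3)} (hy : y ∈ Cone Ω G) : gv G y y.2 = 0 :=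
  h.radial hy

/-- the chart as a function of the homogeneous coordinates is constant in the radial direction -/
lemma AnZ.radial {F : Type*} [NormedAddCommGroup F] [NormedSpace ℂ F] {f : TZ Ω G → F}
    {z : TZ Ω G} {y : ℂ × VN (K + 3)} (hy : Rep y z)
    {E : ℂ × VN (K + 3) → F} (hE : AnalyticAt ℂ E y)
    (hEf : ∀ᶠ y' in 𝓝 y, ∀ z', Rep y' z' → f z' = E y') : fderiv ℂ E y (0, y.2) = 0 := by
  have h1 : HasDerivAt (fun c : ℂ => ((y.1, c • y.2) : ℂ × VN (K + 3))) (0, y.2) 1 := by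
    have h2 : HasDerivAt (fun c : ℂ => c • y.2) y.2 1 := by
      simpa using (hasDerivAt_id (1 : ℂ)).smul_const y.2
    exact (hasDerivAt_const (1 : ℂ) y.1).prodMk h2
  have hy1 : ((y.1, (1 : ℂ) • y.2) : ℂ × VN (K + 3)) = y := by simp
  have h3 : HasFDerivAt E (fderiv ℂ E y) ((fun c : ℂ => ((y.1, c • y.2) : ℂ × VN (K + 3))) 1) := by
    simpa using hE.differentiableAt.hasFDerivAt
  have h4 := h3.comp_hasDerivAt (1 : ℂ) h1
  have h5 : (E ∘ fun c : ℂ => ((y.1, c • y.2) : ℂ × VN (K + 3))) =ᶠ[𝓝 1] fun _ => f z := by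
    have h6 : Tendsto (fun c : ℂ => ((y.1, c • y.2) : ℂ × VN (K + 3))) (𝓝 1) (𝓝 y) := by
      have := h1.continuousAt.tendsto
      simpa using this
    have h7 : ∀ᶠ c : ℂ in 𝓝 1, c ≠ 0 := isOpen_ne.mem_nhds one_ne_zero
    filter_upwards [h6.eventually hEf, h7] with c hc hc0
    exact (hc z (hy.smul hc0)).symm
  exact h4.unique ((hasDerivAt_const (1 : ℂ) (f z)).congr_of_eventuallyEq h5)

/-- the lift is an immersion, transversal to the radial direction -/
lemma IsL.indep (he : IsPC e) (hq : q ∈ e.target) (hL : IsL L e q) {a : ℂ} {w : Cm 2 × ℂ}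
    (h0 : fderiv ℂ L q w + (0, a • (L q).2) = 0) : w = 0 ∧ a = 0 := by
  have hr := hL.rep.self_of_nhds
  obtain ⟨E, hE, hEf⟩ := he.an _ (e.map_target hq) (L q) hr
  have h1 : HasFDerivAt (fun q => E (L q)) ((fderiv ℂ E (L q)).comp (fderiv ℂ L q)) q :=
    hE.differentiableAt.hasFDerivAt.comp q hL.an.differentiableAt.hasFDerivAt
  have h2 : (fun q => E (L q)) =ᶠ[𝓝 q] fun q => q := by
    filter_upwards [hL.an.continuousAt.tendsto.eventually hEf, hL.rep,
      e.open_target.mem_nhds hq] with q' h3 h4 h5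
    rw [← h3 _ h4, e.right_inv h5]
  have h3 := ((hasFDerivAt_id q).congr_of_eventuallyEq h2).unique h1
  have h4 : fderiv ℂ E (L q) (fderiv ℂ L q w) = w := by
    have := congrArg (fun l : Cm 2 × ℂ →L[ℂ] Cm 2 × ℂ => l w) h3
    exact this.symm
  have h5 : fderiv ℂ E (L q) (0, a • (L q).2) = 0 := by
    have h6 := AnZ.radial hr hE hEf
    have h7 : ((0, a • (L q).2) : ℂ × VN (K + 3)) = a • (0, (L q).2) := by simp
    rw [h7, map_smul, h6, smul_zero]
  have h6 := congrArg (fderiv ℂ E (L q)) h0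
  rw [map_add, h4, h5, map_zero, add_zero] at h6
  refine ⟨h6, ?_⟩
  rw [h6, map_zero, zero_add] at h0
  have h7 : a • (L q).2 = 0 := congrArg Prod.snd h0
  exact (smul_eq_zero.1 h7).resolve_right hr.1

lemma IsL.indep3 (he : IsPC e) (hq : q ∈ e.target) (hL : IsL L e q) (a b d : ℂ)
    (h0 : a • (L q).2 + b • dl L q 0 + d • dl L q 1 = 0) : a = 0 ∧ b = 0 ∧ d = 0 := by
  have h1 : fderiv ℂ L q (b • Pi.single 0 1 + d • Pi.single 1 1, 0) + (0, a • (L q).2) = 0 := by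
    have h2 : ((b • Pi.single 0 1 + d • Pi.single 1 1, 0) : Cm 2 × ℂ) =
        b • (Pi.single 0 1, 0) + d • (Pi.single 1 1, 0) := by simp
    rw [h2, map_add, map_smul, map_smul, hL.fderiv_inl he hq, hL.fderiv_inl he hq]
    refine Prod.ext (by simp) ?_
    show b • dl L q 0 + d • dl L q 1 + a • (L q).2 = 0
    rw [← h0]
    abel
  obtain ⟨h2, h3⟩ := hL.indep he hq h1
  have h4 : (b • Pi.single 0 1 + d • Pi.single 1 1 : Cm 2) = 0 := congrArg Prod.fst h2
  have h5 := congrFun h4 0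
  have h6 := congrFun h4 1
  simp at h5 h6
  exact ⟨h3, h5, h6⟩

/-- two lifts differ by a nowhere zero analytic factor -/
lemma IsL.unique (hL : IsL L e q) (hL' : IsL L' e q) :
    ∃ c : Cm 2 × ℂ → ℂ, AnalyticAt ℂ c q ∧ c q ≠ 0 ∧
      ∀ᶠ q' in 𝓝 q, L' q' = ((L q').1, c q' • (L q').2) := by
  have hr := hL.rep.self_of_nhds
  obtain ⟨a, ha⟩ := Function.ne_iff.mp hr.1
  have ha' : (L q).2 a ≠ 0 := ha
  have hca : ∀ {M : Cm 2 × ℂ → ℂ × VN (K + 3)}, AnalyticAt ℂ M q →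
      AnalyticAt ℂ (fun q' => (M q').2 a) q := fun {M} hM =>
    AnalyticAt.comp (g := fun y : ℂ × VN (K + 3) => y.2 a) (f := M)
      (((ContinuousLinearMap.proj (R := ℂ) (φ := fun _ : Fin (K + 3) => ℂ) a).comp
        (ContinuousLinearMap.snd ℂ ℂ (VN (K + 3)))).analyticAt _) hM
  refine ⟨fun q' => (L' q').2 a / (L q').2 a, (hca hL'.an).div (hca hL.an) ha', ?_, ?_⟩
  · obtain ⟨c, hc, hyc⟩ := hr.eq_smul hL'.rep.self_of_nhds
    have h1 : (L' q).2 a = c * (L q).2 a := by rw [hyc]; rfl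
    show (L' q).2 a / (L q).2 a ≠ 0
    rw [h1]
    exact div_ne_zero (mul_ne_zero hc ha') ha'
  · filter_upwards [hL.rep, hL'.rep, (hca hL.an).continuousAt.eventually_ne ha'] with q' h1 h2 h3
    obtain ⟨c, hc, hyc⟩ := h1.eq_smul h2
    have h4 : (L' q').2 a / (L q').2 a = c := by
      rw [hyc]
      simp only [Pi.smul_apply, smul_eq_mul]
      field_simp
    rw [h4, hyc]

end

/-- scaling of the differential -/
lemma gv_smul (h : CIF Ω G dg) {y : ℂ × VN (K + 3)} (hy : y.1 ∈ Ω) {c : ℂ} (k : Fin K)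
    (v : VN (K + 3)) : c * gv G (y.1, c • y.2) v k = c ^ dg k * gv G y v k := by
  have h1 : HasFDerivAt (fun x : VN (K + 3) => G (y.1, c • x) k)
      ((ContinuousLinearMap.proj (R := ℂ) (φ := fun _ : Fin K => ℂ) k).comp
        ((gv G (y.1, c • y.2)).comp (c • ContinuousLinearMap.id ℂ (VN (K + 3))))) y.2 := by
    have h2 : HasFDerivAt G (fderiv ℂ G (y.1, c • y.2)) (y.1, c • y.2) :=
      (h.an _ hy _).differentiableAt.hasFDerivAt
    have h3 : HasFDerivAt (fun x : VN (K + 3) => ((y.1, c • x) : ℂ × VN (K + 3)))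
        ((ContinuousLinearMap.inr ℂ ℂ (VN (K + 3))).comp
          (c • ContinuousLinearMap.id ℂ (VN (K + 3)))) y.2 := by
      have h4 : HasFDerivAt (fun x : VN (K + 3) => c • x)
          (c • ContinuousLinearMap.id ℂ (VN (K + 3))) y.2 := (hasFDerivAt_id y.2).const_smul c
      have h5 := (hasFDerivAt_const (𝕜 := ℂ) y.1 y.2).prodMk h4
      refine h5.congr_fderiv ?_
      exact ContinuousLinearMap.ext fun w => rfl
    have h6 := HasFDerivAt.comp (g := G) y.2 h2 h3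
    exact hasFDerivAt_pi'.1 h6 k
  have h2 : HasFDerivAt (fun x : VN (K + 3) => c ^ dg k * G (y.1, x) k)
      (c ^ dg k • ((ContinuousLinearMap.proj (R := ℂ) (φ := fun _ : Fin K => ℂ) k).comp
        (gv G y))) y.2 := by
    have h3 : HasFDerivAt G (fderiv ℂ G y) (y.1, y.2) := (h.an _ hy _).differentiableAt.hasFDerivAt
    have h4 : HasFDerivAt (fun x : VN (K + 3) => ((y.1, x) : ℂ × VN (K + 3)))
        (ContinuousLinearMap.inr ℂ ℂ (VN (K + 3))) y.2 := by
      have h5 := (hasFDerivAt_const (𝕜 := ℂ) y.1 y.2).prodMk (hasFDerivAt_id y.2)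
      refine h5.congr_fderiv ?_
      exact ContinuousLinearMap.ext fun w => rfl
    have h6 := HasFDerivAt.comp (g := G) y.2 h3 h4
    exact (hasFDerivAt_pi'.1 h6 k).const_mul _
  have h3 : (fun x : VN (K + 3) => G (y.1, c • x) k) = fun x => c ^ dg k * G (y.1, x) k := by
    funext x
    exact h.hom _ hy c x k
  rw [h3] at h1
  have h4 := congrArg (fun l : VN (K + 3) →L[ℂ] ℂ => l v) (h1.unique h2)
  simpa [mul_comm] using h4

lemma cdet_smul (h : CIF Ω G dg) {y : ℂ × VN (K + 3)} (hy : y.1 ∈ Ω) {c : ℂ}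
    (l : VN (K + 3) →L[ℂ] (Fin 3 → ℂ)) :
    c ^ K * cdet l (gv G (y.1, c • y.2)) = c ^ (∑ k, dg k) * cdet l (gv G y) := by
  have h1 : colM l (gv G (y.1, c • y.2)) *
      Matrix.diagonal (Sum.elim (fun _ : Fin 3 => (1 : ℂ)) (fun _ : Fin K => c)) =
      colM l (gv G y) *
      Matrix.diagonal (Sum.elim (fun _ : Fin 3 => (1 : ℂ)) (fun k : Fin K => c ^ dg k)) := by
    ext j i
    rw [Matrix.mul_diagonal, Matrix.mul_diagonal]
    simp only [colM, Matrix.of_apply]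
    rcases i with i | i
    · simp
    · simp only [Sum.elim_inr]
      rw [mul_comm, gv_smul h hy, mul_comm]
  have h2 := congrArg Matrix.det h1
  rw [Matrix.det_mul, Matrix.det_mul, Matrix.det_diagonal, Matrix.det_diagonal] at h2
  simp only [Fintype.prod_sum_type, Sum.elim_inl, Sum.elim_inr, Finset.prod_const_one, one_mul,
    Finset.prod_const, Finset.card_univ, Fintype.card_fin, Finset.prod_pow_eq_pow_sum] at h2
  rw [cdet, cdet, mul_comm, h2, mul_comm]

end Vale.Agent.P298.H863
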