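import Vale.Agent.P298.H863.C5
import Vale.Agent.P298.H39.Jac

/-!
# P298, S1-GEO, R0: the relative holomorphic 2-forms `P w_Z`
-/

open scoped ContDiff ComplexConjugate Topology Matrix
open Vale.Agent.P298.H39 Vale.Agent.P272.K Filter Set

noncomputable section

namespace Vale.Agent.P298.H863

variable {K : ℕ} {Ω : Set ℂ} {G : ℂ × VN (K + 3) → (Fin K → ℂ)} {dg : Fin K → ℕ}

/-- homogeneous functions of degree `N`, depending on the parameter -/
structure HPol (Ω : Set ℂ) (P : ℂ × VN (K + 3) → ℂ) (N : ℕ) : Prop where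
  an : ∀ t ∈ Ω, ∀ z : VN (K + 3), z ≠ 0 → AnalyticAt ℂ P (t, z)
  hom : ∀ t ∈ Ω, ∀ c : ℂ, c ≠ 0 → ∀ z : VN (K + 3), P (t, c • z) = c ^ N * P (t, z)

/-- the coefficient of `P w_Z` with respect to a lift -/
def cfL (G : ℂ × VN (K + 3) → (Fin K → ℂ)) (P : ℂ × VN (K + 3) → ℂ)
    (L : Cm 2 × ℂ → ℂ × VN (K + 3)) (q : Cm 2 × ℂ) : ℂ :=
  P (L q) * res (gv G (L q)) (L q).2 (dl L q 0) (dl L q 1)

/-- the coefficient of `P w_Z` in the chart `e` -/
def cf (P : ℂ × VN (K + 3) → ℂ) (e : PC (TZ Ω G)) (q : Cm 2 × ℂ) : ℂ :=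
  open Classical in if h : ∃ L, IsL L e q then cfL G P h.choose q else 0

section
variable {P : ℂ × VN (K + 3) → ℂ} {N : ℕ} {L L' : Cm 2 × ℂ → ℂ × VN (K + 3)} {e e' : PC (TZ Ω G)}
  {q : Cm 2 × ℂ}

/-- the coefficient as a quotient -/
lemma cfL_mul_cdet (h : CIF Ω G dg) (he : IsPC e) (hq : q ∈ e.target) (hL : IsL L e q)
    (l : VN (K + 3) →L[ℂ] (Fin 3 → ℂ)) :
    cfL G P L q * cdet l (gv G (L q)) = P (L q) * pdet l (L q).2 (dl L q 0) (dl L q 1) := by
  have hc := hL.mem_cone h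
  rw [cfL, mul_assoc, res_mul_cdet (gv_surj h hc) l (gv_self h hc) (hL.gv_dl h he hq 0)
    (hL.gv_dl h he hq 1)]

lemma dl_smul {c : Cm 2 × ℂ → ℂ} (hL : AnalyticAt ℂ L q) (hc : AnalyticAt ℂ c q)
    (hcL : ∀ᶠ q' in 𝓝 q, L' q' = ((L q').1, c q' • (L q').2)) (j : Fin 2) :
    dl L' q j = fderiv ℂ c q (Pi.single j 1, 0) • (L q).2 + c q • dl L q j := by
  have h1 : HasFDerivAt (fun q => ((L q).1, c q • (L q).2))
      (((ContinuousLinearMap.fst ℂ ℂ (VN (K + 3))).comp (fderiv ℂ L q)).prod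
        (c q • ((ContinuousLinearMap.snd ℂ ℂ (VN (K + 3))).comp (fderiv ℂ L q)) +
          (fderiv ℂ c q).smulRight (L q).2)) q :=
    hL.differentiableAt.hasFDerivAt.fst.prodMk
      (hc.differentiableAt.hasFDerivAt.smul hL.differentiableAt.hasFDerivAt.snd)
  have h2 : fderiv ℂ L' q = _ := (h1.congr_of_eventuallyEq hcL).fderiv
  rw [dl, h2]
  exact add_comm _ _

lemma cfL_unique (h : CIF Ω G dg) (hP : HPol Ω P N) (hN : N + (K + 3) = ∑ k, dg k) (he : IsPC e)
    (hq : q ∈ e.target) (hL : IsL L e q) (hL' : IsL L' e q) : cfL G P L' q = cfL G P L q := by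
  obtain ⟨c, hc, hc0, hcL⟩ := hL.unique hL'
  have hcone := hL.mem_cone h
  obtain ⟨l, hl⟩ := exists_compl (gv_surj h hcone)
  have hd0 : cdet l (gv G (L q)) ≠ 0 := cdet_ne_zero hl
  have hL'q : L' q = ((L q).1, c q • (L q).2) := hcL.self_of_nhds
  have h1 := cfL_mul_cdet (P := P) h he hq hL l
  have h2 := cfL_mul_cdet (P := P) h he hq hL' l
  have h3 := cdet_smul h (y := L q) hcone.1 (c := c q) l
  rw [dl_smul hL.an hc hcL, dl_smul hL.an hc hcL, hL'q] at h2
  have h4 : pdet l (c q • (L q).2) (fderiv ℂ c q (Pi.single 0 1, 0) • (L q).2 + c q • dl L q 0)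
      (fderiv ℂ c q (Pi.single 1 1, 0) • (L q).2 + c q • dl L q 1) =
      c q * (c q * c q - 0 * 0) * pdet l (L q).2 (dl L q 0) (dl L q 1) := by
    rw [← pdet_change l (L q).2 (dl L q 0) (dl L q 1) (c q)
      (fderiv ℂ c q (Pi.single 0 1, 0)) (fderiv ℂ c q (Pi.single 1 1, 0)) (c q) 0 0 (c q)]
    simp
  simp only at h2
  rw [h4, hP.hom _ hcone.1 _ hc0] at h2
  have h5 : P ((L q).1, (L q).2) = P (L q) := rfl
  rw [h5] at h2
  have h6 : c q ^ (∑ k, dg k) * cdet l (gv G (L q)) ≠ 0 := mul_ne_zero (pow_ne_zero _ hc0) hd0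
  apply mul_right_cancel₀ h6
  calc cfL G P L' q * (c q ^ (∑ k, dg k) * cdet l (gv G (L q)))
      = c q ^ K * (cfL G P L' q * cdet l (gv G ((L q).1, c q • (L q).2))) := by rw [← h3]; ring
    _ = c q ^ K * (c q ^ N * P (L q) * (c q * (c q * c q - 0 * 0) *
          pdet l (L q).2 (dl L q 0) (dl L q 1))) := by rw [h2]
    _ = c q ^ (N + (K + 3)) * (P (L q) * pdet l (L q).2 (dl L q 0) (dl L q 1)) := by ring
    _ = _ := by rw [hN, ← h1]; ring

lemma cf_eq (h : CIF Ω G dg) (hP : HPol Ω P N) (hN : N + (K + 3) = ∑ k, dg k) (he : IsPC e)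
    (hq : q ∈ e.target) (hL : IsL L e q) : cf P e q = cfL G P L q := by
  have hex : ∃ L, IsL L e q := ⟨L, hL⟩
  rw [cf, dif_pos hex]
  exact cfL_unique h hP hN he hq hL hex.choose_spec

lemma cf_ne_zero (h : CIF Ω G dg) (hP : HPol Ω P N) (hN : N + (K + 3) = ∑ k, dg k) (he : IsPC e)
    (hq : q ∈ e.target) (hL : IsL L e q) (h0 : P (L q) ≠ 0) : cf P e q ≠ 0 := by
  rw [cf_eq h hP hN he hq hL, cfL]
  have hc := hL.mem_cone h
  exact mul_ne_zero h0 (res_ne_zero (gv_surj h hc) (gv_self h hc) (hL.gv_dl h he hq 0)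
    (hL.gv_dl h he hq 1) (hL.indep3 he hq))

lemma gv_analyticAt (h : CIF Ω G dg) {y : ℂ × VN (K + 3)} (hy : y.1 ∈ Ω) (v : VN (K + 3))
    (k : Fin K) : AnalyticAt ℂ (fun y => gv G y v k) y := by
  have h1 : AnalyticAt ℂ (fderiv ℂ G) y := (h.an _ hy y.2).fderiv
  have h2 : AnalyticAt ℂ (fun y => fderiv ℂ G y (0, v)) y :=
    AnalyticAt.comp (g := fun T : (ℂ × VN (K + 3)) →L[ℂ] (Fin K → ℂ) => T (0, v))
      (ContinuousLinearMap.analyticAt
        (ContinuousLinearMap.apply ℂ (Fin K → ℂ) ((0, v) : ℂ × VN (K + 3))) _) h1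
  exact AnalyticAt.comp (g := fun b : Fin K → ℂ => b k)
    ((ContinuousLinearMap.proj (R := ℂ) (φ := fun _ : Fin K => ℂ) k).analyticAt _) h2

lemma cdet_analyticAt (h : CIF Ω G dg) {y : ℂ × VN (K + 3)} (hy : y.1 ∈ Ω)
    (l : VN (K + 3) →L[ℂ] (Fin 3 → ℂ)) : AnalyticAt ℂ (fun y => cdet l (gv G y)) y := by
  simp only [cdet, Matrix.det_apply]
  refine Finset.analyticAt_fun_sum _ fun s _ => ?_
  have h1 : AnalyticAt ℂ (fun y => ∏ i, colM l (gv G y) (s i) i) y := by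
    refine Finset.analyticAt_fun_prod _ fun i _ => ?_
    simp only [colM, Matrix.of_apply]
    rcases i with i | i
    · exact analyticAt_const
    · exact gv_analyticAt h hy _ i
  have h2 : (fun y => Equiv.Perm.sign s • ∏ i, colM l (gv G y) (s i) i) =
      fun y => ((Equiv.Perm.sign s : ℤ) : ℂ) * ∏ i, colM l (gv G y) (s i) i := by
    funext y
    rw [Units.smul_def, zsmul_eq_mul]
  rw [h2]
  exact analyticAt_const.mul h1

lemma dl_analyticAt (hL : AnalyticAt ℂ L q) (j : Fin 2) : AnalyticAt ℂ (fun q => dl L q j) q := by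
  have h1 : AnalyticAt ℂ (fun q => fderiv ℂ L q (Pi.single j 1, 0)) q :=
    AnalyticAt.comp (g := fun T : (Cm 2 × ℂ) →L[ℂ] (ℂ × VN (K + 3)) => T (Pi.single j 1, 0))
      (ContinuousLinearMap.analyticAt
        (ContinuousLinearMap.apply ℂ (ℂ × VN (K + 3)) ((Pi.single j 1, 0) : Cm 2 × ℂ)) _) hL.fderiv
  exact analyticAt_snd.comp h1

lemma pdet_analyticAt (l : VN (K + 3) →L[ℂ] (Fin 3 → ℂ)) {a b c : Cm 2 × ℂ → VN (K + 3)}
    (ha : AnalyticAt ℂ a q) (hb : AnalyticAt ℂ b q) (hc : AnalyticAt ℂ c q) :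
    AnalyticAt ℂ (fun q => pdet l (a q) (b q) (c q)) q := by
  have key : ∀ {f : Cm 2 × ℂ → VN (K + 3)}, AnalyticAt ℂ f q → ∀ i : Fin 3,
      AnalyticAt ℂ (fun q => l (f q) i) q := fun {f} hf i =>
    AnalyticAt.comp (g := fun x : VN (K + 3) => l x i)
      (((ContinuousLinearMap.proj (R := ℂ) (φ := fun _ : Fin 3 => ℂ) i).comp l).analyticAt _) hf
  simp only [pdet_eq]
  have ha0 := key ha 0; have ha1 := key ha 1; have ha2 := key ha 2
  have hb0 := key hb 0; have hb1 := key hb 1; have hb2 := key hb 2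
  have hc0 := key hc 0; have hc1 := key hc 1; have hc2 := key hc 2
  exact (((((ha0.mul hb1).mul hc2).sub ((ha0.mul hb2).mul hc1)).sub ((ha1.mul hb0).mul hc2)).add
    ((ha1.mul hb2).mul hc0)).add ((ha2.mul hb0).mul hc1) |>.sub ((ha2.mul hb1).mul hc0)

lemma cf_analyticAt (h : CIF Ω G dg) (hP : HPol Ω P N) (hN : N + (K + 3) = ∑ k, dg k)
    (he : IsPC e) (hq : q ∈ e.target) : AnalyticAt ℂ (cf P e) q := by
  obtain ⟨L, hL⟩ := he.exists_isL hq
  have hcone := hL.mem_cone h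
  obtain ⟨l, hl⟩ := exists_compl (gv_surj h hcone)
  have hd0 : cdet l (gv G (L q)) ≠ 0 := cdet_ne_zero hl
  have hda : AnalyticAt ℂ (fun q => cdet l (gv G (L q))) q :=
    AnalyticAt.comp (g := fun y => cdet l (gv G y)) (cdet_analyticAt h hcone.1 l) hL.an
  have h1 : AnalyticAt ℂ (fun q => P (L q) * pdet l (L q).2 (dl L q 0) (dl L q 1) /
      cdet l (gv G (L q))) q := by
    refine AnalyticAt.div (AnalyticAt.mul ?_ ?_) hda hd0
    · exact AnalyticAt.comp (g := P) (hP.an _ hcone.1 _ hcone.2.1) hL.an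
    · exact pdet_analyticAt l (analyticAt_snd.comp hL.an) (dl_analyticAt hL.an 0)
        (dl_analyticAt hL.an 1)
  refine h1.congr ?_
  filter_upwards [hL.eventually, e.open_target.mem_nhds hq,
    hda.continuousAt.eventually_ne hd0] with q' h2 h3 h4
  rw [cf_eq h hP hN he h3 h2, ← cfL_mul_cdet h he h3 h2 l]
  field_simp

end

section
variable {P : ℂ × VN (K + 3) → ℂ} {N : ℕ} {e e' : PC (TZ Ω G)} {z : TZ Ω G}

/-- change of charts, in terms of the images of the basis vectors -/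
lemma cf_change (h : CIF Ω G dg) (hP : HPol Ω P N) (hN : N + (K + 3) = ∑ k, dg k)
    (he : IsPC e) (he' : IsPC e') (hz : z ∈ e.source) (hz' : z ∈ e'.source) :
    cf P e (e z) = (fj e e' z (Pi.single 0 1) 0 * fj e e' z (Pi.single 1 1) 1 -
      fj e e' z (Pi.single 0 1) 1 * fj e e' z (Pi.single 1 1) 0) * cf P e' (e' z) := by
  have hA : e ∈ (fam h rfl).A := he
  have hA' : e' ∈ (fam h rfl).A := he'
  have hTd := tr_diff (F := fam h rfl) hA hA' hz hz'
  have hT : AnalyticAt ℂ (fun q => e' (e.symm q)) (e z) := (he.holTr he' z hz hz').analyticAt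
  have hTz : e' (e.symm (e z)) = e' z := by rw [e.left_inv hz]
  have hq := e.map_source hz
  have hq' := e'.map_source hz'
  obtain ⟨L', hL'⟩ := he'.exists_isL hq'
  have hL'a : AnalyticAt ℂ L' (e' (e.symm (e z))) := by rw [hTz]; exact hL'.an
  have hL : IsL (fun q => L' (e' (e.symm q))) e (e z) := by
    refine ⟨AnalyticAt.comp (g := L') (f := fun q => e' (e.symm q)) hL'a hT, ?_⟩
    have h1 : Tendsto (fun q => e' (e.symm q)) (𝓝 (e z)) (𝓝 (e' z)) := by
      have := hT.continuousAt.tendsto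
      simpa only [hTz] using this
    filter_upwards [h1.eventually hL'.rep, nhds_overlap hz hz'] with q h2 h3
    rwa [e'.left_inv h3.2] at h2
  have hdl : ∀ j : Fin 2, dl (fun q => L' (e' (e.symm q))) (e z) j =
      (0 : ℂ) • (L' (e' z)).2 + fj e e' z (Pi.single j 1) 0 • dl L' (e' z) 0 +
        fj e e' z (Pi.single j 1) 1 • dl L' (e' z) 1 := by
    intro j
    have h1 : HasFDerivAt (fun q => L' (e' (e.symm q)))
        ((fderiv ℂ L' (e' z)).comp (fderiv ℂ (fun q => e' (e.symm q)) (e z))) (e z) := by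
      have h2 : HasFDerivAt L' (fderiv ℂ L' (e' z)) (e' (e.symm (e z))) := by
        rw [hTz]; exact hL'.an.differentiableAt.hasFDerivAt
      exact HasFDerivAt.comp (g := L') (f := fun q => e' (e.symm q)) (e z) h2 hTd.hasFDerivAt
    rw [dl, h1.fderiv]
    have h3 : fderiv ℂ (fun q => e' (e.symm q)) (e z) (Pi.single j 1, 0) =
        (fj e e' z (Pi.single j 1), 0) := by
      have h4 := tj_inl (F := fam h rfl) hA hA' hz hz' (Pi.single j 1)
      rw [tj_eq (F := fam h rfl) hA hA' hz hz'] at h4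
      exact h4
    have h5 : ((fj e e' z (Pi.single j 1), 0) : Cm 2 × ℂ) =
        fj e e' z (Pi.single j 1) 0 • ((Pi.single 0 1, 0) : Cm 2 × ℂ) +
          fj e e' z (Pi.single j 1) 1 • ((Pi.single 1 1, 0) : Cm 2 × ℂ) := by
      refine Prod.ext ?_ (by simp)
      funext i
      fin_cases i <;> simp
    rw [ContinuousLinearMap.comp_apply, h3, h5, map_add, map_smul, map_smul,
      hL'.fderiv_inl he' hq', hL'.fderiv_inl he' hq']
    simp
  rw [cf_eq h hP hN he hq hL, cf_eq h hP hN he' hq' hL']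
  have hcone := hL'.mem_cone h
  obtain ⟨l, hl⟩ := exists_compl (gv_surj h hcone)
  have hd0 : cdet l (gv G (L' (e' z))) ≠ 0 := cdet_ne_zero hl
  have h1 := cfL_mul_cdet (P := P) h he hq hL l
  have h2 := cfL_mul_cdet (P := P) h he' hq' hL' l
  rw [hdl, hdl] at h1
  simp only [hTz] at h1
  have h3 := pdet_change l (L' (e' z)).2 (dl L' (e' z) 0) (dl L' (e' z) 1) 1 0 0
    (fj e e' z (Pi.single 0 1) 0) (fj e e' z (Pi.single 0 1) 1)
    (fj e e' z (Pi.single 1 1) 0) (fj e e' z (Pi.single 1 1) 1)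
  rw [one_smul, one_mul] at h3
  rw [h3] at h1
  apply mul_right_cancel₀ hd0
  rw [h1, mul_assoc, h2]
  ring

end

end Vale.Agent.P298.H863
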