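import Vale.Agent.P298.H863.C6

/-!
# P298, S1-GEO, R0: `P w_Z` as a relative 2-form
-/

open scoped ContDiff ComplexConjugate Topology Matrix
open Vale.Agent.P298.H39 Vale.Agent.P272.K Filter Set

noncomputable section

namespace Vale.Agent.P298.H863

variable {K : ℕ} {Ω : Set ℂ} {G : ℂ × VN (K + 3) → (Fin K → ℂ)} {dg : Fin K → ℕ}

/-- the coordinate as a real linear form -/
def cp (i : Fin 2) : Cm 2 →L[ℝ] ℂ :=
  (ContinuousLinearMap.proj (R := ℂ) (φ := fun _ : Fin 2 => ℂ) i).restrictScalars ℝ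

lemma cp_apply (i : Fin 2) (u : Cm 2) : cp i u = u i := rfl

/-- the form `dz₀ ∧ dz₁` -/
def det2 : BF := (ContinuousLinearMap.mul ℝ ℂ).bilinearComp (cp 0) (cp 1) -
  (ContinuousLinearMap.mul ℝ ℂ).bilinearComp (cp 1) (cp 0)

lemma det2_apply (u v : Cm 2) : det2 u v = u 0 * v 1 - u 1 * v 0 := rfl

/-- multiplication of `dz₀ ∧ dz₁` by a number -/
def smd : ℂ →L[ℝ] BF := LinearMap.toContinuousLinearMap
  { toFun := fun c => c • det2
    map_add' := fun a b => add_smul a b det2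
    map_smul' := fun r a => by
      rw [RingHom.id_apply, smul_assoc] }

lemma smd_apply (c : ℂ) (u v : Cm 2) : smd c u v = c * (u 0 * v 1 - u 1 * v 0) := rfl

lemma smd_contDiff : ContDiff ℝ ∞ (fun c : ℂ => (smd c : BF)) := by
  exact ContinuousLinearMap.contDiff (𝕜 := ℝ) (E := ℂ) (F := BF) (n := ∞) smd

lemma smd_hasFDerivAt (c : ℂ) : HasFDerivAt (fun c : ℂ => (smd c : BF)) (smd : ℂ →L[ℝ] BF) c :=
  ContinuousLinearMap.hasFDerivAt (F := BF) smd

/-- the relative 2-form with coefficients `f` -/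
def fm (f : PC (TZ Ω G) → Cm 2 × ℂ → ℂ) : PC (TZ Ω G) → Cm 2 × ℂ → BF := fun e q => smd (f e q)

lemma fm_apply (f : PC (TZ Ω G) → Cm 2 × ℂ → ℂ) (e : PC (TZ Ω G)) (q : Cm 2 × ℂ) (u v : Cm 2) :
    fm f e q u v = f e q * (u 0 * v 1 - u 1 * v 0) := rfl

lemma ty20_fm (f : PC (TZ Ω G) → Cm 2 × ℂ → ℂ) (e : PC (TZ Ω G)) (q : Cm 2 × ℂ) :
    Ty20 (fm f e q) := by
  intro u v
  simp only [fm_apply, Pi.smul_apply, smul_eq_mul]
  constructor <;> ring

/-- coefficients of a relative holomorphic 2-form -/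
structure IsHolCf (h : CIF Ω G dg) (f : PC (TZ Ω G) → Cm 2 × ℂ → ℂ) : Prop where
  hol : ∀ e, IsPC e → ∀ q ∈ e.target, AnalyticAt ℂ (f e) q
  change : ∀ e, IsPC e → ∀ e', IsPC e' → ∀ z ∈ e.source, z ∈ e'.source →
    f e (e z) = (fj e e' z (Pi.single 0 1) 0 * fj e e' z (Pi.single 1 1) 1 -
      fj e e' z (Pi.single 0 1) 1 * fj e e' z (Pi.single 1 1) 0) * f e' (e' z)

lemma isHolCf_cf (h : CIF Ω G dg) {P : ℂ × VN (K + 3) → ℂ} {N : ℕ} (hP : HPol Ω P N)
    (hN : N + (K + 3) = ∑ k, dg k) : IsHolCf h (cf P) :=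
  ⟨fun _ he _ hq => cf_analyticAt h hP hN he hq,
    fun _ he _ he' _ hz hz' => cf_change h hP hN he he' hz hz'⟩

lemma fj_expand (h : CIF Ω G dg) {e e' : PC (TZ Ω G)} (he : IsPC e) (he' : IsPC e') {z : TZ Ω G}
    (hz : z ∈ e.source) (hz' : z ∈ e'.source) (u : Cm 2) :
    fj e e' z u = u 0 • fj e e' z (Pi.single 0 1) + u 1 • fj e e' z (Pi.single 1 1) := by
  have h1 := fjL_smul (F := fam h rfl) he he' hz hz'
  have h2 : u = u 0 • (Pi.single 0 1 : Cm 2) + u 1 • (Pi.single 1 1 : Cm 2) := by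
    funext i
    fin_cases i <;> simp
  conv_lhs => rw [h2]
  rw [← fjL_apply, map_add, h1, h1, fjL_apply, fjL_apply]

theorem IsHolCf.isRF2 {h : CIF Ω G dg} {f : PC (TZ Ω G) → Cm 2 × ℂ → ℂ} (hf : IsHolCf h f) :
    IsRF2 (fam h rfl) (fm f) where
  smooth e he q hq := by
    have h1 : ContDiffAt ℂ ω (f e) q := (hf.hol e he q hq).contDiffAt
    have h2 : ContDiffAt ℝ ∞ (f e) q := (h1.restrict_scalars ℝ).of_le le_top
    exact ContDiffAt.comp (g := fun c : ℂ => (smd c : BF)) q smd_contDiff.contDiffAt h2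
  alt e he q hq u v := by
    simp only [fm_apply]
    ring
  change e he e' he' z hz hz' u v := by
    have h1 := hf.change e he e' he' z hz hz'
    rw [fm_apply, fm_apply, h1, fj_expand h he he' hz hz' u, fj_expand h he he' hz hz' v]
    simp only [Pi.add_apply, Pi.smul_apply, smul_eq_mul]
    ring

theorem IsHolCf.isCl2 {h : CIF Ω G dg} {f : PC (TZ Ω G) → Cm 2 × ℂ → ℂ} (hf : IsHolCf h f) :
    IsCl2 (fam h rfl) (fm f) := by
  intro e he q hq u v x
  have h1 : HasFDerivAt (f e) (fderiv ℂ (f e) q) q :=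
    (hf.hol e he q hq).differentiableAt.hasFDerivAt
  have h2 : HasFDerivAt (fm f e)
      ((smd : ℂ →L[ℝ] BF).comp ((fderiv ℂ (f e) q).restrictScalars ℝ)) q :=
    HasFDerivAt.comp (g := fun c : ℂ => (smd c : BF)) q (smd_hasFDerivAt _) (h1.restrictScalars ℝ)
  have h3 : ∀ w : Cm 2, fderiv ℂ (f e) q (w, 0) =
      w 0 * fderiv ℂ (f e) q (Pi.single 0 1, 0) + w 1 * fderiv ℂ (f e) q (Pi.single 1 1, 0) := by
    intro w
    have h4 : ((w, 0) : Cm 2 × ℂ) = w 0 • (Pi.single 0 1, 0) + w 1 • (Pi.single 1 1, 0) := by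
      refine Prod.ext ?_ (by simp)
      funext i
      fin_cases i <;> simp
    rw [h4, map_add, map_smul, map_smul]
    simp
  rw [h2.fderiv]
  simp only [ContinuousLinearMap.comp_apply, ContinuousLinearMap.coe_restrictScalars', smd_apply]
  rw [h3 u, h3 v, h3 x]
  ring

end Vale.Agent.P298.H863
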