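import Vale.Agent.P298.H863.C8

/-!
# P298, S1-GEO, R0: the family of surfaces `G = 0` and of their cyclic covers `Y ^ M = H`
-/

open scoped ContDiff ComplexConjugate Topology Matrix
open Vale.Agent.P298.H39 Vale.Agent.P272.K Filter Set

noncomputable section

namespace Vale.Agent.P298.H863

/-- forgetting the last coordinate -/
def ini : VN (2 + 3) →L[ℂ] VN (1 + 3) :=
  ContinuousLinearMap.pi fun i => ContinuousLinearMap.proj (R := ℂ) (φ := fun _ : Fin (2 + 3) => ℂ)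
    (Fin.castSucc i)

/-- the last coordinate -/
def lst : VN (2 + 3) →L[ℂ] ℂ :=
  ContinuousLinearMap.proj (R := ℂ) (φ := fun _ : Fin (2 + 3) => ℂ) (Fin.last 4)

lemma ini_apply (x : VN (2 + 3)) (i : Fin (1 + 3)) : ini x i = x (Fin.castSucc i) := rfl

lemma lst_apply (x : VN (2 + 3)) : lst x = x (Fin.last 4) := rfl

lemma ext_ini {x y : VN (2 + 3)} (h1 : ini x = ini y) (h2 : lst x = lst y) : x = y := by
  funext i
  refine Fin.lastCases ?_ (fun i => ?_) i
  · exact h2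
  · exact congrFun h1 i

/-- the point with given coordinates -/
def snc (z : VN (1 + 3)) (Y : ℂ) : VN (2 + 3) := Fin.snoc (α := fun _ => ℂ) z Y

lemma ini_snc (z : VN (1 + 3)) (Y : ℂ) : ini (snc z Y) = z := by
  funext i
  show (Fin.snoc (α := fun _ => ℂ) z Y : VN (2 + 3)) (Fin.castSucc i) = z i
  exact Fin.snoc_castSucc (α := fun _ => ℂ) Y z i

lemma lst_snc (z : VN (1 + 3)) (Y : ℂ) : lst (snc z Y) = Y := by
  show (Fin.snoc (α := fun _ => ℂ) z Y : VN (2 + 3)) (Fin.last 4) = Y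
  exact Fin.snoc_last (α := fun _ => ℂ) Y z

lemma snc_ini (x : VN (2 + 3)) : snc (ini x) (lst x) = x :=
  ext_ini (ini_snc _ _) (lst_snc _ _)

/-- the equation of the surface -/
def gS (G : ℂ × VN (1 + 3) → ℂ) : ℂ × VN (1 + 3) → (Fin 1 → ℂ) := fun y _ => G y

/-- the equations of the cyclic cover -/
def gZ (G H : ℂ × VN (1 + 3) → ℂ) (M : ℕ) : ℂ × VN (2 + 3) → (Fin 2 → ℂ) := fun y =>
  ![G (y.1, ini y.2), lst y.2 ^ M - H (y.1, ini y.2)]

/-- the data: a family of smooth surfaces and a family of sections of `O(M)` -/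
structure Dat (D : Set ℂ) (d M : ℕ) (G H : ℂ × VN (1 + 3) → ℂ) : Prop where
  hD : IsOpen D
  hd : 0 < d
  hM : 0 < M
  anG : ∀ t ∈ D, ∀ z, AnalyticAt ℂ G (t, z)
  anH : ∀ t ∈ D, ∀ z, AnalyticAt ℂ H (t, z)
  homG : ∀ t ∈ D, ∀ (c : ℂ) (z : VN (1 + 3)), G (t, c • z) = c ^ d * G (t, z)
  homH : ∀ t ∈ D, ∀ (c : ℂ) (z : VN (1 + 3)), H (t, c • z) = c ^ M * H (t, z)
  reg : ∀ t ∈ D, ∀ z : VN (1 + 3), z ≠ 0 → G (t, z) = 0 → ∃ v, fderiv ℂ G (t, z) (0, v) ≠ 0
  ne : ∀ t ∈ D, ∃ z : VN (1 + 3), z ≠ 0 ∧ G (t, z) = 0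

/-- the branch curve over `t` is smooth -/
def Good (G H : ℂ × VN (1 + 3) → ℂ) (t : ℂ) : Prop :=
  ∀ z : VN (1 + 3), z ≠ 0 → G (t, z) = 0 → H (t, z) = 0 →
    ∃ v w, fderiv ℂ H (t, z) (0, v) * fderiv ℂ G (t, z) (0, w) ≠
      fderiv ℂ H (t, z) (0, w) * fderiv ℂ G (t, z) (0, v)

section
variable {D Ω : Set ℂ} {d M : ℕ} {G H : ℂ × VN (1 + 3) → ℂ}

lemma Dat.H_zero (h : Dat D d M G H) {t : ℂ} (ht : t ∈ D) : H (t, 0) = 0 := by
  have := h.homH t ht 0 0
  rw [smul_zero, zero_pow h.hM.ne', zero_mul] at this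
  exact this

/-- the family of surfaces -/
theorem cifS (h : Dat D d M G H) : CIF D (gS G) (fun _ : Fin 1 => d) where
  isOpen := h.hD
  an t ht z := by
    have := h.anG t ht z
    rw [analyticAt_pi_iff]
    intro k
    exact this
  hom t ht c z k := h.homG t ht c z
  reg t ht z hz h0 a := by
    obtain ⟨v, hv⟩ := h.reg t ht z hz (congrFun h0 0)
    have hd : HasFDerivAt (gS G) (ContinuousLinearMap.pi fun _ : Fin 1 => fderiv ℂ G (t, z))
        (t, z) := by
      rw [hasFDerivAt_pi]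
      intro k
      exact (h.anG t ht z).differentiableAt.hasFDerivAt
    refine ⟨(a 0 / fderiv ℂ G (t, z) (0, v)) • v, ?_⟩
    rw [hd.fderiv]
    funext k
    have hk : k = 0 := Subsingleton.elim _ _
    subst hk
    have h1 : ((0, (a 0 / fderiv ℂ G (t, z) (0, v)) • v) : ℂ × VN (1 + 3)) =
        (a 0 / fderiv ℂ G (t, z) (0, v)) • (0, v) := by simp
    show fderiv ℂ G (t, z) _ = a 0
    rw [h1, map_smul, smul_eq_mul, div_mul_cancel₀ _ hv]
  ne t ht := by
    obtain ⟨z, hz, h0⟩ := h.ne t ht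
    exact ⟨z, hz, funext fun _ => h0⟩

lemma hasFDerivAt_ini (t : ℂ) (x : VN (2 + 3)) :
    HasFDerivAt (fun y : ℂ × VN (2 + 3) => ((y.1, ini y.2) : ℂ × VN (1 + 3)))
      ((ContinuousLinearMap.fst ℂ ℂ (VN (2 + 3))).prod
        (ini.comp (ContinuousLinearMap.snd ℂ ℂ (VN (2 + 3))))) (t, x) :=
  ((ContinuousLinearMap.fst ℂ ℂ (VN (2 + 3))).prod
        (ini.comp (ContinuousLinearMap.snd ℂ ℂ (VN (2 + 3))))).hasFDerivAt

lemma analyticAt_ini (y : ℂ × VN (2 + 3)) :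
    AnalyticAt ℂ (fun y : ℂ × VN (2 + 3) => ((y.1, ini y.2) : ℂ × VN (1 + 3))) y :=
  ((ContinuousLinearMap.fst ℂ ℂ (VN (2 + 3))).prod
        (ini.comp (ContinuousLinearMap.snd ℂ ℂ (VN (2 + 3))))).analyticAt y

lemma analyticAt_lst (y : ℂ × VN (2 + 3)) :
    AnalyticAt ℂ (fun y : ℂ × VN (2 + 3) => lst y.2) y :=
  (lst.comp (ContinuousLinearMap.snd ℂ ℂ (VN (2 + 3)))).analyticAt y

lemma gZ_hasFDerivAt (h : Dat D d M G H) {t : ℂ} (ht : t ∈ D) (x : VN (2 + 3)) :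
    ∃ T : (ℂ × VN (2 + 3)) →L[ℂ] (Fin 2 → ℂ), HasFDerivAt (gZ G H M) T (t, x) ∧
      (∀ v, T v 0 = fderiv ℂ G (t, ini x) (v.1, ini v.2)) ∧
      ∀ v, T v 1 = M * lst x ^ (M - 1) * lst v.2 - fderiv ℂ H (t, ini x) (v.1, ini v.2) := by
  have hG : HasFDerivAt G (fderiv ℂ G (t, ini x)) (t, ini x) :=
    (h.anG t ht _).differentiableAt.hasFDerivAt
  have hH : HasFDerivAt H (fderiv ℂ H (t, ini x)) (t, ini x) :=
    (h.anH t ht _).differentiableAt.hasFDerivAt
  have h1 := HasFDerivAt.comp (g := G) (t, x) hG (hasFDerivAt_ini t x)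
  have h2 := HasFDerivAt.comp (g := H) (t, x) hH (hasFDerivAt_ini t x)
  have h3 : HasFDerivAt (fun y : ℂ × VN (2 + 3) => lst y.2)
      (lst.comp (ContinuousLinearMap.snd ℂ ℂ (VN (2 + 3)))) (t, x) :=
    (lst.comp (ContinuousLinearMap.snd ℂ ℂ (VN (2 + 3)))).hasFDerivAt
  have h4 : HasFDerivAt (fun y : ℂ × VN (2 + 3) => lst y.2 ^ M)
      ((M * lst x ^ (M - 1)) • (lst.comp (ContinuousLinearMap.snd ℂ ℂ (VN (2 + 3))))) (t, x) :=
    (hasDerivAt_pow M (lst x)).comp_hasFDerivAt (t, x) h3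
  have h5 := h4.sub h2
  refine ⟨ContinuousLinearMap.pi ![(fderiv ℂ G (t, ini x)).comp
      ((ContinuousLinearMap.fst ℂ ℂ (VN (2 + 3))).prod
        (ini.comp (ContinuousLinearMap.snd ℂ ℂ (VN (2 + 3))))),
    ((M * lst x ^ (M - 1)) • (lst.comp (ContinuousLinearMap.snd ℂ ℂ (VN (2 + 3))))) -
      (fderiv ℂ H (t, ini x)).comp ((ContinuousLinearMap.fst ℂ ℂ (VN (2 + 3))).prod
        (ini.comp (ContinuousLinearMap.snd ℂ ℂ (VN (2 + 3)))))], ?_, fun v => rfl, fun v => rfl⟩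
  rw [hasFDerivAt_pi]
  intro k
  fin_cases k
  · exact h1
  · exact h5

lemma gv_gZ (h : Dat D d M G H) {t : ℂ} (ht : t ∈ D) (x v : VN (2 + 3)) :
    gv (gZ G H M) (t, x) v 0 = fderiv ℂ G (t, ini x) (0, ini v) ∧
      gv (gZ G H M) (t, x) v 1 = M * lst x ^ (M - 1) * lst v - fderiv ℂ H (t, ini x) (0, ini v) := by
  obtain ⟨T, hT, h0, h1⟩ := gZ_hasFDerivAt h ht x
  rw [gv_apply, hT.fderiv]
  exact ⟨h0 _, h1 _⟩

lemma gv_gS (h : Dat D d M G H) {t : ℂ} (ht : t ∈ D) (x v : VN (1 + 3)) (k : Fin 1) :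
    gv (gS G) (t, x) v k = fderiv ℂ G (t, x) (0, v) := by
  have hd : HasFDerivAt (gS G) (ContinuousLinearMap.pi fun _ : Fin 1 => fderiv ℂ G (t, x))
      (t, x) := by
    rw [hasFDerivAt_pi]
    intro k
    exact (h.anG t ht x).differentiableAt.hasFDerivAt
  rw [gv_apply, hd.fderiv]
  rfl

lemma gZ_zero_iff {t : ℂ} {x : VN (2 + 3)} :
    gZ G H M (t, x) = 0 ↔ G (t, ini x) = 0 ∧ lst x ^ M = H (t, ini x) := by
  constructor
  · intro h0
    exact ⟨congrFun h0 0, sub_eq_zero.1 (congrFun h0 1)⟩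
  · rintro ⟨h1, h2⟩
    funext k
    fin_cases k
    · exact h1
    · exact sub_eq_zero.2 h2

lemma ini_ne_zero (h : Dat D d M G H) {t : ℂ} (ht : t ∈ D) {x : VN (2 + 3)} (hx : x ≠ 0)
    (h0 : gZ G H M (t, x) = 0) : ini x ≠ 0 := by
  intro hi
  have h1 := (gZ_zero_iff.1 h0).2
  rw [hi, h.H_zero ht] at h1
  have h2 : lst x = 0 := pow_eq_zero_iff h.hM.ne' |>.1 h1
  apply hx
  exact ext_ini (by rw [hi, map_zero]) (by rw [h2, map_zero])

/-- the family of cyclic covers -/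
theorem cifZ (h : Dat D d M G H) (hΩ : IsOpen Ω) (hΩD : Ω ⊆ D) (hg : ∀ t ∈ Ω, Good G H t) :
    CIF Ω (gZ G H M) ![d, M] where
  isOpen := hΩ
  an t ht x := by
    rw [analyticAt_pi_iff]
    have h1 : AnalyticAt ℂ (fun y : ℂ × VN (2 + 3) => G (y.1, ini y.2)) (t, x) :=
      AnalyticAt.comp (g := G) (h.anG t (hΩD ht) _) (analyticAt_ini _)
    have h2 : AnalyticAt ℂ (fun y : ℂ × VN (2 + 3) => H (y.1, ini y.2)) (t, x) :=
      AnalyticAt.comp (g := H) (h.anH t (hΩD ht) _) (analyticAt_ini _)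
    intro k
    fin_cases k
    · exact h1
    · exact ((analyticAt_lst _).pow M).sub h2
  hom t ht c x k := by
    fin_cases k
    · show G (t, ini (c • x)) = c ^ d * G (t, ini x)
      rw [map_smul, h.homG t (hΩD ht)]
    · show lst (c • x) ^ M - H (t, ini (c • x)) = c ^ M * (lst x ^ M - H (t, ini x))
      rw [map_smul, map_smul, h.homH t (hΩD ht), smul_eq_mul]
      ring
  reg t ht x hx h0 a := by
    have htD := hΩD ht
    have hi := ini_ne_zero h htD hx h0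
    obtain ⟨hG0, hY⟩ := gZ_zero_iff.1 h0
    have key : ∀ v, gv (gZ G H M) (t, x) v = a → ∃ v, fderiv ℂ (gZ G H M) (t, x) (0, v) = a :=
      fun v hv => ⟨v, hv⟩
    by_cases hl : lst x = 0
    · rw [hl, zero_pow h.hM.ne'] at hY
      obtain ⟨v, w, hvw⟩ := hg t ht (ini x) hi hG0 hY.symm
      set A := fderiv ℂ G (t, ini x) (0, v) with hA
      set B := fderiv ℂ G (t, ini x) (0, w) with hB
      set C := fderiv ℂ H (t, ini x) (0, v) with hC
      set E := fderiv ℂ H (t, ini x) (0, w) with hE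
      have hdet : A * E - B * C ≠ 0 := by
        intro h1
        apply hvw
        linear_combination -h1
      by_cases hM1 : M = 1
      · -- `Y ^ 1 - H`
        obtain ⟨u, hu⟩ := h.reg t htD (ini x) hi hG0
        refine key (snc ((a 0 / fderiv ℂ G (t, ini x) (0, u)) • u)
          (a 1 + fderiv ℂ H (t, ini x) (0, (a 0 / fderiv ℂ G (t, ini x) (0, u)) • u))) ?_
        obtain ⟨h3, h4⟩ := gv_gZ h htD x (snc ((a 0 / fderiv ℂ G (t, ini x) (0, u)) • u)
          (a 1 + fderiv ℂ H (t, ini x) (0, (a 0 / fderiv ℂ G (t, ini x) (0, u)) • u)))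
        funext k
        fin_cases k
        · refine h3.trans ?_
          rw [ini_snc]
          have h1 : ((0, (a 0 / fderiv ℂ G (t, ini x) (0, u)) • u) : ℂ × VN (1 + 3)) =
            (a 0 / fderiv ℂ G (t, ini x) (0, u)) • (0, u) := by simp
          rw [h1, map_smul, smul_eq_mul, div_mul_cancel₀ _ hu]
          rfl
        · refine h4.trans ?_
          rw [ini_snc, lst_snc, hM1]
          simp
      · have hY0 : lst x ^ (M - 1) = 0 := by
          rw [hl, zero_pow]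
          have := h.hM
          omega
        set α : ℂ := (a 0 * E + a 1 * B) / (A * E - B * C) with hα
        set β : ℂ := (-(a 0 * C) - a 1 * A) / (A * E - B * C) with hβ
        have hlin : ∀ T : (ℂ × VN (1 + 3)) →L[ℂ] ℂ, T (0, α • v + β • w) =
            α * T (0, v) + β * T (0, w) := by
          intro T
          have h1 : ((0, α • v + β • w) : ℂ × VN (1 + 3)) = α • (0, v) + β • (0, w) := by simp
          rw [h1, map_add, map_smul, map_smul, smul_eq_mul, smul_eq_mul]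
        refine key (snc (α • v + β • w) 0) ?_
        obtain ⟨h3, h4⟩ := gv_gZ h htD x (snc (α • v + β • w) 0)
        funext k
        fin_cases k
        · refine h3.trans ?_
          rw [ini_snc, hlin, ← hA, ← hB, hα, hβ]
          show _ = a 0
          rw [div_mul_eq_mul_div, div_mul_eq_mul_div, ← add_div, div_eq_iff hdet]
          ring
        · refine h4.trans ?_
          rw [ini_snc, hlin, ← hC, ← hE, hY0, hα, hβ]
          show _ = a 1
          rw [div_mul_eq_mul_div, div_mul_eq_mul_div, ← add_div, mul_zero, zero_mul, zero_sub,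
            neg_eq_iff_eq_neg, div_eq_iff hdet]
          ring
    · obtain ⟨u, hu⟩ := h.reg t htD (ini x) hi hG0
      have hM0 : (M : ℂ) * lst x ^ (M - 1) ≠ 0 :=
        mul_ne_zero (Nat.cast_ne_zero.2 h.hM.ne') (pow_ne_zero _ hl)
      set c : ℂ := a 0 / fderiv ℂ G (t, ini x) (0, u) with hc
      refine key (snc (c • u) ((a 1 + fderiv ℂ H (t, ini x) (0, c • u)) /
        (M * lst x ^ (M - 1)))) ?_
      obtain ⟨h3, h4⟩ := gv_gZ h htD x (snc (c • u) ((a 1 + fderiv ℂ H (t, ini x) (0, c • u)) /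
        (M * lst x ^ (M - 1))))
      funext k
      fin_cases k
      · refine h3.trans ?_
        rw [ini_snc]
        have h1 : ((0, c • u) : ℂ × VN (1 + 3)) = c • (0, u) := by simp
        rw [h1, map_smul, smul_eq_mul, hc, div_mul_cancel₀ _ hu]
        rfl
      · refine h4.trans ?_
        rw [ini_snc, lst_snc, mul_div_cancel₀ _ hM0]
        show _ = a 1
        ring
  ne t ht := by
    obtain ⟨z, hz, h0⟩ := h.ne t (hΩD ht)
    obtain ⟨Y, hY⟩ : ∃ Y : ℂ, Y ^ M = H (t, z) :=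
      ⟨_, Complex.cpow_nat_inv_pow _ h.hM.ne'⟩
    refine ⟨snc z Y, ?_, gZ_zero_iff.2 ⟨by rw [ini_snc]; exact h0, by rw [ini_snc, lst_snc]; exact hY⟩⟩
    intro h1
    apply hz
    rw [← ini_snc z Y, h1, map_zero]

end

end Vale.Agent.P298.H863
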