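import Vale.Agent.P281.MF.Hol

/-!
# P298, S1-GEO row R4b: eigenfunctions on a cyclic cover `y ^ m = H z`
-/

open Set Filter Metric Topology Complex

namespace Vale.Agent.P298.H863

variable {E : Type*} [NormedAddCommGroup E] [NormedSpace ℂ E]

/-- `f` agrees on `K`, near every point of `K`, with a function analytic at this point. -/
def LocAn (K : Set E) (f : E → ℂ) : Prop :=
  ∀ p ∈ K, ∃ F : E → ℂ, AnalyticAt ℂ F p ∧ ∀ᶠ q in 𝓝 p, q ∈ K → f q = F q

/-- Partial fractions for the roots of unity. -/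
theorem kernel_eq {m : ℕ} {j : ℕ} (hj : j < m) {ζ : ℂ} (hζ : IsPrimitiveRoot ζ m)
    (v y : ℂ) (hy : y ^ m ≠ v ^ m) :
    ∑ i ∈ Finset.range m, ((ζ ^ i)⁻¹) ^ j * (y - ζ ^ i * v)⁻¹ =
      m * v ^ j * (y ^ (m - 1 - j) * (y ^ m - v ^ m)⁻¹) := by
  have hm : 0 < m := by omega
  have hζ0 : ζ ≠ 0 := hζ.ne_zero hm.ne'
  have hD : y ^ m - v ^ m ≠ 0 := sub_ne_zero.2 hy
  have h1 : ∀ i, (y - ζ ^ i * v) ≠ 0 := by
    intro i h
    apply hy
    have h2 : y = ζ ^ i * v := sub_eq_zero.1 h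
    rw [h2, mul_pow, ← pow_mul, mul_comm i m, pow_mul, hζ.pow_eq_one, one_pow, one_mul]
  have h2 : ∀ i, (y - ζ ^ i * v)⁻¹ =
      (∑ l ∈ Finset.range m, y ^ l * (ζ ^ i * v) ^ (m - 1 - l)) * (y ^ m - v ^ m)⁻¹ := by
    intro i
    have h3 := Commute.geom_sum₂_mul (Commute.all y (ζ ^ i * v)) m
    have h4 : (ζ ^ i * v) ^ m = v ^ m := by
      rw [mul_pow, ← pow_mul, mul_comm i m, pow_mul, hζ.pow_eq_one, one_pow, one_mul]
    rw [h4] at h3
    field_simp [h1 i, hD]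
    linear_combination -h3
  have h5 : ∀ l ∈ Finset.range m, ∑ i ∈ Finset.range m, ((ζ ^ i)⁻¹) ^ j *
      (y ^ l * (ζ ^ i * v) ^ (m - 1 - l)) = if l = m - 1 - j then m * v ^ j * y ^ (m - 1 - j)
        else 0 := by
    intro l hl
    have hl' : l < m := Finset.mem_range.1 hl
    split_ifs with h
    · subst h
      have h6 : m - 1 - (m - 1 - j) = j := by omega
      rw [h6]
      have h7 : ∀ i ∈ Finset.range m, ((ζ ^ i)⁻¹) ^ j * (y ^ (m - 1 - j) * (ζ ^ i * v) ^ j) =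
          v ^ j * y ^ (m - 1 - j) := by
        intro i _
        have h8 : ζ ^ i ≠ 0 := pow_ne_zero _ hζ0
        rw [mul_pow, inv_pow]
        field_simp
      rw [Finset.sum_congr rfl h7, Finset.sum_const, Finset.card_range, nsmul_eq_mul]
      ring
    · set ρ : ℂ := (ζ⁻¹) ^ j * ζ ^ (m - 1 - l) with hρ
      have h7 : ∀ i ∈ Finset.range m, ((ζ ^ i)⁻¹) ^ j * (y ^ l * (ζ ^ i * v) ^ (m - 1 - l)) =
          y ^ l * v ^ (m - 1 - l) * ρ ^ i := by
        intro i _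
        rw [hρ, mul_pow, mul_pow, ← pow_mul, ← pow_mul, ← inv_pow, ← pow_mul, ← pow_mul,
          mul_comm j i, mul_comm (m - 1 - l) i]
        ring
      rw [Finset.sum_congr rfl h7, ← Finset.mul_sum]
      have h9 : ρ ^ m = 1 := by
        rw [hρ, mul_pow, ← pow_mul, ← pow_mul, mul_comm j m, mul_comm (m - 1 - l) m, pow_mul,
          pow_mul, inv_pow, hζ.pow_eq_one, inv_one, one_pow, one_pow, one_mul]
      have h10 : ρ ≠ 1 := by
        intro h11
        apply h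
        have h12 : ζ ^ (m - 1 - l) = ζ ^ j := by
          have : ζ ^ j * ρ = ζ ^ (m - 1 - l) := by
            rw [hρ, ← mul_assoc, ← mul_pow, mul_inv_cancel₀ hζ0, one_pow, one_mul]
          rw [← this, h11, mul_one]
        have := hζ.pow_inj (by omega) (by omega) h12
        omega
      have h11 : (∑ i ∈ Finset.range m, ρ ^ i) = 0 := by
        have h12 := geom_sum_mul ρ m
        rw [h9, sub_self] at h12
        exact (mul_eq_zero.1 h12).resolve_right (sub_ne_zero.2 h10)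
      rw [h11, mul_zero]
  calc ∑ i ∈ Finset.range m, ((ζ ^ i)⁻¹) ^ j * (y - ζ ^ i * v)⁻¹
      = ∑ i ∈ Finset.range m, (∑ l ∈ Finset.range m, ((ζ ^ i)⁻¹) ^ j *
        (y ^ l * (ζ ^ i * v) ^ (m - 1 - l))) * (y ^ m - v ^ m)⁻¹ := by
        refine Finset.sum_congr rfl fun i _ => ?_
        rw [h2 i, ← Finset.mul_sum, mul_assoc]
    _ = (∑ l ∈ Finset.range m, ∑ i ∈ Finset.range m, ((ζ ^ i)⁻¹) ^ j *
        (y ^ l * (ζ ^ i * v) ^ (m - 1 - l))) * (y ^ m - v ^ m)⁻¹ := by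
        rw [← Finset.sum_mul, Finset.sum_comm]
    _ = (∑ l ∈ Finset.range m, if l = m - 1 - j then m * v ^ j * y ^ (m - 1 - j)
        else 0) * (y ^ m - v ^ m)⁻¹ := by rw [Finset.sum_congr rfl h5]
    _ = _ := by
        rw [Finset.sum_ite_eq', if_pos (Finset.mem_range.2 (by omega))]
        ring

variable [FiniteDimensional ℂ E]

/-- The eigen-part of a function analytic near `(p, 0)` is `v ^ j Ψ(z, v ^ m)`. -/
theorem exists_psi {m : ℕ} {j : ℕ} (hj : j < m) {ζ : ℂ} (hζ : IsPrimitiveRoot ζ m) {p : E}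
    {F : E × ℂ → ℂ} (hF : AnalyticAt ℂ F (p, 0)) :
    ∃ Ψ : E × ℂ → ℂ, AnalyticAt ℂ Ψ (p, 0) ∧ ∀ᶠ x in 𝓝 ((p, 0) : E × ℂ),
      ∑ i ∈ Finset.range m, ((ζ ^ i)⁻¹) ^ j * F (x.1, ζ ^ i * x.2) =
        m * x.2 ^ j * Ψ (x.1, x.2 ^ m) := by
  have hm : 0 < m := by omega
  have hnζ : ‖ζ‖ = 1 := by
    have := hζ.norm'_eq_one hm.ne'
    exact this
  have hev : ∀ᶠ x in 𝓝 ((p, 0) : E × ℂ), DifferentiableAt ℂ F x :=
    hF.eventually_analyticAt.mono fun x hx => hx.differentiableAt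
  obtain ⟨U, hU, V, hV, hUV⟩ := mem_nhds_prod_iff.1 hev
  obtain ⟨δ, hδ, hδU⟩ := Metric.mem_nhds_iff.1 hU
  obtain ⟨R, hR, hRV⟩ := Metric.mem_nhds_iff.1 hV
  have hd : ∀ z ∈ ball p δ, ∀ y ∈ ball (0 : ℂ) R, DifferentiableAt ℂ F (z, y) := fun z hz y hy =>
    hUV (show (z, y) ∈ U ×ˢ V from ⟨hδU hz, hRV hy⟩)
  set R₁ : ℝ := R / 2 with hR₁
  set R₂ : ℝ := R / 4 with hR₂
  have hR₁0 : 0 < R₁ := by positivity
  have hR₂0 : 0 < R₂ := by positivity
  set W : Set ℂ := {y | R₂ < ‖y‖ ∧ ‖y‖ < R} with hW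
  have hWo : IsOpen W := (isOpen_lt continuous_const continuous_norm).inter
    (isOpen_lt continuous_norm continuous_const)
  have hsW : sphere (0 : ℂ) R₁ ⊆ W := by
    intro y hy
    have : ‖y‖ = R₁ := by simpa using hy
    exact ⟨by rw [this]; simp only [hR₁, hR₂]; linarith, by rw [this]; simp only [hR₁]; linarith⟩
  set U' : Set (E × ℂ) := ball p δ ×ˢ ball (0 : ℂ) (R₂ ^ m) with hU'
  have hU'o : IsOpen U' := isOpen_ball.prod isOpen_ball
  set G : (E × ℂ) × ℂ → ℂ := fun x => F (x.1.1, x.2) * (x.2 ^ (m - 1 - j) *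
    (x.2 ^ m - x.1.2)⁻¹) with hG
  have hne : ∀ y ∈ W, ∀ u ∈ ball (0 : ℂ) (R₂ ^ m), y ^ m - u ≠ 0 := by
    intro y hy u hu h
    have h1 : y ^ m = u := sub_eq_zero.1 h
    have h2 : ‖u‖ < R₂ ^ m := by simpa using hu
    rw [← h1, norm_pow] at h2
    exact absurd h2 (not_lt.2 (pow_le_pow_left₀ hR₂0.le hy.1.le m))
  have hGd : DifferentiableOn ℂ G (U' ×ˢ W) := by
    rintro ⟨⟨z, u⟩, y⟩ ⟨⟨hz, hu⟩, hy⟩
    apply DifferentiableAt.differentiableWithinAt
    have hyR : y ∈ ball (0 : ℂ) R := by simpa using hy.2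
    have h1 : DifferentiableAt ℂ (fun x : (E × ℂ) × ℂ => F (x.1.1, x.2)) ((z, u), y) := by
      have h2 : DifferentiableAt ℂ (fun x : (E × ℂ) × ℂ => (x.1.1, x.2)) ((z, u), y) := by
        fun_prop
      exact (hd z hz y hyR).comp ((z, u), y) h2
    refine h1.mul (DifferentiableAt.mul (by fun_prop) (DifferentiableAt.inv (by fun_prop) ?_))
    exact hne y hy u hu
  set Ψ : E × ℂ → ℂ := fun x => (2 * (Real.pi : ℂ) * I)⁻¹ * ∮ t in C(0, R₁), G (x, t) with hΨ
  have hΨd : DifferentiableOn ℂ Ψ U' := by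
    have := P281.MF.differentiableOn_circleIntegral (F := ℂ) (c := 0) hR₁0.le hU'o hWo hsW hGd
    exact this.const_mul _
  have hpm : ((p, 0) : E × ℂ) ∈ U' := ⟨mem_ball_self hδ, mem_ball_self (by positivity)⟩
  refine ⟨Ψ, P281.MF.analyticAt_of_differentiableOn hU'o hΨd hpm, ?_⟩
  have hn : ball p δ ×ˢ ball (0 : ℂ) R₂ ∈ 𝓝 ((p, 0) : E × ℂ) :=
    (isOpen_ball.prod isOpen_ball).mem_nhds ⟨mem_ball_self hδ, mem_ball_self hR₂0⟩
  filter_upwards [hn]
  rintro ⟨z, v⟩ ⟨hz, hv⟩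
  have hv' : ‖v‖ < R₂ := by simpa using hv
  have h2 : ∀ i, ζ ^ i * v ∈ ball (0 : ℂ) R₁ := by
    intro i
    simp only [mem_ball, dist_zero_right, norm_mul, norm_pow, hnζ, one_pow, one_mul]
    simp only [hR₁, hR₂] at hv' ⊢
    linarith
  have hcd : DifferentiableOn ℂ (fun y => F (z, y)) (closedBall (0 : ℂ) R₁) := by
    intro y hy
    have hy' : ‖y‖ ≤ R₁ := by simpa using hy
    have hyR : y ∈ ball (0 : ℂ) R := by
      simp only [mem_ball, dist_zero_right]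
      simp only [hR₁] at hy'
      linarith
    have h3 : DifferentiableAt ℂ (fun y : ℂ => ((z, y) : E × ℂ)) y := by fun_prop
    exact ((hd z hz y hyR).comp y h3).differentiableWithinAt
  have hcc : ContinuousOn (fun y => F (z, y)) (closedBall (0 : ℂ) R₁) := hcd.continuousOn
  have hcau : ∀ i, (∮ y in C(0, R₁), (y - ζ ^ i * v)⁻¹ * F (z, y)) =
      (2 * (Real.pi : ℂ) * I) * F (z, ζ ^ i * v) := by
    intro i
    have := Complex.circleIntegral_sub_inv_smul_of_differentiable_on_off_countable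
      (s := ∅) countable_empty (h2 i) hcc (fun x hx => by
        have hx' : x ∈ ball (0 : ℂ) R₁ := hx.1
        exact (hcd.differentiableAt (mem_of_superset (isOpen_ball.mem_nhds hx')
          ball_subset_closedBall)))
    simpa [smul_eq_mul] using this
  have hint : ∀ i, CircleIntegrable (fun y => ((ζ ^ i)⁻¹) ^ j * ((y - ζ ^ i * v)⁻¹ * F (z, y)))
      0 R₁ := by
    intro i
    apply ContinuousOn.circleIntegrable hR₁0.le
    refine continuousOn_const.mul (ContinuousOn.mul ?_ (hcc.mono sphere_subset_closedBall))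
    refine ContinuousOn.inv₀ (by fun_prop) fun y hy h => ?_
    have h3 : y = ζ ^ i * v := sub_eq_zero.1 h
    have h4 := h2 i
    rw [← h3] at h4
    have h5 : ‖y‖ = R₁ := by simpa using hy
    have h6 : ‖y‖ < R₁ := by simpa using h4
    linarith
  have hπ : (2 * (Real.pi : ℂ) * I) ≠ 0 := by
    simp [Real.pi_ne_zero]
  have key : (2 * (Real.pi : ℂ) * I) * ∑ i ∈ Finset.range m, ((ζ ^ i)⁻¹) ^ j * F (z, ζ ^ i * v) =
      m * v ^ j * ∮ t in C(0, R₁), G ((z, v ^ m), t) := by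
    calc (2 * (Real.pi : ℂ) * I) * ∑ i ∈ Finset.range m, ((ζ ^ i)⁻¹) ^ j * F (z, ζ ^ i * v)
        = ∑ i ∈ Finset.range m, ∮ y in C(0, R₁), ((ζ ^ i)⁻¹) ^ j *
          ((y - ζ ^ i * v)⁻¹ * F (z, y)) := by
          rw [Finset.mul_sum]
          refine Finset.sum_congr rfl fun i _ => ?_
          rw [circleIntegral.integral_const_mul, hcau i]
          ring
      _ = ∮ y in C(0, R₁), ∑ i ∈ Finset.range m, ((ζ ^ i)⁻¹) ^ j *
          ((y - ζ ^ i * v)⁻¹ * F (z, y)) := by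
          rw [circleIntegral.integral_fun_sum fun i _ => hint i]
      _ = ∮ y in C(0, R₁), (m * v ^ j) * G ((z, v ^ m), y) := by
          refine circleIntegral.integral_congr hR₁0.le fun y hy => ?_
          have h5 : ‖y‖ = R₁ := by simpa using hy
          have hym : y ^ m ≠ v ^ m := by
            intro h
            have h6 : ‖y‖ ^ m = ‖v‖ ^ m := by rw [← norm_pow, ← norm_pow, h]
            have h7 : ‖y‖ = ‖v‖ := (pow_left_inj₀ (norm_nonneg _) (norm_nonneg _) hm.ne').1 h6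
            rw [h5] at h7
            simp only [hR₁, hR₂] at hv' h7
            linarith
          have h8 := kernel_eq hj hζ v y hym
          simp only [hG]
          calc ∑ i ∈ Finset.range m, ((ζ ^ i)⁻¹) ^ j * ((y - ζ ^ i * v)⁻¹ * F (z, y))
              = (∑ i ∈ Finset.range m, ((ζ ^ i)⁻¹) ^ j * (y - ζ ^ i * v)⁻¹) * F (z, y) := by
                rw [Finset.sum_mul]
                refine Finset.sum_congr rfl fun i _ => by ring
            _ = _ := by rw [h8]; ring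
      _ = _ := by rw [circleIntegral.integral_const_mul]
  simp only [hΨ]
  have : ∑ i ∈ Finset.range m, ((ζ ^ i)⁻¹) ^ j * F (z, ζ ^ i * v) =
      (2 * (Real.pi : ℂ) * I)⁻¹ * (m * v ^ j * ∮ t in C(0, R₁), G ((z, v ^ m), t)) := by
    rw [← key, inv_mul_cancel_left₀ hπ]
  rw [this]
  ring

end Vale.Agent.P298.H863
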