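import Vale.Agent.P298.H863.Eigen

/-!
# P298, S1-GEO row R4b: eigenfunctions on a cyclic cover `y ^ m = H z` come from the base
-/

open Set Filter Metric Topology Complex

namespace Vale.Agent.P298.H863

variable {E : Type*} [NormedAddCommGroup E] [NormedSpace ℂ E]

/-- The cyclic cover `y ^ m = H z` over the set `K`. -/
def Cyc (K : Set E) (H : E → ℂ) (m : ℕ) : Set (E × ℂ) := {x | x.1 ∈ K ∧ x.2 ^ m = H x.1}

omit [NormedAddCommGroup E] [NormedSpace ℂ E] in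
theorem eig_iter {m : ℕ} {j : ℕ} {ζ : ℂ} (hζ : IsPrimitiveRoot ζ m) {K : Set E} {H : E → ℂ}
    {f : E × ℂ → ℂ} (heig : ∀ z ∈ K, ∀ y, y ^ m = H z → f (z, ζ * y) = ζ ^ j * f (z, y))
    {z : E} (hz : z ∈ K) {y : ℂ} (hy : y ^ m = H z) (i : ℕ) :
    f (z, ζ ^ i * y) = (ζ ^ i) ^ j * f (z, y) := by
  induction i with
  | zero => simp
  | succ i ih =>
    have h1 : (ζ ^ i * y) ^ m = H z := by
      rw [mul_pow, ← pow_mul, mul_comm i m, pow_mul, hζ.pow_eq_one, one_pow, one_mul, hy]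
    have h2 := heig z hz _ h1
    rw [pow_succ', mul_assoc, h2, ih]
    ring

variable [FiniteDimensional ℂ E]

theorem exists_germ {m : ℕ} {j : ℕ} (hj : j < m) {ζ : ℂ} (hζ : IsPrimitiveRoot ζ m) {K : Set E}
    {H : E → ℂ} {f : E × ℂ → ℂ} (hf : LocAn (Cyc K H m) f)
    (heig : ∀ z ∈ K, ∀ y, y ^ m = H z → f (z, ζ * y) = ζ ^ j * f (z, y)) {p : E} (hp : p ∈ K)
    (hH : AnalyticAt ℂ H p) :
    ∃ h : E → ℂ, AnalyticAt ℂ h p ∧ ∀ᶠ q in 𝓝 p, q ∈ K → ∀ y, y ^ m = H q →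
      f (q, y) = y ^ j * h q := by
  have hm : 0 < m := by omega
  have hm0 : (m : ℂ) ≠ 0 := Nat.cast_ne_zero.2 hm.ne'
  have hζ0 : ζ ≠ 0 := hζ.ne_zero hm.ne'
  have hnζ : ‖ζ‖ = 1 := hζ.norm'_eq_one hm.ne'
  by_cases hp0 : H p = 0
  · obtain ⟨F, hF, hFf⟩ := hf (p, 0) ⟨hp, by simp [hm.ne', hp0]⟩
    obtain ⟨Ψ, hΨ, hΨe⟩ := exists_psi hj hζ hF
    have hg : AnalyticAt ℂ (fun q : E => (q, H q)) p := analyticAt_id.prod hH
    refine ⟨fun q => Ψ (q, H q), ?_, ?_⟩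
    · have : AnalyticAt ℂ Ψ ((fun q : E => (q, H q)) p) := by simpa [hp0] using hΨ
      exact AnalyticAt.comp (f := fun q : E => (q, H q)) this hg
    · obtain ⟨U, hU, V, hV, hUV⟩ := mem_nhds_prod_iff.1 (hFf.and hΨe)
      obtain ⟨ε, hε, hεV⟩ := Metric.mem_nhds_iff.1 hV
      have hsm : ∀ᶠ q in 𝓝 p, ‖H q‖ < ε ^ m := by
        have h1 : Tendsto (fun q => ‖H q‖) (𝓝 p) (𝓝 ‖H p‖) := hH.continuousAt.norm
        rw [hp0, norm_zero] at h1
        exact h1.eventually_lt_const (by positivity)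
      filter_upwards [hsm, hU] with q hq hqU hqK y hy
      have hyε : ‖y‖ < ε := by
        by_contra hcon
        have h1 : ε ^ m ≤ ‖y‖ ^ m := pow_le_pow_left₀ hε.le (not_lt.1 hcon) m
        rw [← norm_pow, hy] at h1
        linarith
      have hyi : ∀ i : ℕ, ζ ^ i * y ∈ V := fun i => hεV (by
        simp only [mem_ball, dist_zero_right, norm_mul, norm_pow, hnζ, one_pow, one_mul, hyε])
      have h2 : ∀ i : ℕ, F (q, ζ ^ i * y) = (ζ ^ i) ^ j * f (q, y) := by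
        intro i
        have h3 := (hUV (show (q, ζ ^ i * y) ∈ U ×ˢ V from ⟨hqU, hyi i⟩)).1 ⟨hqK, by
          show (ζ ^ i * y) ^ m = H q
          rw [mul_pow, ← pow_mul, mul_comm i m, pow_mul, hζ.pow_eq_one, one_pow, one_mul, hy]⟩
        rw [← h3]
        exact eig_iter hζ heig hqK hy i
      have hyV : y ∈ V := by simpa using hyi 0
      have h4 := (hUV (show (q, y) ∈ U ×ˢ V from ⟨hqU, hyV⟩)).2
      simp only at h4
      have h5 : ∑ i ∈ Finset.range m, ((ζ ^ i)⁻¹) ^ j * F (q, ζ ^ i * y) = m * f (q, y) := by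
        have h6 : ∀ i ∈ Finset.range m, ((ζ ^ i)⁻¹) ^ j * F (q, ζ ^ i * y) = f (q, y) := by
          intro i _
          rw [h2 i, ← mul_assoc, ← mul_pow, inv_mul_cancel₀ (pow_ne_zero _ hζ0), one_pow, one_mul]
        rw [Finset.sum_congr rfl h6, Finset.sum_const, Finset.card_range, nsmul_eq_mul]
      rw [h5, hy] at h4
      have h7 : (m : ℂ) * f (q, y) = m * (y ^ j * Ψ (q, H q)) := by rw [h4]; ring
      exact mul_left_cancel₀ hm0 h7
  · set y0 : ℂ := (H p) ^ ((m : ℂ)⁻¹) with hy0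
    have hy0m : y0 ^ m = H p := Complex.cpow_nat_inv_pow _ hm.ne'
    obtain ⟨F, hF, hFf⟩ := hf (p, y0) ⟨hp, hy0m⟩
    set Y : E → ℂ := fun q => y0 * (H q / H p) ^ ((m : ℂ)⁻¹) with hY
    have hYa : AnalyticAt ℂ Y p := by
      have h1 : AnalyticAt ℂ (fun q => H q / H p) p := hH.div_const
      have h2 : AnalyticAt ℂ (fun q => (H q / H p) ^ ((m : ℂ)⁻¹)) p :=
        h1.cpow analyticAt_const (by simp only [div_self hp0]; exact one_mem_slitPlane)
      exact analyticAt_const.mul h2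
    have hYp : Y p = y0 := by simp [hY, div_self hp0]
    have hYm : ∀ q, Y q ^ m = H q := by
      intro q
      simp only [hY]
      rw [mul_pow, Complex.cpow_nat_inv_pow _ hm.ne', Complex.cpow_nat_inv_pow _ hm.ne']
      field_simp
    have hpair : AnalyticAt ℂ (fun q : E => (q, Y q)) p := analyticAt_id.prod hYa
    have hy00 : y0 ≠ 0 := by
      intro h
      rw [h, zero_pow hm.ne'] at hy0m
      exact hp0 hy0m.symm
    refine ⟨fun q => F (q, Y q) / Y q ^ j, ?_, ?_⟩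
    · have h1 : AnalyticAt ℂ F ((fun q : E => (q, Y q)) p) := by simpa [hYp] using hF
      have h2 : AnalyticAt ℂ (fun q => F (q, Y q)) p :=
        AnalyticAt.comp (f := fun q : E => (q, Y q)) h1 hpair
      refine h2.div (hYa.pow j) (pow_ne_zero _ ?_)
      rw [hYp]; exact hy00
    · have h1 : Tendsto (fun q : E => (q, Y q)) (𝓝 p) (𝓝 (p, y0)) := by
        have := hpair.continuousAt.tendsto
        simpa [hYp] using this
      have h2 : ∀ᶠ q in 𝓝 p, H q ≠ 0 := hH.continuousAt.eventually_ne hp0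
      filter_upwards [h1.eventually hFf, h2] with q hq hq0 hqK y hy
      have hYq : Y q ≠ 0 := by
        intro h
        have := hYm q
        rw [h, zero_pow hm.ne'] at this
        exact hq0 this.symm
      have h3 : f (q, Y q) = F (q, Y q) := hq ⟨hqK, hYm q⟩
      have h4 : (y / Y q) ^ m = 1 := by
        rw [div_pow, hy, hYm q, div_self hq0]
      have : NeZero m := ⟨hm.ne'⟩
      obtain ⟨i, hi, hi'⟩ := hζ.eq_pow_of_pow_eq_one h4
      have h5 : y = ζ ^ i * Y q := by rw [hi']; field_simp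
      rw [h5, eig_iter hζ heig hqK (hYm q) i, h3, mul_pow]
      field_simp

/-- Eigenfunctions on the cyclic cover come from the base. -/
theorem exists_base {m : ℕ} {j : ℕ} (hj : j < m) {ζ : ℂ} (hζ : IsPrimitiveRoot ζ m) {K : Set E}
    {H : E → ℂ} (hH : ∀ p ∈ K, AnalyticAt ℂ H p)
    (hden : ∀ p ∈ K, p ∈ closure {q | q ∈ K ∧ H q ≠ 0})
    {f : E × ℂ → ℂ} (hf : LocAn (Cyc K H m) f)
    (heig : ∀ z ∈ K, ∀ y, y ^ m = H z → f (z, ζ * y) = ζ ^ j * f (z, y)) :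
    ∃ h : E → ℂ, LocAn K h ∧ ∀ z ∈ K, ∀ y, y ^ m = H z → f (z, y) = y ^ j * h z := by
  classical
  have hm : 0 < m := by omega
  choose! g hg hgf using fun (p : E) (hp : p ∈ K) => exists_germ hj hζ hf heig hp (hH p hp)
  refine ⟨fun z => g z z, ?_, ?_⟩
  · intro p hp
    refine ⟨g p, hg p hp, ?_⟩
    filter_upwards [(hgf p hp).eventually_nhds, (hg p hp).eventually_analyticAt] with q hq hqa hqK
    have h1 : (𝓝[{q | q ∈ K ∧ H q ≠ 0}] q).NeBot := mem_closure_iff_nhdsWithin_neBot.1 (hden q hqK)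
    have h2 : ∀ᶠ x in 𝓝[{q | q ∈ K ∧ H q ≠ 0}] q, g q x = g p x := by
      filter_upwards [self_mem_nhdsWithin, mem_nhdsWithin_of_mem_nhds hq,
        mem_nhdsWithin_of_mem_nhds (hgf q hqK)] with x hx hx1 hx2
      obtain ⟨y, hy⟩ : ∃ y : ℂ, y ^ m = H x := ⟨_, Complex.cpow_nat_inv_pow _ hm.ne'⟩
      have hy0 : y ≠ 0 := by
        rintro rfl
        rw [zero_pow hm.ne'] at hy
        exact hx.2 hy.symm
      have h3 := hx1 hx.1 y hy
      have h4 := hx2 hx.1 y hy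
      rw [h3] at h4
      exact (mul_left_cancel₀ (pow_ne_zero j hy0) h4).symm
    have h5 : Tendsto (g q) (𝓝[{q | q ∈ K ∧ H q ≠ 0}] q) (𝓝 (g q q)) :=
      ((hg q hqK).continuousAt.tendsto).mono_left nhdsWithin_le_nhds
    have h6 : Tendsto (g p) (𝓝[{q | q ∈ K ∧ H q ≠ 0}] q) (𝓝 (g p q)) :=
      (hqa.continuousAt.tendsto).mono_left nhdsWithin_le_nhds
    exact tendsto_nhds_unique (h5.congr' h2) h6 |>.symm ▸ rfl
  · intro z hz y hy
    exact (hgf z hz).self_of_nhds hz y hy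

omit [FiniteDimensional ℂ E] in
theorem mem_closure_of_indep [CompleteSpace E] {G H : E → ℂ} {p : E} (hG : AnalyticAt ℂ G p)
    (hH : AnalyticAt ℂ H p) (hG0 : G p = 0) (hH0 : H p = 0)
    (hi : ∀ a : ℂ × ℂ, ∃ v, (fderiv ℂ G p v, fderiv ℂ H p v) = a) :
    p ∈ closure {q | G q = 0 ∧ H q ≠ 0} := by
  have h1 : HasStrictFDerivAt (fun q => (G q, H q)) ((fderiv ℂ G p).prod (fderiv ℂ H p)) p :=
    hG.hasStrictFDerivAt.prodMk hH.hasStrictFDerivAt
  have h2 := h1.map_nhds_eq_of_surj (by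
    rw [LinearMap.range_eq_top]
    intro a
    obtain ⟨v, hv⟩ := hi a
    exact ⟨v, hv⟩)
  rw [mem_closure_iff_frequently]
  intro hcon
  have h3 : ∀ᶠ x in 𝓝 ((0, 0) : ℂ × ℂ), x.1 = 0 → x.2 = 0 := by
    have : (G p, H p) = (0, 0) := by rw [hG0, hH0]
    rw [← this, ← h2, eventually_map]
    filter_upwards [hcon] with q hq h0
    by_contra h
    exact hq ⟨h0, h⟩
  have h4 : Tendsto (fun u : ℂ => ((0, u) : ℂ × ℂ)) (𝓝[≠] 0) (𝓝 (0, 0)) :=
    (Continuous.tendsto' (by fun_prop) 0 _ rfl).mono_left nhdsWithin_le_nhds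
  obtain ⟨u, hu, hu'⟩ := ((h4.eventually h3).and self_mem_nhdsWithin).exists
  exact hu' (hu rfl)

end Vale.Agent.P298.H863
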