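import Vale.Agent.P298.H863.Eigen2

/-!
# P298, S1-GEO row R4b: homogeneity and decomposition into eigenfunctions
-/

open Set Filter Metric Topology Complex

namespace Vale.Agent.P298.H863

variable {E : Type*} [NormedAddCommGroup E] [NormedSpace ℂ E]

theorem LocAn.continuousWithinAt {K : Set E} {f : E → ℂ} (hf : LocAn K f) {p : E} (hp : p ∈ K) :
    ContinuousWithinAt f K p := by
  obtain ⟨F, hF, hFf⟩ := hf p hp
  have h1 : ContinuousWithinAt F K p := hF.continuousAt.continuousWithinAt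
  refine h1.congr_of_eventuallyEq ?_ (hFf.self_of_nhds hp)
  filter_upwards [self_mem_nhdsWithin, mem_nhdsWithin_of_mem_nhds hFf] with q hq hq2
  exact hq2 hq

theorem LocAn.mono {K L : Set E} {f : E → ℂ} (hf : LocAn K f) (h : L ⊆ K) : LocAn L f :=
  fun p hp => by
    obtain ⟨F, hF, hFf⟩ := hf p (h hp)
    exact ⟨F, hF, hFf.mono fun q hq hqL => hq (h hqL)⟩

theorem LocAn.add {K : Set E} {f g : E → ℂ} (hf : LocAn K f) (hg : LocAn K g) :
    LocAn K (fun z => f z + g z) := fun p hp => by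
  obtain ⟨F, hF, hFf⟩ := hf p hp
  obtain ⟨G, hG, hGg⟩ := hg p hp
  refine ⟨fun z => F z + G z, hF.add hG, ?_⟩
  filter_upwards [hFf, hGg] with q h1 h2 hq
  rw [h1 hq, h2 hq]

theorem LocAn.mul {K : Set E} {f g : E → ℂ} (hf : LocAn K f) (hg : LocAn K g) :
    LocAn K (fun z => f z * g z) := fun p hp => by
  obtain ⟨F, hF, hFf⟩ := hf p hp
  obtain ⟨G, hG, hGg⟩ := hg p hp
  refine ⟨fun z => F z * G z, hF.mul hG, ?_⟩
  filter_upwards [hFf, hGg] with q h1 h2 hq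
  rw [h1 hq, h2 hq]

theorem LocAn.of_analytic {K : Set E} {f : E → ℂ} (hf : ∀ p ∈ K, AnalyticAt ℂ f p) : LocAn K f :=
  fun p hp => ⟨f, hf p hp, Eventually.of_forall fun _ _ => rfl⟩

theorem LocAn.const {K : Set E} (c : ℂ) : LocAn K (fun _ => c) :=
  LocAn.of_analytic fun _ _ => analyticAt_const

theorem LocAn.comp {E' : Type*} [NormedAddCommGroup E'] [NormedSpace ℂ E'] {K : Set E} {L : Set E'}
    {f : E → ℂ} (hf : LocAn K f) {g : E' → E} (hg : ∀ p ∈ L, AnalyticAt ℂ g p)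
    (hm : MapsTo g L K) : LocAn L (fun x => f (g x)) := fun p hp => by
  obtain ⟨F, hF, hFf⟩ := hf (g p) (hm hp)
  refine ⟨fun x => F (g x), AnalyticAt.comp hF (hg p hp), ?_⟩
  filter_upwards [(hg p hp).continuousAt.tendsto.eventually hFf] with q hq hqL
  exact hq (hm hqL)

theorem LocAn.sum {K : Set E} {ι : Type*} (s : Finset ι) {f : ι → E → ℂ}
    (hf : ∀ i ∈ s, LocAn K (f i)) : LocAn K (fun z => ∑ i ∈ s, f i z) := by
  classical
  induction s using Finset.induction_on with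
  | empty => simpa using LocAn.const (K := K) 0
  | insert a s ha ih =>
    simp only [Finset.sum_insert ha]
    exact (hf a (Finset.mem_insert_self a s)).add (ih fun i hi => hf i (Finset.mem_insert_of_mem hi))

omit [NormedSpace ℂ E] in
/-- two functions continuous on `K` which agree on a dense subset agree -/
theorem eq_of_dense {K L : Set E} {f g : E → ℂ} (hf : ∀ p ∈ K, ContinuousWithinAt f K p)
    (hg : ∀ p ∈ K, ContinuousWithinAt g K p) (hL : L ⊆ K) (hd : ∀ p ∈ K, p ∈ closure L)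
    (h : ∀ p ∈ L, f p = g p) {p : E} (hp : p ∈ K) : f p = g p := by
  have h1 : (𝓝[L] p).NeBot := mem_closure_iff_nhdsWithin_neBot.1 (hd p hp)
  have h2 : Tendsto f (𝓝[L] p) (𝓝 (f p)) := (hf p hp).mono hL
  have h3 : Tendsto g (𝓝[L] p) (𝓝 (g p)) := (hg p hp).mono hL
  refine tendsto_nhds_unique h2 (h3.congr' ?_)
  filter_upwards [self_mem_nhdsWithin] with q hq
  exact (h q hq).symm

/-- homogeneity passes to the base -/
theorem homog_base {m : ℕ} {j : ℕ} (hm : 0 < m) {K : Set E} {H : E → ℂ}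
    (hden : ∀ p ∈ K, p ∈ closure {q | q ∈ K ∧ H q ≠ 0}) {e : ℕ} {k : ℤ}
    (hK : ∀ c : ℂ, c ≠ 0 → ∀ z ∈ K, c • z ∈ K)
    (hHh : ∀ c : ℂ, c ≠ 0 → ∀ z ∈ K, H (c • z) = (c ^ e) ^ m * H z)
    {f : E × ℂ → ℂ} (hfh : ∀ c : ℂ, c ≠ 0 → ∀ z ∈ K, ∀ y, y ^ m = H z →
      f (c • z, c ^ e * y) = c ^ k * f (z, y)) {h : E → ℂ} (hh : LocAn K h)
    (hfb : ∀ z ∈ K, ∀ y, y ^ m = H z → f (z, y) = y ^ j * h z) {c : ℂ} (hc : c ≠ 0) {z : E}
    (hz : z ∈ K) : h (c • z) = c ^ (k - j * e) * h z := by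
  refine eq_of_dense (K := K) (L := {q | q ∈ K ∧ H q ≠ 0}) (f := fun z => h (c • z))
    (g := fun z => c ^ (k - j * e) * h z) ?_ ?_ (fun q hq => hq.1) hden ?_ hz
  · intro p hp
    have : LocAn K (fun z => h (c • z)) := hh.comp (g := fun z => c • z)
      (fun p _ => (analyticAt_const (v := c)).smul analyticAt_id) (fun z hz => hK c hc z hz)
    exact this.continuousWithinAt hp
  · intro p hp
    exact ((LocAn.const (c ^ (k - j * e))).mul hh).continuousWithinAt hp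
  · rintro p ⟨hp, hp0⟩
    obtain ⟨y, hy⟩ : ∃ y : ℂ, y ^ m = H p := ⟨_, Complex.cpow_nat_inv_pow _ hm.ne'⟩
    have hy0 : y ≠ 0 := by
      rintro rfl
      rw [zero_pow hm.ne'] at hy
      exact hp0 hy.symm
    have h1 : (c ^ e * y) ^ m = H (c • p) := by rw [mul_pow, hy, hHh c hc p hp]
    have h2 := hfb (c • p) (hK c hc p hp) _ h1
    rw [hfh c hc p hp y hy, hfb p hp y hy, mul_pow] at h2
    have h3 : (c ^ e) ^ j * y ^ j ≠ 0 :=
      mul_ne_zero (pow_ne_zero _ (pow_ne_zero _ hc)) (pow_ne_zero _ hy0)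
    have h4 : (c ^ e) ^ j * c ^ (k - j * e) = c ^ k := by
      rw [← pow_mul, ← zpow_natCast c (e * j), ← zpow_add₀ hc]
      congr 1
      push_cast
      ring
    apply mul_left_cancel₀ h3
    rw [← h2, ← h4]
    ring

/-- the eigenparts of a function on the cyclic cover -/
noncomputable def eigPart (m : ℕ) (ζ : ℂ) (f : E × ℂ → ℂ) (j : ℕ) (x : E × ℂ) : ℂ :=
  (m : ℂ)⁻¹ * ∑ i ∈ Finset.range m, ((ζ ^ i)⁻¹) ^ j * f (x.1, ζ ^ i * x.2)

omit [NormedAddCommGroup E] [NormedSpace ℂ E] in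
theorem mapsTo_rot {m : ℕ} {ζ : ℂ} (hζ : IsPrimitiveRoot ζ m) {K : Set E} {H : E → ℂ} (i : ℕ) :
    MapsTo (fun x : E × ℂ => (x.1, ζ ^ i * x.2)) (Cyc K H m) (Cyc K H m) := by
  rintro ⟨z, y⟩ ⟨hz, hy⟩
  refine ⟨hz, ?_⟩
  show (ζ ^ i * y) ^ m = H z
  rw [mul_pow, ← pow_mul, mul_comm i m, pow_mul, hζ.pow_eq_one, one_pow, one_mul]
  exact hy

theorem LocAn.eigPart {m : ℕ} {ζ : ℂ} (hζ : IsPrimitiveRoot ζ m) {K : Set E} {H : E → ℂ}
    {f : E × ℂ → ℂ} (hf : LocAn (Cyc K H m) f) (j : ℕ) :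
    LocAn (Cyc K H m) (eigPart m ζ f j) := by
  refine (LocAn.const _).mul (LocAn.sum _ fun i _ => (LocAn.const _).mul ?_)
  refine hf.comp (g := fun x : E × ℂ => (x.1, ζ ^ i * x.2)) (fun p _ => ?_) (mapsTo_rot hζ i)
  exact analyticAt_fst.prod (analyticAt_const.mul analyticAt_snd)

omit [NormedAddCommGroup E] [NormedSpace ℂ E] in
theorem eigPart_rot {m : ℕ} (hm : 0 < m) {ζ : ℂ} (hζ : IsPrimitiveRoot ζ m) (f : E × ℂ → ℂ)
    (j : ℕ) (z : E) (y : ℂ) :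
    eigPart m ζ f j (z, ζ * y) = ζ ^ j * eigPart m ζ f j (z, y) := by
  have hζ0 : ζ ≠ 0 := hζ.ne_zero hm.ne'
  simp only [eigPart]
  set g : ℕ → ℂ := fun i => ((ζ ^ i)⁻¹) ^ j * f (z, ζ ^ i * y) with hg
  have h1 : ∀ i, ((ζ ^ i)⁻¹) ^ j * f (z, ζ ^ i * (ζ * y)) = ζ ^ j * g (i + 1) := by
    intro i
    simp only [hg]
    have h2 : ζ ^ i * (ζ * y) = ζ ^ (i + 1) * y := by ring
    have h3 : ((ζ ^ i)⁻¹) ^ j = ζ ^ j * ((ζ ^ (i + 1))⁻¹) ^ j := by
      rw [← mul_pow, pow_succ, mul_inv, mul_comm (ζ ^ i)⁻¹, mul_inv_cancel_left₀ hζ0]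
    rw [h2, h3]
    ring
  have h4 : g m = g 0 := by simp [hg, hζ.pow_eq_one]
  have h5 : ∑ i ∈ Finset.range m, g (i + 1) = ∑ i ∈ Finset.range m, g i := by
    have h6 := Finset.sum_range_succ g m
    have h7 := Finset.sum_range_succ' g m
    rw [h7, h4] at h6
    exact add_right_cancel h6
  rw [Finset.sum_congr rfl fun i _ => h1 i, ← Finset.mul_sum, h5]
  ring

omit [NormedAddCommGroup E] [NormedSpace ℂ E] in
theorem sum_eigPart {m : ℕ} (hm : 0 < m) {ζ : ℂ} (hζ : IsPrimitiveRoot ζ m) (f : E × ℂ → ℂ)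
    (x : E × ℂ) : ∑ j ∈ Finset.range m, eigPart m ζ f j x = f x := by
  have hζ0 : ζ ≠ 0 := hζ.ne_zero hm.ne'
  have hm0 : (m : ℂ) ≠ 0 := Nat.cast_ne_zero.2 hm.ne'
  simp only [eigPart]
  rw [← Finset.mul_sum, Finset.sum_comm]
  have h1 : ∀ i ∈ Finset.range m, ∑ j ∈ Finset.range m,
      ((ζ ^ i)⁻¹) ^ j * f (x.1, ζ ^ i * x.2) = if i = 0 then m * f x else 0 := by
    intro i hi
    have hi' := Finset.mem_range.1 hi
    rw [← Finset.sum_mul]
    split_ifs with h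
    · subst h; simp
    · have h2 : (ζ ^ i)⁻¹ ≠ 1 := by
        intro h3
        have h4 : ζ ^ i = 1 := by rw [← inv_inv (ζ ^ i), h3, inv_one]
        have := (hζ.pow_eq_one_iff_dvd i).1 h4
        exact absurd (Nat.le_of_dvd (Nat.pos_of_ne_zero h) this) (not_le.2 hi')
      have h5 : ((ζ ^ i)⁻¹) ^ m = 1 := by
        rw [inv_pow, ← pow_mul, mul_comm i m, pow_mul, hζ.pow_eq_one, one_pow, inv_one]
      have h6 := geom_sum_mul ((ζ ^ i)⁻¹) m
      rw [h5, sub_self] at h6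
      rw [(mul_eq_zero.1 h6).resolve_right (sub_ne_zero.2 h2), zero_mul]
  rw [Finset.sum_congr rfl h1, Finset.sum_ite_eq', if_pos (Finset.mem_range.2 hm)]
  field_simp

theorem eigPart_homog {m : ℕ} {ζ : ℂ} (hζ : IsPrimitiveRoot ζ m) {K : Set E} {H : E → ℂ} {e : ℕ}
    {k : ℤ} {f : E × ℂ → ℂ} (hfh : ∀ c : ℂ, c ≠ 0 → ∀ z ∈ K, ∀ y, y ^ m = H z →
      f (c • z, c ^ e * y) = c ^ k * f (z, y)) (j : ℕ) {c : ℂ} (hc : c ≠ 0) {z : E} (hz : z ∈ K)
    {y : ℂ} (hy : y ^ m = H z) :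
    eigPart m ζ f j (c • z, c ^ e * y) = c ^ k * eigPart m ζ f j (z, y) := by
  simp only [eigPart]
  have h1 : ∀ i ∈ Finset.range m, ((ζ ^ i)⁻¹) ^ j * f (c • z, ζ ^ i * (c ^ e * y)) =
      c ^ k * (((ζ ^ i)⁻¹) ^ j * f (z, ζ ^ i * y)) := by
    intro i _
    have h2 : ζ ^ i * (c ^ e * y) = c ^ e * (ζ ^ i * y) := by ring
    have h3 : (ζ ^ i * y) ^ m = H z := (mapsTo_rot hζ i (show (z, y) ∈ Cyc K H m from ⟨hz, hy⟩)).2
    rw [h2, hfh c hc z hz _ h3]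
    ring
  rw [Finset.sum_congr rfl h1, ← Finset.mul_sum]
  ring

end Vale.Agent.P298.H863
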