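import Vale.Agent.P298.H863.C12
import Vale.Agent.P298.H412.Hom

/-!
# P298, S1-GEO: the data of a family of smooth affine surfaces and a homogeneous function
-/

open scoped ContDiff ComplexConjugate Topology Matrix
open Vale.Agent.P298 Vale.Agent.P298.H379 Vale.Agent.P298.H412
open Vale.Agent.P298.H39 Vale.Agent.P272.K Filter Set

noncomputable section

namespace Vale.Agent.P298.H863

variable {d m : ℕ} {D : Set ℂ} {H : ℂ × (Fin 4 → ℂ) → ℂ}

/-- the equation at infinity -/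
lemma SF_inf (F : SFam d D) (t : ℂ) {z : Fin 4 → ℂ} (hz : z 0 = 0) :
    F.G (t, z) = ∑ i : Fin 3, F.c i * z i.succ ^ d := by
  have hd := F.hd
  have h1 : ∀ α : Mon d (d - 1), F.a t α * (z 0 ^ (d - (α.1 0 + α.1 1 + α.1 2 : ℕ)) *
      ∏ i : Fin 3, z i.succ ^ (α.1 i : ℕ)) = 0 := by
    intro α
    have := α.2.1
    rw [hz, zero_pow (by omega), zero_mul, mul_zero]
  simp only [SFam.G]
  rw [Finset.sum_eq_zero fun α _ => h1 α, hz, zero_pow (by omega)]
  ring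

lemma SF_last (F : SFam d D) (t : ℂ) :
    F.G (t, (Pi.single (Fin.last (1 + 2)) 1 : Fin (1 + 3) → ℂ)) ≠ 0 := by
  have h1 := SF_inf F t (z := (Pi.single (Fin.last 3) 1 : Fin 4 → ℂ)) rfl
  have hd := F.hd
  have h2 : ∑ i : Fin 3, F.c i * (Pi.single (Fin.last 3) 1 : Fin 4 → ℂ) i.succ ^ d = F.c 2 := by
    rw [Fin.sum_univ_three]
    have e0 : (Pi.single (Fin.last 3) 1 : Fin 4 → ℂ) (0 : Fin 3).succ = 0 := rfl
    have e1 : (Pi.single (Fin.last 3) 1 : Fin 4 → ℂ) (1 : Fin 3).succ = 0 := rfl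
    have e2 : (Pi.single (Fin.last 3) 1 : Fin 4 → ℂ) (2 : Fin 3).succ = 1 := rfl
    rw [e0, e1, e2, zero_pow (by omega)]
    simp
  rw [h2] at h1
  intro h3
  exact F.hc 2 (h1.symm.trans h3)

lemma SF_ne (F : SFam d D) (t : ℂ) : ∃ z : Fin 4 → ℂ, z ≠ 0 ∧ F.G (t, z) = 0 := by
  have hd := F.hd
  obtain ⟨r, hr⟩ := IsAlgClosed.exists_pow_nat_eq (-(F.c 0) / F.c 1) (n := d) (by omega)
  refine ⟨![0, 1, r, 0], fun h0 => ?_, ?_⟩
  · have := congrFun h0 1
    simp at this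
  · rw [SF_inf F t rfl, Fin.sum_univ_three]
    have e0 : (![0, 1, r, 0] : Fin 4 → ℂ) (0 : Fin 3).succ = 1 := rfl
    have e1 : (![0, 1, r, 0] : Fin 4 → ℂ) (1 : Fin 3).succ = r := rfl
    have e2 : (![0, 1, r, 0] : Fin 4 → ℂ) (2 : Fin 3).succ = 0 := rfl
    rw [e0, e1, e2, hr, zero_pow (by omega), one_pow]
    have := F.hc 1
    field_simp
    ring

/-- the data of the cyclic cover -/
theorem SF_dat (F : SFam d D) (hm : 1 ≤ m) (hH : HomFam D (m * (d - 4)) H) :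
    Dat D d (m * (d - 4)) F.G H where
  hD := F.hD
  hd := by have := F.hd; omega
  hM := Nat.mul_pos hm (by have := F.hd; omega)
  anG t ht z := F.G_analytic (t, z) ⟨ht, mem_univ _⟩
  anH t ht z := hH.an (t, z) ⟨ht, mem_univ _⟩
  homG t _ c z := F.G_hom t c z
  homH t ht c z := hH.hom t ht c z
  reg t ht z hz h0 := F.G_reg ht hz h0
  ne t _ := SF_ne F t

theorem SF_good (F : SFam d D) {t : ℂ} (h : GoodAt F.G H t) : Good F.G H t := h

lemma SF_open (F : SFam d D) {T : Set ℂ} (hT : T.Finite) : IsOpen (D \ T) :=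
  F.hD.sdiff hT.isClosed

/-- the family of covers over `D \ T` -/
theorem SF_cif (F : SFam d D) (hm : 1 ≤ m) (hH : HomFam D (m * (d - 4)) H) {T : Set ℂ}
    (hT : T.Finite) (hg : ∀ t ∈ D \ T, GoodAt F.G H t) :
    CIF (D \ T) (gZ F.G H (m * (d - 4))) ![d, m * (d - 4)] :=
  cifZ (SF_dat F hm hH) (SF_open F hT) sdiff_subset fun t ht => SF_good F (hg t ht)

end Vale.Agent.P298.H863
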